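/-
Row 258, Sec. 7.3 + 8.8 (home architect: helper244).  BLOCK [S7-T]: group sums of forms with strong factors.

Setting of one leaf of one attempt: root `R`, active cells `cells`, kernels `w`, actual uses `uses : Finset (ℕ × Cell)` (group, cell).
* `usesAt uses I`  : the groups used at the cell `I`;
* `certU R uses G J`: `J` is a cell of the attempt with a downstream actual use of `G`;
* `agg uses x I`   : the group-aggregated size `(∑_{G used at I} ‖x G I‖²_{2,I})^{1/2}`;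
* `n2p I z`        : normalized `L²(I)` norm of the PHYSICAL component;
* `gsum`           : `∑_{G used at I} H_I(x_0 G I, …, x_3 G I)`.
Statements (all paper-free, elementary: Cauchy-Schwarz in the group index + `PowerGoal` + the calculus `Ctrl`):
* `Ctrl.of_four`   : three strong factors and a fourth factor `c4 + D I` with a square budget;
* `s7_three`       : group sums with three strong slots (Prop. 7.5, first paragraph);
* `s7_err`         : group sums containing a physical error (Sec. 8.8);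
* `s7_pair`        : two strong slots against a pair-small couple (transferred main term).
LEAF P-S7-T: fill the sorries in place (auxiliary lemmas with prefix `s7t_`).
-/
import Claimed.Agent.R258.Pack009
import Claimed.Agent.R258.S5.Form
import Claimed.Agent.R258.Pack005
import Claimed.Agent.R258.Pack011

set_option autoImplicit false
open MeasureTheory

namespace Claimed.Agent.R258

open Classical

/-- the groups used at the cell `I` -/
noncomputable def usesAt (uses : Finset (ℕ × Cell)) (I : Cell) : Finset ℕ := (uses.filter fun u => u.2 = I).image Prod.fst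

/-- `J` is a cell of the attempt with a downstream actual use of the group `G` -/
def certU (R : Cell) (uses : Finset (ℕ × Cell)) (G : ℕ) (J : Cell) : Prop := J ≤ R ∧ ∃ u ∈ uses, u.1 = G ∧ u.2 ≤ J

/-- group-aggregated size at the cell `I` -/
noncomputable def agg (uses : Finset (ℕ × Cell)) (x : ℕ → Cell → XV) (I : Cell) : ℝ :=
  Real.sqrt (∑ G ∈ usesAt uses I, n2 I (x G I) ^ 2)

/-- normalized `L²(I)` norm of the physical component -/
noncomputable def n2p (I : Cell) (z : XV) : ℝ := Real.sqrt (I.len⁻¹ * ∫ y in I.set, ‖physFn z y‖ ^ 2)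

/-- the group sum of the forms at the cell `I` -/
noncomputable def gsum (uses : Finset (ℕ × Cell)) (w : Cell → ℝ × ℝ → ℂ) (x : Fin 4 → ℕ → Cell → XV) (I : Cell) : ℂ :=
  ∑ G ∈ usesAt uses I, formV I (w I) fun l => x l G I

/-- the sum of the absolute values -/
noncomputable def gabs (uses : Finset (ℕ × Cell)) (w : Cell → ℝ × ℝ → ℂ) (x : Fin 4 → ℕ → Cell → XV) (I : Cell) : ℝ :=
  ∑ G ∈ usesAt uses I, ‖formV I (w I) fun l => x l G I‖

theorem s7t_gsum_le (uses : Finset (ℕ × Cell)) (w : Cell → ℝ × ℝ → ℂ) (x : Fin 4 → ℕ → Cell → XV) (I : Cell) :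
    ‖gsum uses w x I‖ ≤ gabs uses w x I := norm_sum_le _ _

theorem s7t_n2_eq (I : Cell) (z : XV) :
    n2 I z = Real.sqrt (I.len⁻¹ * ∫ y in I.set, ‖(z : ℝ → HV) y‖ ^ 2) := by
  unfold n2
  rw [← xv_normsq_restr (cell_measurableSet I) z, Real.sqrt_mul (inv_nonneg.mpr (cell_len_nonneg I)),
    Real.sqrt_sq (norm_nonneg _), Real.sqrt_inv, div_eq_inv_mul]

theorem s7t_n2p_nonneg (I : Cell) (z : XV) : 0 ≤ n2p I z := Real.sqrt_nonneg _

theorem s7t_n2p_le (I : Cell) (z : XV) : n2p I z ≤ n2 I z := by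
  rw [s7t_n2_eq]
  unfold n2p
  refine Real.sqrt_le_sqrt (mul_le_mul_of_nonneg_left ?_ (inv_nonneg.mpr (cell_len_nonneg I)))
  refine integral_mono_of_nonneg (Filter.Eventually.of_forall fun y => by positivity)
    (xv_integrable_normsq z).integrableOn (Filter.Eventually.of_forall fun y => ?_)
  exact pow_le_pow_left₀ (norm_nonneg _) (xv_physFn_norm_le z y) 2

theorem s7t_physFn_measurable (z : XV) : Measurable (physFn z) :=
  ((xv_continuous_coord 0).comp_stronglyMeasurable (Lp.stronglyMeasurable z)).measurable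

theorem s7t_n2p_eq_nnorm (I : Cell) (z : XV) : n2p I z = nnorm 2 I (physFn z) := by
  unfold n2p nnorm
  rw [Real.sqrt_eq_rpow]
  simp only [Real.rpow_two]

theorem s7t_physFn_integrableOn (I : Cell) (z : XV) :
    IntegrableOn (fun y => ‖physFn z y‖ ^ (2 : ℝ)) I.set := by
  have := (xv_physFn_memLp z).integrable_norm_rpow (by norm_num) (by norm_num)
  simpa using this.integrableOn

/-- `s2_local_abs` for measurable, locally square integrable inputs -/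
theorem s7t_local_abs {c0 C0 : ℝ} {I : Cell} {w : ℝ × ℝ → ℂ} (h : Admissible c0 C0 I w)
    (hc0 : 0 < c0) {f : Fin 4 → ℝ → ℂ} (hf : ∀ j, Measurable (f j))
    (hi : ∀ j, IntegrableOn (fun y => ‖f j y‖ ^ (2 : ℝ)) I.set) :
    ‖form I w f‖ ≤ (C0 * 2) ^ (C0 * 2) * ∏ j : Fin 4, nnorm 2 I (f j) := by
  have hK0 : 0 ≤ (C0 * 2) ^ (C0 * 2) := (norm_nonneg _).trans (s2_adm_bound h 0)
  have hlen : 0 < I.len := cell_len_pos I
  have hR0 : 0 ≤ (C0 * 2) ^ (C0 * 2) * ∏ j : Fin 4, nnorm 2 I (f j) :=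
    mul_nonneg hK0 (Finset.prod_nonneg fun j _ => nnorm_nonneg _ _ _)
  rw [← ENNReal.ofReal_le_ofReal_iff hR0, ofReal_norm]
  have h1 := s2_local_abs_enn h hc0 (fun j y => ‖f j y‖ₑ) (fun j => (hf j).enorm)
  have h2 : ‖form I w f‖ₑ ≤ (ENNReal.ofReal (I.len ^ 2))⁻¹ *
      ∫⁻ p : ℝ × ℝ, ‖w p‖ₑ * ∏ j : Fin 4, ‖f j (p.1 + (j : ℝ) * p.2)‖ₑ := by
    unfold form
    rw [enorm_mul]
    have e1 : ‖(((I.len ^ 2)⁻¹ : ℝ) : ℂ)‖ₑ = (ENNReal.ofReal (I.len ^ 2))⁻¹ := by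
      rw [← ofReal_norm, Complex.norm_real, Real.norm_eq_abs, abs_of_pos (by positivity),
        ENNReal.ofReal_inv_of_pos (by positivity)]
    rw [e1]
    gcongr
    refine (enorm_integral_le_lintegral_enorm _).trans (le_of_eq ?_)
    refine lintegral_congr fun p => ?_
    rw [enorm_mul, Fin.prod_univ_four, Fin.prod_univ_four, enorm_mul, enorm_mul, enorm_mul]
  refine h2.trans (h1.trans (le_of_eq ?_))
  rw [ENNReal.ofReal_mul hK0, ENNReal.ofReal_prod_of_nonneg (fun j _ => nnorm_nonneg _ _ _)]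
  congr 1
  refine Finset.prod_congr rfl fun j _ => ?_
  rw [ofReal_nnorm_eq (by norm_num) I (f j) (hi j)]

/-- the form sees only the physical components: Lemma 2.1 with exponents `(2,2,2,2)` and physical norms -/
theorem s7t_bound_phys (c0 C0 : ℝ) (hc0 : 0 < c0) (hC0 : 1 ≤ C0) :
    ∃ Cw : ℝ, 1 ≤ Cw ∧ ∀ (I : Cell) (w : ℝ × ℝ → ℂ), Admissible c0 C0 I w → ∀ z : Fin 4 → XV,
      ‖formV I w z‖ ≤ Cw * ∏ l, n2p I (z l) := by
  refine ⟨max 1 ((C0 * 2) ^ (C0 * 2)), le_max_left _ _, fun I w hw z => ?_⟩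
  have h := s7t_local_abs hw hc0 (f := fun j => physFn (z j)) (fun j => s7t_physFn_measurable (z j))
    (fun j => s7t_physFn_integrableOn I (z j))
  simp only [← s7t_n2p_eq_nnorm] at h
  exact h.trans (mul_le_mul_of_nonneg_right (le_max_right _ _)
    (Finset.prod_nonneg fun l _ => s7t_n2p_nonneg I (z l)))

theorem s7t_mem_usesAt {uses : Finset (ℕ × Cell)} {I : Cell} {G : ℕ} : G ∈ usesAt uses I ↔ (G, I) ∈ uses := by
  unfold usesAt
  simp only [Finset.mem_image, Finset.mem_filter]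
  constructor
  · rintro ⟨⟨G', I'⟩, ⟨h1, h2⟩, h3⟩
    simp only at h2 h3
    subst h2 h3
    exact h1
  · intro h
    exact ⟨(G, I), ⟨h, rfl⟩, rfl⟩

/-- double sums over cells and the groups used there are sums over the uses -/
theorem s7t_sum_uses (uses : Finset (ℕ × Cell)) (cells : Finset Cell) (hu : ∀ u ∈ uses, u.2 ∈ cells)
    (f : ℕ → Cell → ℝ) : ∑ I ∈ cells, ∑ G ∈ usesAt uses I, f G I = ∑ u ∈ uses, f u.1 u.2 := by
  rw [← Finset.sum_fiberwise_of_maps_to (g := Prod.snd) hu]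
  refine Finset.sum_congr rfl fun I _ => ?_
  unfold usesAt
  rw [Finset.sum_image]
  · refine Finset.sum_congr rfl fun u hu' => ?_
    rw [(Finset.mem_filter.mp hu').2]
  · intro u hu1 v hv1 h
    have h1 := (Finset.mem_filter.mp hu1).2
    have h2 := (Finset.mem_filter.mp hv1).2
    exact Prod.ext h (h1.trans h2.symm)

theorem s7t_agg_nonneg (uses : Finset (ℕ × Cell)) (x : ℕ → Cell → XV) (I : Cell) : 0 ≤ agg uses x I :=
  Real.sqrt_nonneg _

theorem s7t_agg_sq (uses : Finset (ℕ × Cell)) (x : ℕ → Cell → XV) (I : Cell) :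
    agg uses x I ^ 2 = ∑ G ∈ usesAt uses I, n2 I (x G I) ^ 2 :=
  Real.sq_sqrt (Finset.sum_nonneg fun G _ => by positivity)

theorem s7t_len_n2_sq (I : Cell) (z : XV) : I.len * n2 I z ^ 2 = ‖restr I.set z‖ ^ 2 := by
  rw [xv_normsq_restr_eq, mul_comm]

/-- the budget of the aggregated size is the budget over the uses -/
theorem s7t_agg_budget (uses : Finset (ℕ × Cell)) (cells : Finset Cell) (hu : ∀ u ∈ uses, u.2 ∈ cells) (x : ℕ → Cell → XV) :
    ∑ I ∈ cells, I.len * agg uses x I ^ 2 = ∑ u ∈ uses, ‖restr u.2.set (x u.1 u.2)‖ ^ 2 := by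
  rw [← s7t_sum_uses uses cells hu fun G I => ‖restr I.set (x G I)‖ ^ 2]
  refine Finset.sum_congr rfl fun I _ => ?_
  rw [s7t_agg_sq, Finset.mul_sum]
  exact Finset.sum_congr rfl fun G _ => s7t_len_n2_sq I (x G I)

/-- three strong factors and a fourth factor `c4 + D I` with a square budget (two applications of `PowerGoal`). -/
theorem Ctrl.of_four (hPW : PowerGoal) {R : Cell} {cells : Finset Cell} (hc : ∀ I ∈ cells, I ≤ R)
    {t A B C D : Cell → ℝ} {Ea Eb Ec Ed c c4 p ε : ℝ}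
    (hA : ∀ I, 0 ≤ A I) (hB : ∀ I, 0 ≤ B I) (hC : ∀ I, 0 ≤ C I) (hD : ∀ I, 0 ≤ D I)
    (hEa : 0 ≤ Ea) (hEb : 0 ≤ Eb) (hEc : 0 ≤ Ec) (hEd : 0 ≤ Ed) (hc0 : 0 ≤ c) (hc4 : 0 ≤ c4)
    (ht : ∀ I ∈ cells, t I ≤ c * (A I * B I * C I) * (c4 + D I))
    (h1 : ∑ I ∈ cells, I.len * A I ^ 2 ≤ Ea * R.len) (h2 : ∑ I ∈ cells, I.len * B I ^ 2 ≤ Eb * R.len)
    (h3 : ∑ I ∈ cells, I.len * C I ^ 2 ≤ Ec * R.len) (h4 : ∑ I ∈ cells, I.len * D I ^ 2 ≤ Ed * R.len)
    (hp : 2 / 3 ≤ p) (hp1 : p ≤ 1) (hε : 0 < ε) (hε1 : ε < 1) :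
    Ctrl R cells t 0 ((c * (c4 + Real.sqrt (6 * Ed / ε))) ^ p * (216 * Ea * Eb * Ec / ε ^ 3) ^ (p / 2)) p ε := by
  have hε2 : 0 < ε / 2 := by linarith
  have hε21 : ε / 2 < 1 := by linarith
  obtain ⟨s₁, hs₁, -, hpow⟩ := hPW R cells hc A B C hA hB hC Ea Eb Ec hEa hEb hEc h1 h2 h3 (ε / 2) hε2 hε21
  obtain ⟨s₂, hs₂, hcap, -⟩ := hPW R cells hc D D D hD hD hD Ed Ed Ed hEd hEd hEd h4 h4 h4 (ε / 2) hε2 hε21
  have hABC : ∀ I, 0 ≤ A I * B I * C I := fun I => mul_nonneg (mul_nonneg (hA I) (hB I)) (hC I)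
  obtain ⟨K, hK⟩ : ∃ K, K = c * (c4 + Real.sqrt (6 * Ed / ε)) := ⟨_, rfl⟩
  have hK0 : 0 ≤ K := by
    rw [hK]
    exact mul_nonneg hc0 (add_nonneg hc4 (Real.sqrt_nonneg _))
  have hst : StopSet R (s₁ ∪ s₂) ε := by
    have := ctrl_stopSet_union hs₁ hs₂
    rwa [add_halves] at this
  rw [← hK]
  refine ⟨s₁ ∪ s₂, fun _ => 0, fun I => K * (A I * B I * C I), hst, fun _ => le_rfl,
    fun I => mul_nonneg hK0 (hABC I), fun I hI hr => ?_, by simp, ?_⟩
  · simp only [zero_add]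
    have hr2 := (ctrl_retained_union.mp hr).2
    have hD2 : D I ^ 2 ≤ 6 * Ed / ε := by
      have := (hcap I hI hr2).1
      calc D I ^ 2 ≤ 3 * Ed / (ε / 2) := this
        _ = 6 * Ed / ε := by field_simp; ring
    have hDle : D I ≤ Real.sqrt (6 * Ed / ε) := Real.le_sqrt_of_sq_le hD2
    calc t I ≤ c * (A I * B I * C I) * (c4 + D I) := ht I hI
      _ ≤ c * (A I * B I * C I) * (c4 + Real.sqrt (6 * Ed / ε)) :=
          mul_le_mul_of_nonneg_left (by linarith) (mul_nonneg hc0 (hABC I))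
      _ = K * (A I * B I * C I) := by rw [hK]; ring
  · have e : ∀ I : Cell, I.len * (K * (A I * B I * C I)) ^ p
        = K ^ p * (I.len * (A I * B I * C I) ^ p) := fun I => by
      rw [Real.mul_rpow hK0 (hABC I)]
      ring
    simp only [e]
    rw [← Finset.mul_sum, mul_assoc]
    refine mul_le_mul_of_nonneg_left ?_ (Real.rpow_nonneg hK0 _)
    have sub : cells.filter (Retained (s₁ ∪ s₂)) ⊆ cells.filter (Retained s₁) := by
      intro I hI
      rw [Finset.mem_filter] at hI ⊢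
      exact ⟨hI.1, (ctrl_retained_union.mp hI.2).1⟩
    calc ∑ I ∈ cells.filter (Retained (s₁ ∪ s₂)), I.len * (A I * B I * C I) ^ p
        ≤ ∑ I ∈ cells.filter (Retained s₁), I.len * (A I * B I * C I) ^ p :=
          Finset.sum_le_sum_of_subset_of_nonneg sub fun I _ _ =>
            mul_nonneg (ctrl_len_nonneg I) (Real.rpow_nonneg (hABC I) _)
      _ ≤ (27 * Ea * Eb * Ec / (ε / 2) ^ 3) ^ (p / 2) * R.len := hpow p hp hp1
      _ = (216 * Ea * Eb * Ec / ε ^ 3) ^ (p / 2) * R.len := by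
          congr 2
          field_simp
          ring

theorem s7t_prod_roles (e : Fin 4 ≃ Fin 4) (f : Fin 4 → ℝ) :
    ∏ l, f l = f (e.symm 0) * f (e.symm 1) * f (e.symm 2) * f (e.symm 3) := by
  rw [← Equiv.prod_comp e.symm f, Fin.prod_univ_four]

theorem s7t_prod_erase (e : Fin 4 ≃ Fin 4) (f : Fin 4 → ℝ) :
    ∏ j ∈ (Finset.univ.erase (e.symm 2)).erase (e.symm 3), f j = f (e.symm 0) * f (e.symm 1) := by
  have h : (Finset.univ.erase (e.symm 2)).erase (e.symm 3)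
      = ({0, 1} : Finset (Fin 4)).map e.symm.toEmbedding := by
    ext j
    obtain ⟨i, rfl⟩ := e.symm.surjective j
    simp only [Finset.mem_erase, Finset.mem_univ, and_true, Finset.mem_map_equiv, Equiv.symm_symm,
      Equiv.apply_symm_apply, ne_eq, e.symm.injective.eq_iff]
    fin_cases i <;> simp
  rw [h, Finset.prod_map, Finset.prod_pair (by decide)]
  rfl

/-- weighted Cauchy-Schwarz with budgets -/
theorem s7t_wcs {ι : Type*} (s : Finset ι) (ℓ a b : ι → ℝ) (hℓ : ∀ i ∈ s, 0 ≤ ℓ i) (Ea Eb L : ℝ) (hL : 0 ≤ L)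
    (ha : ∑ i ∈ s, ℓ i * a i ^ 2 ≤ Ea * L) (hb : ∑ i ∈ s, ℓ i * b i ^ 2 ≤ Eb * L) :
    ∑ i ∈ s, ℓ i * (a i * b i) ≤ Real.sqrt (Ea * Eb) * L := by
  have h0 : 0 ≤ ∑ i ∈ s, ℓ i * a i ^ 2 := Finset.sum_nonneg fun i hi => mul_nonneg (hℓ i hi) (sq_nonneg _)
  have h1 : ∑ i ∈ s, ℓ i * (a i * b i) = ∑ i ∈ s, (Real.sqrt (ℓ i) * a i) * (Real.sqrt (ℓ i) * b i) := by
    refine Finset.sum_congr rfl fun i hi => ?_
    have := Real.mul_self_sqrt (hℓ i hi)
    calc ℓ i * (a i * b i) = (Real.sqrt (ℓ i) * Real.sqrt (ℓ i)) * (a i * b i) := by rw [this]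
      _ = _ := by ring
  have h2 : ∀ c : ι → ℝ, ∑ i ∈ s, (Real.sqrt (ℓ i) * c i) ^ 2 = ∑ i ∈ s, ℓ i * c i ^ 2 := fun c =>
    Finset.sum_congr rfl fun i hi => by rw [mul_pow, Real.sq_sqrt (hℓ i hi)]
  rw [h1]
  refine (Real.sum_mul_le_sqrt_mul_sqrt s _ _).trans ?_
  rw [h2, h2]
  calc Real.sqrt (∑ i ∈ s, ℓ i * a i ^ 2) * Real.sqrt (∑ i ∈ s, ℓ i * b i ^ 2)
      ≤ Real.sqrt (Ea * L) * Real.sqrt (Eb * L) :=
        mul_le_mul (Real.sqrt_le_sqrt ha) (Real.sqrt_le_sqrt hb) (Real.sqrt_nonneg _) (Real.sqrt_nonneg _)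
    _ = Real.sqrt (Ea * L * (Eb * L)) := (Real.sqrt_mul (h0.trans ha) _).symm
    _ = Real.sqrt (Ea * Eb * L ^ 2) := by congr 1; ring
    _ = Real.sqrt (Ea * Eb) * L := by rw [Real.sqrt_mul' _ (sq_nonneg L), Real.sqrt_sq hL]

theorem s7t_gabs_nonneg (uses : Finset (ℕ × Cell)) (w : Cell → ℝ × ℝ → ℂ) (x : Fin 4 → ℕ → Cell → XV) (I : Cell) :
    0 ≤ gabs uses w x I := Finset.sum_nonneg fun _ _ => norm_nonneg _

/-- **three strong slots.**  `e` maps slots to roles; the roles `0,1,2` have square budgets over the uses (a SHARED strong factor is the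
special case of an `x` that does not depend on `G`: use `hsh`-free form with `Ec` the budget of `sup_G`), the role `3` is bounded by
`c4 + y G I` with a square budget for `y`. -/
theorem s7_three (hPW : PowerGoal) (c0 C0 Cw : ℝ)
    (hCw : ∀ (I : Cell) (w : ℝ × ℝ → ℂ), Admissible c0 C0 I w → ∀ z : Fin 4 → XV, ‖formV I w z‖ ≤ Cw * ∏ l, n2 I (z l))
    (hCw0 : 0 ≤ Cw)
    (R : Cell) (cells : Finset Cell) (hc : ∀ I ∈ cells, I ≤ R) (w : Cell → ℝ × ℝ → ℂ) (hw : ∀ I ∈ cells, Admissible c0 C0 I (w I))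
    (uses : Finset (ℕ × Cell)) (hu : ∀ u ∈ uses, u.2 ∈ cells)
    (x : Fin 4 → ℕ → Cell → XV) (e : Fin 4 ≃ Fin 4) (sz : Fin 3 → Cell → ℝ) (D : Cell → ℝ) (Es : Fin 3 → ℝ) (Ed c4 : ℝ)
    (hsz : ∀ i I, 0 ≤ sz i I) (hD : ∀ I, 0 ≤ D I) (hEs : ∀ i, 0 ≤ Es i) (hEd : 0 ≤ Ed) (hc4 : 0 ≤ c4)
    /- roles 0 and 1: aggregated sizes -/
    (h0 : ∀ I ∈ cells, agg uses (x (e.symm 0)) I ≤ sz 0 I) (h1 : ∀ I ∈ cells, agg uses (x (e.symm 1)) I ≤ sz 1 I)
    /- role 2: supremum over the groups -/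
    (h2 : ∀ u ∈ uses, n2 u.2 (x (e.symm 2) u.1 u.2) ≤ sz 2 u.2)
    (h3 : ∀ u ∈ uses, n2 u.2 (x (e.symm 3) u.1 u.2) ≤ c4 + D u.2)
    (hb : ∀ i, ∑ I ∈ cells, I.len * sz i I ^ 2 ≤ Es i * R.len) (hbd : ∑ I ∈ cells, I.len * D I ^ 2 ≤ Ed * R.len)
    (p ε : ℝ) (hp : 2 / 3 ≤ p) (hp1 : p ≤ 1) (hε : 0 < ε) (hε1 : ε < 1) :
    Ctrl R cells (gabs uses w x) 0
      ((Cw * (c4 + Real.sqrt (6 * Ed / ε))) ^ p * (216 * Es 0 * Es 1 * Es 2 / ε ^ 3) ^ (p / 2)) p ε := by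
  refine Ctrl.of_four hPW hc (hsz 0) (hsz 1) (hsz 2) hD (hEs 0) (hEs 1) (hEs 2) hEd hCw0 hc4
    (fun I hI => ?_) (hb 0) (hb 1) (hb 2) hbd hp hp1 hε hε1
  have hcD : 0 ≤ c4 + D I := add_nonneg hc4 (hD I)
  have hn : ∀ l G, 0 ≤ n2 I (x l G I) := fun l G => xv_n2_nonneg _ _
  have h5 : ∀ G ∈ usesAt uses I, ‖formV I (w I) fun l => x l G I‖
      ≤ Cw * (sz 2 I * (c4 + D I)) * (n2 I (x (e.symm 0) G I) * n2 I (x (e.symm 1) G I)) := by
    intro G hG
    have hGu := s7t_mem_usesAt.mp hG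
    have e2 := h2 _ hGu
    have e3 := h3 _ hGu
    simp only at e2 e3
    calc ‖formV I (w I) fun l => x l G I‖ ≤ Cw * ∏ l, n2 I (x l G I) := hCw I (w I) (hw I hI) _
      _ = Cw * (n2 I (x (e.symm 2) G I) * n2 I (x (e.symm 3) G I))
            * (n2 I (x (e.symm 0) G I) * n2 I (x (e.symm 1) G I)) := by
          rw [s7t_prod_roles e]
          ring
      _ ≤ _ := by
          refine mul_le_mul_of_nonneg_right ?_ (mul_nonneg (hn _ _) (hn _ _))
          exact mul_le_mul_of_nonneg_left (mul_le_mul e2 e3 (hn _ _) (hsz 2 I)) hCw0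
  calc gabs uses w x I
      ≤ ∑ G ∈ usesAt uses I, Cw * (sz 2 I * (c4 + D I))
          * (n2 I (x (e.symm 0) G I) * n2 I (x (e.symm 1) G I)) := Finset.sum_le_sum h5
    _ = Cw * (sz 2 I * (c4 + D I))
          * ∑ G ∈ usesAt uses I, n2 I (x (e.symm 0) G I) * n2 I (x (e.symm 1) G I) := by
        rw [Finset.mul_sum]
    _ ≤ Cw * (sz 2 I * (c4 + D I)) * (sz 0 I * sz 1 I) := by
        refine mul_le_mul_of_nonneg_left ?_ (mul_nonneg hCw0 (mul_nonneg (hsz 2 I) hcD))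
        refine (Real.sum_mul_le_sqrt_mul_sqrt _ _ _).trans ?_
        exact mul_le_mul (h0 I hI) (h1 I hI) (Real.sqrt_nonneg _) (hsz 0 I)
    _ = Cw * (sz 0 I * sz 1 I * sz 2 I) * (c4 + D I) := by ring

/-- **physical errors.**  The role `0` has a small integrated PHYSICAL square budget; the other three roles are bounded by `c4 + D I` with a
square budget; `M0` bounds the total length of the uses.  The result is an absolute bound on the retained cells. -/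
theorem s7_err (hPW : PowerGoal) (c0 C0 Cw : ℝ)
    (hCw : ∀ (I : Cell) (w : ℝ × ℝ → ℂ), Admissible c0 C0 I w → ∀ z : Fin 4 → XV, ‖formV I w z‖ ≤ Cw * ∏ l, n2p I (z l))
    (hCw0 : 0 ≤ Cw)
    (R : Cell) (cells : Finset Cell) (hc : ∀ I ∈ cells, I ≤ R) (w : Cell → ℝ × ℝ → ℂ) (hw : ∀ I ∈ cells, Admissible c0 C0 I (w I))
    (uses : Finset (ℕ × Cell)) (hu : ∀ u ∈ uses, u.2 ∈ cells)
    (x : Fin 4 → ℕ → Cell → XV) (e : Fin 4 ≃ Fin 4) (D : Cell → ℝ) (Ed c4 small M0 : ℝ)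
    (hD : ∀ I, 0 ≤ D I) (hEd : 0 ≤ Ed) (hc4 : 0 ≤ c4) (hsm : 0 ≤ small) (hM0 : 0 ≤ M0)
    (h0 : ∑ u ∈ uses, u.2.len * n2p u.2 (x (e.symm 0) u.1 u.2) ^ 2 ≤ small * R.len)
    (h3 : ∀ i : Fin 4, i ≠ 0 → ∀ u ∈ uses, n2p u.2 (x (e.symm i) u.1 u.2) ≤ c4 + D u.2)
    (hbd : ∑ I ∈ cells, I.len * D I ^ 2 ≤ Ed * R.len) (hM : ∑ u ∈ uses, u.2.len ≤ M0 * R.len)
    (p ε : ℝ) (hp : 0 < p) (hε : 0 < ε) (hε1 : ε < 1) :
    Ctrl R cells (gabs uses w x) (Cw * (c4 + Real.sqrt (3 * Ed / ε)) ^ 3 * Real.sqrt (M0 * small)) 0 p ε := by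
  obtain ⟨stops, hs, hcap, -⟩ := hPW R cells hc D D D hD hD hD Ed Ed Ed hEd hEd hEd hbd hbd hbd ε hε hε1
  obtain ⟨K, hK⟩ : ∃ K, K = c4 + Real.sqrt (3 * Ed / ε) := ⟨_, rfl⟩
  have hK0 : 0 ≤ K := by
    rw [hK]
    exact add_nonneg hc4 (Real.sqrt_nonneg _)
  rw [← hK]
  have hn : ∀ l G I, 0 ≤ n2p I (x l G I) := fun l G I => s7t_n2p_nonneg _ _
  have hu0 : ∀ I, 0 ≤ Cw * K ^ 3 * ∑ G ∈ usesAt uses I, n2p I (x (e.symm 0) G I) := fun I =>
    mul_nonneg (mul_nonneg hCw0 (pow_nonneg hK0 3)) (Finset.sum_nonneg fun G _ => hn _ _ _)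
  refine ⟨stops, fun I => Cw * K ^ 3 * ∑ G ∈ usesAt uses I, n2p I (x (e.symm 0) G I), fun _ => 0, hs, hu0,
    fun _ => le_rfl, fun I hI hr => ?_, ?_, ?_⟩
  · simp only [add_zero]
    have hDle : c4 + D I ≤ K := by
      rw [hK]
      have := Real.le_sqrt_of_sq_le (hcap I hI hr).1
      linarith
    rw [Finset.mul_sum]
    refine Finset.sum_le_sum fun G hG => ?_
    have hGu := s7t_mem_usesAt.mp hG
    have e1 := (h3 1 (by decide) _ hGu).trans hDle
    have e2 := (h3 2 (by decide) _ hGu).trans hDle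
    have e3 := (h3 3 (by decide) _ hGu).trans hDle
    simp only at e1 e2 e3
    calc ‖formV I (w I) fun l => x l G I‖ ≤ Cw * ∏ l, n2p I (x l G I) := hCw I (w I) (hw I hI) _
      _ = Cw * (n2p I (x (e.symm 1) G I) * n2p I (x (e.symm 2) G I) * n2p I (x (e.symm 3) G I))
            * n2p I (x (e.symm 0) G I) := by
          rw [s7t_prod_roles e]
          ring
      _ ≤ Cw * (K * K * K) * n2p I (x (e.symm 0) G I) := by
          refine mul_le_mul_of_nonneg_right ?_ (hn _ _ _)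
          refine mul_le_mul_of_nonneg_left ?_ hCw0
          exact mul_le_mul (mul_le_mul e1 e2 (hn _ _ _) hK0) e3 (hn _ _ _) (mul_nonneg hK0 hK0)
      _ = Cw * K ^ 3 * n2p I (x (e.symm 0) G I) := by ring
  · have hcs := s7t_wcs uses (fun u => u.2.len) (fun _ => 1) (fun u => n2p u.2 (x (e.symm 0) u.1 u.2))
      (fun u _ => ctrl_len_nonneg _) M0 small R.len (ctrl_len_nonneg R) (by simpa using hM) h0
    calc ∑ I ∈ cells.filter (Retained stops), I.len * (Cw * K ^ 3 * ∑ G ∈ usesAt uses I, n2p I (x (e.symm 0) G I))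
        ≤ ∑ I ∈ cells, I.len * (Cw * K ^ 3 * ∑ G ∈ usesAt uses I, n2p I (x (e.symm 0) G I)) :=
          Finset.sum_le_sum_of_subset_of_nonneg (Finset.filter_subset _ _) fun I _ _ =>
            mul_nonneg (ctrl_len_nonneg I) (hu0 I)
      _ = Cw * K ^ 3 * ∑ I ∈ cells, ∑ G ∈ usesAt uses I, I.len * (1 * n2p I (x (e.symm 0) G I)) := by
          rw [Finset.mul_sum]
          refine Finset.sum_congr rfl fun I _ => ?_
          rw [Finset.mul_sum, Finset.mul_sum, Finset.mul_sum]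
          refine Finset.sum_congr rfl fun G _ => ?_
          ring
      _ = Cw * K ^ 3 * ∑ u ∈ uses, u.2.len * (1 * n2p u.2 (x (e.symm 0) u.1 u.2)) := by
          rw [s7t_sum_uses uses cells hu fun G I => I.len * (1 * n2p I (x (e.symm 0) G I))]
      _ ≤ Cw * K ^ 3 * (Real.sqrt (M0 * small) * R.len) :=
          mul_le_mul_of_nonneg_left hcs (mul_nonneg hCw0 (pow_nonneg hK0 3))
      _ = Cw * K ^ 3 * Real.sqrt (M0 * small) * R.len := by ring
  · simp [Real.zero_rpow hp.ne']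

/-- **pair-small main terms.**  The roles `2,3` carry a pair (independent of the group) of form norm `≤ η`; the roles `0,1` have square
budgets.  Absolute bound, no stops. -/
theorem s7_pair (R : Cell) (cells : Finset Cell) (w : Cell → ℝ × ℝ → ℂ)
    (uses : Finset (ℕ × Cell)) (hu : ∀ u ∈ uses, u.2 ∈ cells)
    (x : Fin 4 → ℕ → Cell → XV) (e : Fin 4 ≃ Fin 4) (Y Y' : Cell → XV) (η Ea Eb : ℝ) (hη : 0 ≤ η) (hEa : 0 ≤ Ea) (hEb : 0 ≤ Eb)
    (h2 : ∀ u ∈ uses, x (e.symm 2) u.1 u.2 = Y u.2) (h3 : ∀ u ∈ uses, x (e.symm 3) u.1 u.2 = Y' u.2)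
    (hpair : ∀ I ∈ cells, PairSmall I (w I) (e.symm 2) (e.symm 3) (Y I) (Y' I) η)
    (ha : ∑ u ∈ uses, ‖restr u.2.set (x (e.symm 0) u.1 u.2)‖ ^ 2 ≤ Ea * R.len)
    (hb : ∑ u ∈ uses, ‖restr u.2.set (x (e.symm 1) u.1 u.2)‖ ^ 2 ≤ Eb * R.len)
    (p : ℝ) (hp : 0 < p) :
    Ctrl R cells (gabs uses w x) (η * Real.sqrt (Ea * Eb)) 0 p 0 := by
  refine Ctrl.of_abs (s7t_gabs_nonneg uses w x) ?_ hp
  have hcs := s7t_wcs uses (fun u => u.2.len) (fun u => n2 u.2 (x (e.symm 0) u.1 u.2))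
    (fun u => n2 u.2 (x (e.symm 1) u.1 u.2)) (fun u _ => ctrl_len_nonneg _) Ea Eb R.len (ctrl_len_nonneg R)
    (by simpa only [s7t_len_n2_sq] using ha) (by simpa only [s7t_len_n2_sq] using hb)
  calc ∑ I ∈ cells, I.len * gabs uses w x I
      ≤ ∑ I ∈ cells, ∑ G ∈ usesAt uses I,
          η * (I.len * (n2 I (x (e.symm 0) G I) * n2 I (x (e.symm 1) G I))) := by
        refine Finset.sum_le_sum fun I hI => ?_
        unfold gabs
        rw [Finset.mul_sum]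
        refine Finset.sum_le_sum fun G hG => ?_
        have hGu := s7t_mem_usesAt.mp hG
        have h := hpair I hI (fun l => x l G I) (h2 _ hGu) (h3 _ hGu)
        rw [s7t_prod_erase e fun j => n2 I (x j G I)] at h
        calc I.len * ‖formV I (w I) fun l => x l G I‖
            ≤ I.len * (η * (n2 I (x (e.symm 0) G I) * n2 I (x (e.symm 1) G I))) :=
              mul_le_mul_of_nonneg_left h (ctrl_len_nonneg I)
          _ = _ := by ring
    _ = ∑ u ∈ uses, η * (u.2.len * (n2 u.2 (x (e.symm 0) u.1 u.2) * n2 u.2 (x (e.symm 1) u.1 u.2))) :=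
        s7t_sum_uses uses cells hu fun G I => η * (I.len * (n2 I (x (e.symm 0) G I) * n2 I (x (e.symm 1) G I)))
    _ = η * ∑ u ∈ uses, u.2.len * (n2 u.2 (x (e.symm 0) u.1 u.2) * n2 u.2 (x (e.symm 1) u.1 u.2)) := by
        rw [Finset.mul_sum]
    _ ≤ η * (Real.sqrt (Ea * Eb) * R.len) := mul_le_mul_of_nonneg_left hcs hη
    _ = η * Real.sqrt (Ea * Eb) * R.len := by ring

end Claimed.Agent.R258
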