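/-
Row 258, Secs. 6.5/7.2 (home architect: helper244).  BLOCK [S7-HIST]: the histories of Sec. 6 (Loc/Iface.lean, helper68) are `IsComb`.

For a localization system `Y : LocSys Tag`:
* `Y.famM l`     : the individual MAIN mask families of the slot `l` (all filters, all pads) and the two basic catalogs `X.cat l c`;
* `Y.famH hc l`  : the individual HELPER mask families of the slot `l`;
* `Inh` for all of them; `IsComb` for `Qbar, evalH, evalP, evalD, bandM, bandH` and for the basic argument `B_l`;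
* `UsableBessel` for the individual ball families from `BesselGoal` (Lemma 6.5);
* group Bessel at one cell for the smeared ball filters.
All proofs: induction on lists + `IsComb` calculus (S7/Comb.lean) + monotonicity of masks (Loc/ColourSys.lean).  No analysis, no paper.
LEAF P-S7-HIST: PROVED (helper254), this file is complete (prefix `hst_`).  `hst_bud_M` is stated for the mask families only, the catalogs are
covered by `hst_sub_avail` (agreed with helper244).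
-/
import Claimed.Agent.R258.Pack007
import Claimed.Agent.R258.Pack004

set_option autoImplicit false
open MeasureTheory

namespace Claimed.Agent.R258

open Classical

namespace LocSys
variable {Tag : Type} (Y : LocSys Tag)

/-- individual main mask families of the slot `l`, and the two basic catalogs -/
def famM (l : Fin 4) : Set (Cell → Finset Col) := {g | (∃ f pd, g = Y.lmM l f pd) ∨ ∃ c, g = Y.X.cat l c}

/-- individual helper mask families of the slot `l` -/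
def famH (hc : LocCat) (l : Fin 4) : Set (Cell → Finset Col) := {g | ∃ f pd, g = Y.lmH hc l f pd}

/-- the actual uses of the leaf `κ` on a set of cells -/
noncomputable def uses7 (κ : ℕ) (cells : Finset Cell) : Finset (ℕ × Cell) :=
  cells.biUnion fun I => (Y.cur κ I).image fun G => (G, I)

/-- the groups of the leaf `κ` -/
noncomputable def grps7 (κ : ℕ) (cells : Finset Cell) : Finset ℕ := (Y.uses7 κ cells).image Prod.fst

/-- the operator producing the basic argument `B_l` from `F_l` -/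
noncomputable def opB (l : Fin 4) (J : Cell) : XV →L[ℂ] XV := cproj (Y.X.cat l 0 J) J - cproj (Y.X.cat l 1 J) J

theorem hst_mem_uses7 {κ : ℕ} {cells : Finset Cell} {u : ℕ × Cell} : u ∈ Y.uses7 κ cells ↔ u.2 ∈ cells ∧ u.1 ∈ Y.cur κ u.2 := by
  obtain ⟨G, I⟩ := u
  simp only [uses7, Finset.mem_biUnion, Finset.mem_image, Prod.mk.injEq]
  constructor
  · rintro ⟨I', hI', G', hG', rfl, rfl⟩
    exact ⟨hI', hG'⟩
  · rintro ⟨h1, h2⟩
    exact ⟨I, h1, G, h2, rfl, rfl⟩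

theorem hst_usesAt (κ : ℕ) (cells : Finset Cell) {I : Cell} (hI : I ∈ cells) : usesAt (Y.uses7 κ cells) I = Y.cur κ I := by
  ext G
  simp only [usesAt, Finset.mem_image, Finset.mem_filter, hst_mem_uses7]
  constructor
  · rintro ⟨⟨G', I'⟩, ⟨⟨_, h2⟩, h3⟩, rfl⟩
    dsimp only at h2 h3 ⊢
    rw [← h3]
    exact h2
  · intro h
    exact ⟨(G, I), ⟨⟨hI, h⟩, rfl⟩, rfl⟩

theorem hst_msk_depth (f : LocFilt) (h : ℕ) {I J : Cell} (hJ : J ≤ I) : Y.msk f h I ⊆ Y.msk f h J := by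
  cases f with
  | cum m => exact Y.CS.cumMask_depth m h hJ
  | ball j G => exact Y.CS.mask_depth G h I J hJ

theorem hst_msk_pad (f : LocFilt) {h h' : ℕ} (hh : h ≤ h') (I : Cell) : Y.msk f h I ⊆ Y.msk f h' I := by
  cases f with
  | cum m => exact Y.CS.cumMask_mono_pad m hh I
  | ball j G => exact Y.CS.mask_pad G h h' I hh

theorem hst_mem_lm {c : LocCat} {l : Fin 4} {r : ℕ} {M : Set ℕ} {I : Cell} {Φ : Col} :
    Φ ∈ c.lm l r M I ↔ Φ ∈ c.cols ∧ I ≤ Φ.birth ∧ c.slot Φ.lab = l ∧ c.rank Φ.lab ≤ r ∧ c.vtx Φ.lab ∈ M := by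
  simp only [LocCat.lm, Finset.mem_filter]

theorem hst_mem_avail {c : LocCat} {I : Cell} {Φ : Col} : Φ ∈ c.avail I ↔ Φ ∈ c.cols ∧ I ≤ Φ.birth := by
  simp only [LocCat.avail, Finset.mem_filter]

/-- a family of label masks of a catalog with private labels, with vertex masks increasing in depth, is inherited -/
theorem hst_inh_lm (R : Cell) (c : LocCat) (hlab : ∀ Φ ∈ c.cols, ∀ Φ' ∈ c.cols, Φ.lab = Φ'.lab → Φ = Φ') (l : Fin 4) (r : ℕ)
    (M : Cell → Set ℕ) (hM : ∀ I J : Cell, J ≤ I → M I ⊆ M J) : Inh R (fun I => c.lm l r (M I) I) where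
  birth := fun I Φ hΦ => (hst_mem_lm.1 hΦ).2.1
  mono := by
    intro I I' _ hI' Φ hΦ
    obtain ⟨h1, h2, h3, h4, h5⟩ := hst_mem_lm.1 hΦ
    exact hst_mem_lm.2 ⟨h1, le_trans hI' h2, h3, h4, hM I I' hI' h5⟩
  lab := fun I I' Φ hΦ Φ' hΦ' h => hlab Φ (hst_mem_lm.1 hΦ).1 Φ' (hst_mem_lm.1 hΦ').1 h

theorem hst_opB (l : Fin 4) (J : Cell) : Y.opB l J (Y.X.F l) = Y.X.B l J := by
  simp [opB, BaseSeg.B]

/-- inheritance of the main families.  `hcat` = the fields `cat_birth, cat_mono, lab_inj` of `BaseSeg.Valid`. -/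
theorem hst_inh_M {Dm : ℝ} {m0 : ℕ} (hY : Y.Valid Dm m0) {c0 C0 q η D M LU : ℝ} (hX : Y.X.Valid c0 C0 q η D M LU) (l : Fin 4) :
    ∀ g ∈ Y.famM l, Inh Y.X.root g := by
  rintro g (⟨f, pd, rfl⟩ | ⟨c, rfl⟩)
  · exact hst_inh_lm Y.X.root Y.cat hY.lab_inj l _ _ fun I J hJ => Y.hst_msk_depth f _ hJ
  · exact ⟨hX.cat_birth l c, hX.cat_mono l c, fun I I' Φ hΦ Φ' hΦ' h => (hX.lab_inj l c I l c I' Φ hΦ Φ' hΦ' h).1⟩

theorem hst_inh_H {Dm : ℝ} {m0 : ℕ} (hY : Y.Valid Dm m0) (hc : LocCat) (hh : Y.HelpValid hc Dm) (l : Fin 4) :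
    ∀ g ∈ Y.famH hc l, Inh Y.X.root g := by
  rintro g ⟨f, pd, rfl⟩
  exact hst_inh_lm Y.X.root hc hh.lab_inj l _ _ fun I J hJ => Y.hst_msk_depth f _ hJ

omit Y in
/-- a budget passes to subfamilies -/
theorem hst_bud_of_sub {R : Cell} {m m' : Cell → Finset Col} {ch : ℕ → Chart} {D : ℝ} (h : Bud R m' ch D) (hs : ∀ I, m I ⊆ m' I) :
    Bud R m ch D where
  chart := fun I Φ hΦ => h.chart I Φ (hs I hΦ)
  cplx := fun I Φ hΦ => h.cplx I Φ (hs I hΦ)
  bdd := fun I Φ hΦ => h.bdd I Φ (hs I hΦ)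
  eps := fun I Φ hΦ => h.eps I Φ (hs I hΦ)
  count := fun I hI A hA => h.count I hI A fun Φ hΦ => by
    obtain ⟨⟨I', hI', hm⟩, hb⟩ := hA Φ hΦ
    exact ⟨⟨I', hI', hs I' hm⟩, hb⟩

theorem hst_lmM_sub_avail (l : Fin 4) (f : LocFilt) (pd : ℕ) (I : Cell) : Y.lmM l f pd I ⊆ Y.cat.avail I := fun _ hΦ =>
  hst_mem_avail.2 ⟨(hst_mem_lm.1 hΦ).1, (hst_mem_lm.1 hΦ).2.1⟩

theorem hst_lmH_sub_avail (hc : LocCat) (l : Fin 4) (f : LocFilt) (pd : ℕ) (I : Cell) : Y.lmH hc l f pd I ⊆ hc.avail I := fun _ hΦ =>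
  hst_mem_avail.2 ⟨(hst_mem_lm.1 hΦ).1, (hst_mem_lm.1 hΦ).2.1⟩

/-- the budget of the main MASK families (the basic catalogs `X.cat l c` are unconstrained off the root: for them use `hst_sub_avail`;
change agreed with helper244, msg 12603). -/
theorem hst_bud_M {Dm : ℝ} {m0 : ℕ} (hY : Y.Valid Dm m0) (l : Fin 4) (f : LocFilt) (pd : ℕ) :
    Bud Y.X.root (Y.lmM l f pd) Y.cat.chart Dm :=
  hst_bud_of_sub hY.bud (Y.hst_lmM_sub_avail l f pd)

theorem hst_bud_H (hc : LocCat) {Dm : ℝ} (hh : Y.HelpValid hc Dm) (l : Fin 4) (f : LocFilt) (pd : ℕ) :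
    Bud Y.X.root (Y.lmH hc l f pd) hc.chart Dm :=
  hst_bud_of_sub hh.bud (Y.hst_lmH_sub_avail hc l f pd)

/-- below the root all main families consist of available columns of the main catalog.
`htree` = "no column is born off the tree" (requested field `cat_tree` of `BaseSeg.Valid`). -/
theorem hst_sub_avail {Dm : ℝ} {m0 : ℕ} (hY : Y.Valid Dm m0) {c0 C0 q η D M LU : ℝ} (hX : Y.X.Valid c0 C0 q η D M LU)
    (htree : ∀ l c I, I ≤ Y.X.root → ∀ Φ ∈ Y.X.cat l c I, ∃ I' ∈ Y.X.T, I ≤ I' ∧ Φ ∈ Y.X.cat l c I') (l : Fin 4) :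
    ∀ g ∈ Y.famM l, ∀ I, I ≤ Y.X.root → g I ⊆ Y.cat.avail I := by
  rintro g (⟨f, pd, rfl⟩ | ⟨c, rfl⟩) I hI
  · exact Y.hst_lmM_sub_avail l f pd I
  · intro Φ hΦ
    obtain ⟨I', hI', -, hΦ'⟩ := htree l c I hI Φ hΦ
    exact hst_mem_avail.2 ⟨(hY.basic l c I' hI' Φ hΦ').1, hX.cat_birth l c I Φ hΦ⟩

theorem hst_sub_avail_H (hc : LocCat) (l : Fin 4) : ∀ g ∈ Y.famH hc l, ∀ I, g I ⊆ hc.avail I := by
  rintro g ⟨f, pd, rfl⟩ I
  exact Y.hst_lmH_sub_avail hc l f pd I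

omit Y in
theorem hst_inh_avail_cat (R : Cell) (c : LocCat) (hlab : ∀ Φ ∈ c.cols, ∀ Φ' ∈ c.cols, Φ.lab = Φ'.lab → Φ = Φ') : Inh R c.avail where
  birth := fun I Φ hΦ => (hst_mem_avail.1 hΦ).2
  mono := fun I I' _ hI' Φ hΦ => hst_mem_avail.2 ⟨(hst_mem_avail.1 hΦ).1, le_trans hI' (hst_mem_avail.1 hΦ).2⟩
  lab := fun I I' Φ hΦ Φ' hΦ' h => hlab Φ (hst_mem_avail.1 hΦ).1 Φ' (hst_mem_avail.1 hΦ').1 h

/-- the whole main catalog is an inherited family -/
theorem hst_inh_avail {Dm : ℝ} {m0 : ℕ} (hY : Y.Valid Dm m0) : Inh Y.X.root Y.cat.avail :=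
  hst_inh_avail_cat _ _ hY.lab_inj

theorem hst_inh_avail_H (hc : LocCat) {Dm : ℝ} (hh : Y.HelpValid hc Dm) : Inh Y.X.root hc.avail :=
  hst_inh_avail_cat _ _ hh.lab_inj

/-- at most `D` current groups on a cell -/
theorem hst_cur_card (κ : ℕ) (I : Cell) : (Y.cur κ I).card ≤ Y.p.D := by
  unfold cur
  exact (Finset.card_filter_le _ _).trans (Finset.card_image_le.trans (Y.B.card_le I))

/-! ### `IsComb` -/

omit Y in
/-- averages over the pads -/
theorem hst_comb_avg {𝓕 : Set (Cell → Finset Col)} {pos : Prop} {m : ℕ} {P : ℕ} (hP : 1 ≤ P) (Ts : ℕ → Cell → XV →L[ℂ] XV)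
    (h : ∀ pd, IsComb 𝓕 pos m 1 (Ts pd)) : IsComb 𝓕 pos m 1 (fun J => ((P : ℂ)⁻¹) • ∑ pd ∈ Finset.Icc 1 P, Ts pd J) := by
  have h1 := IsComb.sum (Finset.Icc 1 P) Ts (fun _ => 1) (fun i _ => h i)
  refine (h1.smul ((P : ℂ)⁻¹)).mono le_rfl (le_of_eq ?_)
  have hP0 : (P : ℝ) ≠ 0 := by positivity
  simp only [Finset.sum_const, Nat.card_Icc, add_tsub_cancel_right, nsmul_eq_mul, mul_one, norm_inv, Complex.norm_natCast]
  exact inv_mul_cancel₀ hP0

omit Y in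
theorem hst_compl_avg {P : ℕ} (hP : 1 ≤ P) (E : XV →L[ℂ] XV) (Q : ℕ → XV →L[ℂ] XV) :
    E - ((P : ℂ)⁻¹) • ∑ pd ∈ Finset.Icc 1 P, Q pd = ((P : ℂ)⁻¹) • ∑ pd ∈ Finset.Icc 1 P, (E - Q pd) := by
  have hP0 : (P : ℂ) ≠ 0 := by
    have : P ≠ 0 := by omega
    exact_mod_cast this
  rw [Finset.sum_sub_distrib, smul_sub, Finset.sum_const, Nat.card_Icc, add_tsub_cancel_right, ← Nat.cast_smul_eq_nsmul ℂ,
    smul_smul, inv_mul_cancel₀ hP0, one_smul]

omit Y in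
theorem hst_comb_zero {𝓕 : Set (Cell → Finset Col)} {pos : Prop} {m : ℕ} : IsComb 𝓕 pos m 0 (fun _ => (0 : XV →L[ℂ] XV)) := by
  have := IsComb.sum (𝓕 := 𝓕) (pos := pos) (m := m) (∅ : Finset ℕ) (fun _ _ => 0) (fun _ => 0) (fun i hi => by simp at hi)
  simpa using this

theorem hst_comb_Qm (l : Fin 4) (f : LocFilt) (pd : ℕ) : IsComb (Y.famM l) True 1 1 (fun J => Y.Qm l f pd J) :=
  IsComb.proj (f := Y.lmM l f pd) (Or.inl ⟨f, pd, rfl⟩)

theorem hst_comb_Qbar (hP : 1 ≤ Y.p.P) (l : Fin 4) (f : LocFilt) : IsComb (Y.famM l) True 1 1 (fun J => Y.Qbar l f J) :=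
  hst_comb_avg hP (fun pd J => Y.Qm l f pd J) fun pd => Y.hst_comb_Qm l f pd

/-- the complement of a smeared filter has total weight one -/
theorem hst_comb_Qbar_compl (hP : 1 ≤ Y.p.P) (l : Fin 4) (f : LocFilt) :
    IsComb (Y.famM l) False 1 1 (fun J => restr J.set - Y.Qbar l f J) := by
  have h := hst_comb_avg (𝓕 := Y.famM l) (pos := False) (m := 1) hP (fun pd J => restr J.set - Y.Qm l f pd J)
    fun pd => IsComb.compl (f := Y.lmM l f pd) (Or.inl ⟨f, pd, rfl⟩)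
  have e : (fun J : Cell => restr J.set - Y.Qbar l f J)
      = fun J => ((Y.p.P : ℂ)⁻¹) • ∑ pd ∈ Finset.Icc 1 Y.p.P, (restr J.set - Y.Qm l f pd J) := by
    funext J
    exact hst_compl_avg hP _ _
  rw [e]
  exact h

theorem hst_comb_evalH (hP : 1 ≤ Y.p.P) (l : Fin 4) (h : LocHist) : IsComb (Y.famM l) False h.length 1 (fun J => Y.evalH l J h) := by
  induction h with
  | nil => exact IsComb.restr
  | cons a t ih =>
    obtain ⟨f, b⟩ := a
    cases b with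
    | false =>
      have := ((Y.hst_comb_Qbar hP l f).of_pos (pos := False)).comp ih zero_le_one zero_le_one
      exact this.mono (by simp [add_comm]) (by norm_num)
    | true =>
      have := (Y.hst_comb_Qbar_compl hP l f).comp ih zero_le_one zero_le_one
      exact this.mono (by simp [add_comm]) (by norm_num)

theorem hst_comb_evalP (hP : 1 ≤ Y.p.P) (l : Fin 4) (h : List LocFilt) : IsComb (Y.famM l) True h.length 1 (fun J => Y.evalP l J h) := by
  induction h with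
  | nil => exact IsComb.restr
  | cons f t ih =>
    have := (Y.hst_comb_Qbar hP l f).comp ih zero_le_one zero_le_one
    exact this.mono (by simp [add_comm]) (by norm_num)

theorem hst_comb_opB (l : Fin 4) : IsComb (Y.famM l) True 1 2 (fun J => Y.opB l J) := by
  have h0 : IsComb (Y.famM l) True 1 1 (fun J => cproj (Y.X.cat l 0 J) J) := IsComb.proj (f := Y.X.cat l 0) (Or.inr ⟨0, rfl⟩)
  have h1 : IsComb (Y.famM l) True 1 1 (fun J => cproj (Y.X.cat l 1 J) J) := IsComb.proj (f := Y.X.cat l 1) (Or.inr ⟨1, rfl⟩)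
  exact (h0.sub h1).mono le_rfl (by norm_num)

theorem hst_comb_Qm' (l : Fin 4) (f : LocFilt) (pd : ℕ) : IsComb (Y.famM l) True 1 1 (fun J => Y.Qm' l f pd J) := by
  unfold Qm'
  split_ifs with h0 h1
  · exact hst_comb_zero.mono le_rfl zero_le_one
  · exact Y.hst_comb_Qm l f pd
  · exact IsComb.restr.mono zero_le_one le_rfl

theorem hst_comb_Qh (hc : LocCat) (l : Fin 4) (f : LocFilt) (pd : ℕ) : IsComb (Y.famH hc l) True 1 1 (fun J => Y.Qh hc l f pd J) :=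
  IsComb.proj (f := Y.lmH hc l f pd) ⟨f, pd, rfl⟩

theorem hst_comb_Qhbar (hP : 1 ≤ Y.p.P) (hc : LocCat) (l : Fin 4) (f : LocFilt) :
    IsComb (Y.famH hc l) True 1 1 (fun J => Y.Qhbar hc l f J) :=
  hst_comb_avg hP (fun pd J => Y.Qh hc l f pd J) fun pd => Y.hst_comb_Qh hc l f pd

theorem hst_comb_Qh' (hc : LocCat) (l : Fin 4) (f : LocFilt) (pd : ℕ) : IsComb (Y.famH hc l) True 1 1 (fun J => Y.Qh' hc l f pd J) := by
  unfold Qh'
  split_ifs with h0 h1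
  · exact hst_comb_zero.mono le_rfl zero_le_one
  · exact Y.hst_comb_Qh hc l f pd
  · exact IsComb.restr.mono zero_le_one le_rfl

theorem hst_comb_evalD (hP : 1 ≤ Y.p.P) (hc : LocCat) (l : Fin 4) (h : List LocFilt) :
    IsComb (Y.famH hc l) True h.length 1 (fun J => Y.evalD hc l J h) := by
  induction h with
  | nil => exact IsComb.restr
  | cons f t ih =>
    have := (Y.hst_comb_Qhbar hP hc l f).comp ih zero_le_one zero_le_one
    exact this.mono (by simp [add_comm]) (by norm_num)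

/-- a helper band composed with a helper product (`A_a^p 𝒟_a`) -/
theorem hst_comb_bandH (hP : 1 ≤ Y.p.P) (hc : LocCat) (l : Fin 4) (f : LocFilt) (pd : ℕ) (h : List LocFilt) :
    IsComb (Y.famH hc l) True (h.length + 1) 2 (fun J => (Y.bandH hc l f pd J).comp (Y.evalD hc l J h)) := by
  have hb : IsComb (Y.famH hc l) True 1 (1 + 1) (fun J => Y.bandH hc l f pd J) :=
    (Y.hst_comb_Qh' hc l f pd).sub (Y.hst_comb_Qh' hc l f (pd - 1))
  have := hb.comp (Y.hst_comb_evalD hP hc l h) (by norm_num) zero_le_one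
  exact this.mono (by simp [add_comm]) (by norm_num)

/-- a main band composed with a positive main product -/
theorem hst_comb_bandM (hP : 1 ≤ Y.p.P) (l : Fin 4) (f : LocFilt) (pd : ℕ) (h : List LocFilt) :
    IsComb (Y.famM l) True (h.length + 1) 2 (fun J => (Y.bandM l f pd J).comp (Y.evalP l J h)) := by
  have hb : IsComb (Y.famM l) True 1 (1 + 1) (fun J => Y.bandM l f pd J) :=
    (Y.hst_comb_Qm' l f pd).sub (Y.hst_comb_Qm' l f (pd - 1))
  have := hb.comp (Y.hst_comb_evalP hP l h) (by norm_num) zero_le_one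
  exact this.mono (by simp [add_comm]) (by norm_num)

/-! ### bands are orthogonal projections summing to the identity of `L²(J)` -/

omit Y in
theorem hst_tele (a : ℕ → ℝ) (N : ℕ) : ∑ pd ∈ Finset.Icc 1 N, (a pd - a (pd - 1)) = a N - a 0 := by
  induction N with
  | zero => simp
  | succ n ih =>
    rw [Finset.sum_Icc_succ_top (by omega), ih]
    simp

omit Y in
/-- increments of the nested projections `0 ≤ cproj (A 1) J ≤ … ≤ cproj (A P) J ≤ restr J` -/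
theorem hst_band_sum_aux (P : ℕ) (A : ℕ → Finset Col) (hA : ∀ pd pd', pd ≤ pd' → A pd ⊆ A pd') (J : Cell) (x : XV)
    (Q' : ℕ → XV →L[ℂ] XV) (hQ : ∀ pd, Q' pd = if pd = 0 then 0 else if pd ≤ P then cproj (A pd) J else restr J.set) :
    ∑ pd ∈ Finset.Icc 1 (P + 1), ‖(Q' pd - Q' (pd - 1)) x‖ ^ 2 = ‖restr J.set x‖ ^ 2 := by
  have key : ∀ pd ∈ Finset.Icc 1 (P + 1), ‖(Q' pd - Q' (pd - 1)) x‖ ^ 2 = ‖Q' pd x‖ ^ 2 - ‖Q' (pd - 1) x‖ ^ 2 := by
    intro pd hpd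
    obtain ⟨h1, h2⟩ := Finset.mem_Icc.1 hpd
    rw [_root_.sub_apply]
    rcases Nat.eq_or_lt_of_le h1 with h | h
    · subst h
      have : Q' (1 - 1) = 0 := by rw [hQ]; simp
      rw [this]
      simp
    · have e1 : Q' (pd - 1) = cproj (A (pd - 1)) J := by
        rw [hQ, if_neg (by omega), if_pos (by omega)]
      rw [e1]
      by_cases h3 : pd ≤ P
      · have e2 : Q' pd = cproj (A pd) J := by rw [hQ, if_neg (by omega), if_pos h3]
        rw [e2]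
        exact xv_normsq_proj_sub (pj_colSpan_le_of fun Φ hΦ => pj_vec_mem_colSpan (hA _ _ (Nat.sub_le _ _) hΦ) J) x
      · have e2 : Q' pd = restr J.set := by rw [hQ, if_neg (by omega), if_neg h3]
        rw [e2]
        exact xv_normsq_proj_sub (pj_colSpan_le _ J) x
  rw [Finset.sum_congr rfl key, hst_tele (fun pd => ‖Q' pd x‖ ^ 2)]
  have e0 : Q' 0 = 0 := by rw [hQ]; simp
  have e1 : Q' (P + 1) = restr J.set := by rw [hQ, if_neg (by omega), if_neg (by omega)]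
  rw [e0, e1]
  simp

theorem hst_lmM_pad (l : Fin 4) (f : LocFilt) {pd pd' : ℕ} (h : pd ≤ pd') (J : Cell) : Y.lmM l f pd J ⊆ Y.lmM l f pd' J := by
  intro Φ hΦ
  obtain ⟨h1, h2, h3, h4, h5⟩ := hst_mem_lm.1 hΦ
  exact hst_mem_lm.2 ⟨h1, h2, h3, h4, Y.hst_msk_pad f (by omega) J h5⟩

theorem hst_lmH_pad (hc : LocCat) (l : Fin 4) (f : LocFilt) {pd pd' : ℕ} (h : pd ≤ pd') (J : Cell) :
    Y.lmH hc l f pd J ⊆ Y.lmH hc l f pd' J := by
  intro Φ hΦ
  obtain ⟨h1, h2, h3, h4, h5⟩ := hst_mem_lm.1 hΦ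
  exact hst_mem_lm.2 ⟨h1, h2, h3, h4, Y.hst_msk_pad f (by omega) J h5⟩

theorem hst_band_sum_M {Dm : ℝ} {m0 : ℕ} (hY : Y.Valid Dm m0) (l : Fin 4) (f : LocFilt) (J : Cell) (x : XV) :
    ∑ pd ∈ Finset.Icc 1 (Y.p.P + 1), ‖Y.bandM l f pd J x‖ ^ 2 = ‖restr J.set x‖ ^ 2 :=
  hst_band_sum_aux Y.p.P (fun pd => Y.lmM l f pd J) (fun _ _ h => Y.hst_lmM_pad l f h J) J x (fun pd => Y.Qm' l f pd J)
    fun _ => rfl

theorem hst_band_sum_H {Dm : ℝ} {m0 : ℕ} (hY : Y.Valid Dm m0) (hc : LocCat) (l : Fin 4) (f : LocFilt) (J : Cell) (x : XV) :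
    ∑ pd ∈ Finset.Icc 1 (Y.p.P + 1), ‖Y.bandH hc l f pd J x‖ ^ 2 = ‖restr J.set x‖ ^ 2 :=
  hst_band_sum_aux Y.p.P (fun pd => Y.lmH hc l f pd J) (fun _ _ h => Y.hst_lmH_pad hc l f h J) J x (fun pd => Y.Qh' hc l f pd J)
    fun _ => rfl

/-! ### Lemma 6.5 in the forms used by Secs. 7, 8 -/

theorem hst_pad_le {j pd : ℕ} (G : ℕ) (hj : j ≤ 4) (hpd : pd ≤ Y.p.P) : (LocFilt.ball j G).pad0 Y.p + pd ≤ Y.p.Hmax := by
  show 20 * Y.p.P * (Y.p.L + 1) + 10 * (j - 1) * Y.p.P + pd ≤ 100 * Y.p.P * (Y.p.L + 1)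
  have h1 : 10 * (j - 1) * Y.p.P ≤ 30 * Y.p.P := Nat.mul_le_mul_right _ (by omega)
  have h2 : Y.p.P ≤ Y.p.P * (Y.p.L + 1) := Nat.le_mul_of_pos_right _ (by omega)
  nlinarith

/-- the span of an individual ball family on a cell with a downstream actual use lies in the usable-range space -/
theorem hst_colSpan_le_uspace (l : Fin 4) {j pd : ℕ} (G : ℕ) (hj : j ≤ 4) (hpd : pd ≤ Y.p.P) {J : Cell}
    (hu : ∃ u, u ≤ J ∧ Y.CS.use G u) : colSpan (Y.lmM l (.ball j G) pd J) J ≤ Y.uspace l G := by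
  refine pj_colSpan_le_of fun Φ hΦ => ?_
  obtain ⟨h1, h2, h3, _, h5⟩ := hst_mem_lm.1 hΦ
  have hp := Y.hst_pad_le G hj hpd
  exact Submodule.subset_span ⟨Φ, h1, J, h2, h3, ⟨⟨_, hp, ⟨_, h5⟩⟩, hu⟩, ⟨_, hp, h5⟩, rfl⟩

theorem hst_mem_cur {κ : ℕ} {I : Cell} {G : ℕ} (h : G ∈ Y.cur κ I) : Y.CS.use G I ∧ Y.CS.gcol G = κ := by
  unfold cur at h
  exact (Finset.mem_filter.1 h).2

/-- the individual ball families of the groups of one colour are almost orthogonal on certified cells -/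
theorem hst_usableBessel {Dm : ℝ} {m0 : ℕ} (hY : Y.Valid Dm m0) (hB : Y.BesselGoal) (κ : ℕ) (cells : Finset Cell)
    (hcells : ∀ I ∈ cells, I ≤ Y.X.root) (l : Fin 4) (j pd : ℕ) (hj : 1 ≤ j ∧ j ≤ 4) (hpd : 1 ≤ pd ∧ pd ≤ Y.p.P) :
    UsableBessel Y.X.root (Y.grps7 κ cells) (fun G => Y.lmM l (.ball j G) pd) (certU Y.X.root (Y.uses7 κ cells)) := by
  intro y hy
  refine hB l κ (Y.grps7 κ cells) ?_ y fun G hG => ?_
  · intro G hG
    obtain ⟨u, hu, rfl⟩ := Finset.mem_image.1 hG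
    exact (Y.hst_mem_cur (Y.hst_mem_uses7.1 hu).2).2
  · refine (iSup₂_le fun J hJ => ?_ : (⨆ (J : Cell) (_ : J ≤ Y.X.root ∧ certU Y.X.root (Y.uses7 κ cells) G J),
      colSpan (Y.lmM l (.ball j G) pd J) J) ≤ Y.uspace l G) (hy G hG)
    obtain ⟨-, -, u, hu, rfl, huJ⟩ := hJ
    exact Y.hst_colSpan_le_uspace l u.1 hj.2 hpd.2 ⟨u.2, huJ, (Y.hst_mem_cur (Y.hst_mem_uses7.1 hu).2).1⟩

/-- current group Bessel for the smeared ball filters at one cell -/
theorem hst_group_bessel {Dm : ℝ} {m0 : ℕ} (hY : Y.Valid Dm m0) (hB : Y.BesselGoal) (κ : ℕ) (l : Fin 4) (j : ℕ) (hj : 1 ≤ j ∧ j ≤ 4)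
    (I : Cell) (hI : I ≤ Y.X.root) (x : XV) :
    ∑ G ∈ Y.cur κ I, ‖Y.Qbar l (.ball j G) I x‖ ^ 2 ≤ 2 * ‖restr I.set x‖ ^ 2 := by
  have hP := hY.P_pos
  have hone : ∀ pd ∈ Finset.Icc 1 Y.p.P, ∑ G ∈ Y.cur κ I, ‖Y.Qm l (.ball j G) pd I x‖ ^ 2 ≤ 2 * ‖restr I.set x‖ ^ 2 := by
    intro pd hpd
    have hpd' := (Finset.mem_Icc.1 hpd).2
    have h1 := pj_dual_row (Y.cur κ I) (fun G z => Y.Qm l (.ball j G) pd I z) (fun G z => Y.Qm l (.ball j G) pd I z)
      (fun G _ a b => pj_cproj_inner _ _ a b) 2 zero_le_two (fun w => by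
        refine (hB l κ (Y.cur κ I) (fun G hG => (Y.hst_mem_cur hG).2) (fun G => Y.Qm l (.ball j G) pd I (w G)) fun G hG => ?_).trans ?_
        · exact Y.hst_colSpan_le_uspace l G hj.2 hpd' ⟨I, le_refl I, (Y.hst_mem_cur hG).1⟩ (pj_cproj_mem _ _ _)
        · exact mul_le_mul_of_nonneg_left (Finset.sum_le_sum fun G _ =>
            pow_le_pow_left₀ (norm_nonneg _) (pj_norm_cproj_le _ _ _) 2) zero_le_two) (restr I.set x)
    refine le_trans (le_of_eq (Finset.sum_congr rfl fun G _ => ?_)) h1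
    show ‖cproj _ I x‖ ^ 2 = ‖cproj _ I (restr I.set x)‖ ^ 2
    rw [pj_cproj_restr]
  have h2 := cmb_mink (Finset.Icc 1 Y.p.P) (fun _ => ((Y.p.P : ℂ)⁻¹)) (Y.cur κ I)
    (fun pd G => Y.Qm l (.ball j G) pd I x) _ hone
  have hP0 : (Y.p.P : ℝ) ≠ 0 := by positivity
  have e1 : (∑ _i ∈ Finset.Icc 1 Y.p.P, ‖((Y.p.P : ℂ)⁻¹)‖) = 1 := by
    simp only [Finset.sum_const, Nat.card_Icc, add_tsub_cancel_right, nsmul_eq_mul, norm_inv, Complex.norm_natCast]
    exact mul_inv_cancel₀ hP0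
  rw [e1, one_pow, one_mul] at h2
  refine le_trans (le_of_eq (Finset.sum_congr rfl fun G _ => ?_)) h2
  congr 2
  simp only [Qbar, _root_.smul_apply, _root_.sum_apply, Finset.smul_sum]

end LocSys

end Claimed.Agent.R258
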