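/-
Row 258, block [S7-ASM] (owner: helper28).  THE CALCULUS OF POLYNOMIAL BUDGETS.
`AsmPar` = the parameters `(Pi, ε, Ntr, K, cc, pw)` of one leaf, `X = Pi / ε ≥ 1`.
`AsmPB f`   = `0 ≤ f θ ≤ C X^C` for all admissible parameters, with `C` independent of the parameters.
`AsmPB` is stable under sums, products, square roots, powers with exponents in `[0,1]`, division by `ε`.
The two statements consumed by the assembly: `asm_pb_abs`, `asm_pb_pow`.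
-/
import Claimed.Agent.R258.Pack007

set_option autoImplicit false

namespace Claimed.Agent.R258

/-- the parameters of the polynomial budget -/
structure AsmPar where
  Pi : ℝ
  ε : ℝ
  Ntr : ℕ
  K : ℕ
  cc : ℝ
  pw : ℝ

namespace AsmPar

/-- admissible parameters -/
structure Ok (θ : AsmPar) : Prop where
  Pi_ge : 1 ≤ θ.Pi
  ε_pos : 0 < θ.ε
  ε_lt : θ.ε < 1
  Ntr_le : (θ.Ntr : ℝ) ≤ θ.Pi
  K_le : (θ.K : ℝ) ≤ θ.Pi
  cc_nn : 0 ≤ θ.cc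
  cc_le : θ.cc ≤ θ.Pi
  pw_ge : 2 / 3 ≤ θ.pw
  pw_le : θ.pw ≤ 1

/-- the basic quantity -/
noncomputable def X (θ : AsmPar) : ℝ := θ.Pi / θ.ε

theorem Ok.one_le_X {θ : AsmPar} (h : θ.Ok) : 1 ≤ θ.X := by
  unfold X
  rw [le_div_iff₀ h.ε_pos]
  linarith [h.Pi_ge, h.ε_lt]

theorem Ok.Pi_le_X {θ : AsmPar} (h : θ.Ok) : θ.Pi ≤ θ.X := by
  unfold X
  rw [le_div_iff₀ h.ε_pos]
  nlinarith [h.Pi_ge, h.ε_lt, h.ε_pos]

theorem Ok.inv_le_X {θ : AsmPar} (h : θ.Ok) : θ.ε⁻¹ ≤ θ.X := by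
  unfold X
  rw [div_eq_mul_inv]
  have : 0 < θ.ε⁻¹ := inv_pos.2 h.ε_pos
  nlinarith [h.Pi_ge]

end AsmPar

/-- `C X^C` is monotone in `C` -/
theorem asm_cx_mono {X C C' : ℝ} (hX : 1 ≤ X) (h0 : 0 ≤ C) (h : C ≤ C') : C * X ^ C ≤ C' * X ^ C' := by
  have h1 : X ^ C ≤ X ^ C' := Real.rpow_le_rpow_of_exponent_le hX h
  have h2 : 0 ≤ X ^ C := Real.rpow_nonneg (by linarith) _
  nlinarith

/-- polynomially bounded functions of the parameters -/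
def AsmPB (f : AsmPar → ℝ) : Prop := ∃ C : ℝ, 0 < C ∧ ∀ θ : AsmPar, θ.Ok → 0 ≤ f θ ∧ f θ ≤ C * θ.X ^ C

namespace AsmPB

variable {f g : AsmPar → ℝ}

theorem of_le (hg : AsmPB g) (h0 : ∀ θ : AsmPar, θ.Ok → 0 ≤ f θ) (h : ∀ θ : AsmPar, θ.Ok → f θ ≤ g θ) : AsmPB f := by
  obtain ⟨C, hC, hb⟩ := hg
  exact ⟨C, hC, fun θ hθ => ⟨h0 θ hθ, (h θ hθ).trans (hb θ hθ).2⟩⟩

theorem congr (hg : AsmPB g) (h : ∀ θ : AsmPar, θ.Ok → f θ = g θ) : AsmPB f := by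
  obtain ⟨C, hC, hb⟩ := hg
  exact ⟨C, hC, fun θ hθ => by rw [h θ hθ]; exact hb θ hθ⟩

theorem const (c : ℝ) (hc : 0 ≤ c) : AsmPB (fun _ => c) := by
  refine ⟨c + 1, by linarith, fun θ hθ => ⟨hc, ?_⟩⟩
  have h1 : (1 : ℝ) ≤ θ.X ^ (c + 1) := Real.one_le_rpow hθ.one_le_X (by linarith)
  nlinarith

theorem X : AsmPB (fun θ => θ.X) := by
  refine ⟨1, one_pos, fun θ hθ => ⟨by linarith [hθ.one_le_X], ?_⟩⟩
  rw [Real.rpow_one, one_mul]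

theorem add (hf : AsmPB f) (hg : AsmPB g) : AsmPB (fun θ => f θ + g θ) := by
  obtain ⟨C, hC, hb⟩ := hf
  obtain ⟨C', hC', hb'⟩ := hg
  refine ⟨C + C', by linarith, fun θ hθ => ⟨add_nonneg (hb θ hθ).1 (hb' θ hθ).1, ?_⟩⟩
  have hX := hθ.one_le_X
  have h1 : θ.X ^ C ≤ θ.X ^ (C + C') := Real.rpow_le_rpow_of_exponent_le hX (by linarith)
  have h2 : θ.X ^ C' ≤ θ.X ^ (C + C') := Real.rpow_le_rpow_of_exponent_le hX (by linarith)
  have h3 := (hb θ hθ).2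
  have h4 := (hb' θ hθ).2
  nlinarith

theorem mul (hf : AsmPB f) (hg : AsmPB g) : AsmPB (fun θ => f θ * g θ) := by
  obtain ⟨C, hC, hb⟩ := hf
  obtain ⟨C', hC', hb'⟩ := hg
  refine ⟨C * C' + C + C', by positivity, fun θ hθ => ⟨mul_nonneg (hb θ hθ).1 (hb' θ hθ).1, ?_⟩⟩
  have hX := hθ.one_le_X
  have hX0 : 0 < θ.X := by linarith
  have h1 : f θ * g θ ≤ (C * θ.X ^ C) * (C' * θ.X ^ C') :=
    mul_le_mul (hb θ hθ).2 (hb' θ hθ).2 (hb' θ hθ).1 (by positivity)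
  have h2 : (C * θ.X ^ C) * (C' * θ.X ^ C') = (C * C') * θ.X ^ (C + C') := by
    rw [Real.rpow_add hX0]; ring
  have h3 : θ.X ^ (C + C') ≤ θ.X ^ (C * C' + C + C') :=
    Real.rpow_le_rpow_of_exponent_le hX (by nlinarith)
  have h4 : 0 ≤ θ.X ^ (C + C') := by positivity
  have h5 : 0 ≤ θ.X ^ (C * C' + C + C') := by positivity
  rw [h2] at h1
  nlinarith [mul_pos hC hC']

theorem pow (hf : AsmPB f) (n : ℕ) : AsmPB (fun θ => f θ ^ n) := by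
  induction n with
  | zero => simpa using const 1 zero_le_one
  | succ n ih => exact (ih.mul hf).congr fun _ _ => pow_succ _ _

theorem Pi : AsmPB (fun θ => θ.Pi) := X.of_le (fun _ h => by linarith [h.Pi_ge]) fun _ h => h.Pi_le_X

theorem epsInv : AsmPB (fun θ => θ.ε⁻¹) := X.of_le (fun _ h => (inv_pos.2 h.ε_pos).le) fun _ h => h.inv_le_X

theorem Ntr : AsmPB (fun θ => (θ.Ntr : ℝ)) := Pi.of_le (fun _ _ => Nat.cast_nonneg _) fun _ h => h.Ntr_le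

theorem K : AsmPB (fun θ => (θ.K : ℝ)) := Pi.of_le (fun _ _ => Nat.cast_nonneg _) fun _ h => h.K_le

theorem cc : AsmPB (fun θ => θ.cc) := Pi.of_le (fun _ h => h.cc_nn) fun _ h => h.cc_le

theorem sqrt (hf : AsmPB f) : AsmPB (fun θ => Real.sqrt (f θ)) := by
  refine ((const 1 zero_le_one).add hf).of_le (fun _ _ => Real.sqrt_nonneg _) fun θ hθ => ?_
  obtain ⟨C, -, hb⟩ := hf
  have h0 := (hb θ hθ).1
  rw [Real.sqrt_le_left (by linarith)]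
  nlinarith

/-- powers with exponents in `[0,1]` -/
theorem rpow (hf : AsmPB f) (r : AsmPar → ℝ) (hr : ∀ θ : AsmPar, θ.Ok → 0 ≤ r θ ∧ r θ ≤ 1) :
    AsmPB (fun θ => f θ ^ r θ) := by
  have hf' := hf
  obtain ⟨C, -, hb⟩ := hf'
  refine ((const 1 zero_le_one).add hf).of_le (fun θ hθ => Real.rpow_nonneg (hb θ hθ).1 _) fun θ hθ => ?_
  have h0 := (hb θ hθ).1
  calc f θ ^ r θ ≤ (1 + f θ) ^ r θ := Real.rpow_le_rpow h0 (by linarith) (hr θ hθ).1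
    _ ≤ (1 + f θ) ^ (1 : ℝ) := Real.rpow_le_rpow_of_exponent_le (by linarith) (hr θ hθ).2
    _ = 1 + f θ := Real.rpow_one _

end AsmPB

/-! ### the budgets of the assembly -/

/-- accuracy of one application of a term lemma -/
noncomputable def asmE1 (ε : ℝ) (Ntr : ℕ) : ℝ := ε / (200 * ((Ntr : ℝ) + 1))

/-- accuracy of one near term -/
noncomputable def asmE2 (ε : ℝ) (Ntr : ℕ) : ℝ := ε / (100 * ((Ntr : ℝ) + 1))

/-- the coefficient of `√(M0 small)` in one error term -/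
noncomputable def asmAE (Cp Pi ε : ℝ) : ℝ := Cp * (3 * Pi + Real.sqrt (3 * (32 * Pi) / ε)) ^ 3

/-- the powered bound of one term with three strong factors -/
noncomputable def asmP3 (Cw Pi p ε : ℝ) : ℝ :=
  (Cw * (3 * Pi + Real.sqrt (6 * (32 * Pi) / ε))) ^ p * (216 * Pi * Pi * Pi / ε ^ 3) ^ (p / 2)

theorem asm_p3_nonneg {Cw Pi ε : ℝ} (hCw : 0 ≤ Cw) (hPi : 0 ≤ Pi) (hε : 0 < ε) (p : ℝ) : 0 ≤ asmP3 Cw Pi p ε := by
  unfold asmP3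
  exact mul_nonneg (Real.rpow_nonneg (by positivity) _) (Real.rpow_nonneg (by positivity) _)

theorem asm_aE_nonneg {Cp Pi : ℝ} (hCp : 0 ≤ Cp) (hPi : 0 ≤ Pi) (ε : ℝ) : 0 ≤ asmAE Cp Pi ε := by
  unfold asmAE
  positivity

theorem asm_e1_pos {ε : ℝ} (hε : 0 < ε) (Ntr : ℕ) : 0 < asmE1 ε Ntr := by
  unfold asmE1; positivity

theorem asm_e2_pos {ε : ℝ} (hε : 0 < ε) (Ntr : ℕ) : 0 < asmE2 ε Ntr := by
  unfold asmE2; positivity

theorem asm_e1_le {ε : ℝ} (hε : 0 < ε) (Ntr : ℕ) : asmE1 ε Ntr ≤ ε := by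
  unfold asmE1
  rw [div_le_iff₀ (by positivity)]
  have : (0 : ℝ) ≤ Ntr := Nat.cast_nonneg _
  nlinarith

theorem asm_e2_le {ε : ℝ} (hε : 0 < ε) (Ntr : ℕ) : asmE2 ε Ntr ≤ ε := by
  unfold asmE2
  rw [div_le_iff₀ (by positivity)]
  have : (0 : ℝ) ≤ Ntr := Nat.cast_nonneg _
  nlinarith

namespace AsmPB

variable {f : AsmPar → ℝ}

theorem e1Inv : AsmPB (fun θ => (asmE1 θ.ε θ.Ntr)⁻¹) :=
  (((const 200 (by norm_num)).mul (Ntr.add (const 1 zero_le_one))).mul epsInv).congr fun θ hθ => by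
    unfold asmE1
    rw [inv_div, div_eq_mul_inv]

theorem e2Inv : AsmPB (fun θ => (asmE2 θ.ε θ.Ntr)⁻¹) :=
  (((const 100 (by norm_num)).mul (Ntr.add (const 1 zero_le_one))).mul epsInv).congr fun θ hθ => by
    unfold asmE2
    rw [inv_div, div_eq_mul_inv]

theorem div_e1 (hf : AsmPB f) : AsmPB (fun θ => f θ / asmE1 θ.ε θ.Ntr) :=
  (hf.mul e1Inv).congr fun _ _ => div_eq_mul_inv _ _

theorem div_e1_cube (hf : AsmPB f) : AsmPB (fun θ => f θ / asmE1 θ.ε θ.Ntr ^ 3) :=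
  (hf.mul (e1Inv.pow 3)).congr fun _ _ => by rw [div_eq_mul_inv, inv_pow]

theorem div_e2_cube (hf : AsmPB f) : AsmPB (fun θ => f θ / asmE2 θ.ε θ.Ntr ^ 3) :=
  (hf.mul (e2Inv.pow 3)).congr fun _ _ => by rw [div_eq_mul_inv, inv_pow]

theorem rpow_pw (hf : AsmPB f) : AsmPB (fun θ => f θ ^ θ.pw) :=
  hf.rpow _ fun θ h => ⟨by linarith [h.pw_ge], h.pw_le⟩

theorem rpow_pw2 (hf : AsmPB f) : AsmPB (fun θ => f θ ^ (θ.pw / 2)) :=
  hf.rpow _ fun θ h => ⟨by linarith [h.pw_ge], by linarith [h.pw_le]⟩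

theorem aE (Cp : ℝ) (hCp : 0 ≤ Cp) : AsmPB (fun θ => asmAE Cp θ.Pi (asmE1 θ.ε θ.Ntr)) :=
  (const Cp hCp).mul ((((const 3 (by norm_num)).mul Pi).add
    (((const 3 (by norm_num)).mul ((const 32 (by norm_num)).mul Pi)).div_e1).sqrt).pow 3)

theorem p3 (Cw : ℝ) (hCw : 0 ≤ Cw) : AsmPB (fun θ => asmP3 Cw θ.Pi θ.pw (asmE1 θ.ε θ.Ntr)) :=
  (((const Cw hCw).mul (((const 3 (by norm_num)).mul Pi).add
    (((const 6 (by norm_num)).mul ((const 32 (by norm_num)).mul Pi)).div_e1).sqrt)).rpow_pw).mul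
    (((((const 216 (by norm_num)).mul Pi).mul Pi).mul Pi).div_e1_cube.rpow_pw2)

theorem nearP (Cw : ℝ) (hCw : 0 ≤ Cw) :
    AsmPB (fun θ => nearPow Cw θ.K θ.Pi θ.Pi θ.cc θ.Pi θ.pw (asmE2 θ.ε θ.Ntr)) :=
  ((const 2 (by norm_num)).mul ((((const 3 (by norm_num)).mul (const Cw hCw)).mul cc).rpow_pw)).mul
    ((((((const 1728 (by norm_num)).mul Pi).mul Pi).mul K).mul Pi).div_e2_cube.rpow_pw2)

end AsmPB

/-- the polynomial part of the absolute budget -/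
theorem asm_pb_abs (Cp : ℝ) (hCp : 0 ≤ Cp) :
    AsmPB (fun θ => 27 * asmAE Cp θ.Pi (asmE1 θ.ε θ.Ntr) + 6 * θ.Ntr * θ.Pi + 6 * θ.Pi) :=
  (((AsmPB.const 27 (by norm_num)).mul (AsmPB.aE Cp hCp)).add
    (((AsmPB.const 6 (by norm_num)).mul AsmPB.Ntr).mul AsmPB.Pi)).add ((AsmPB.const 6 (by norm_num)).mul AsmPB.Pi)

/-- the powered budget -/
theorem asm_pb_pow (Cw : ℝ) (hCw : 0 ≤ Cw) :
    AsmPB (fun θ => (17 + 12 * θ.Ntr) * asmP3 Cw θ.Pi θ.pw (asmE1 θ.ε θ.Ntr) +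
      12 * θ.Ntr * nearPow Cw θ.K θ.Pi θ.Pi θ.cc θ.Pi θ.pw (asmE2 θ.ε θ.Ntr)) :=
  ((((AsmPB.const 17 (by norm_num)).add ((AsmPB.const 12 (by norm_num)).mul AsmPB.Ntr)).mul (AsmPB.p3 Cw hCw))).add
    (((AsmPB.const 12 (by norm_num)).mul AsmPB.Ntr).mul (AsmPB.nearP Cw hCw))

/-- the stops -/
theorem asm_eps_sum {ε : ℝ} (hε : 0 < ε) (Ntr : ℕ) :
    15 * asmE1 ε Ntr + (5 * asmE1 ε Ntr + 6 * (4 * asmE1 ε Ntr + Ntr * (2 * asmE1 ε Ntr) + Ntr * asmE2 ε Ntr) +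
      5 * (ε / 100)) ≤ ε := by
  have hn : (0 : ℝ) ≤ Ntr := Nat.cast_nonneg _
  have h1 : asmE1 ε Ntr * (200 * ((Ntr : ℝ) + 1)) = ε := by
    unfold asmE1
    field_simp
  have h2 : asmE2 ε Ntr = 2 * asmE1 ε Ntr := by
    unfold asmE1 asmE2
    field_simp
    norm_num
  have h3 := asm_e1_pos hε Ntr
  rw [h2]
  nlinarith

/-! ### the near-band budgets -/

theorem asm_nearPow_nonneg {Cw Sa Sb cc Ef ε : ℝ} (K : ℕ) (hCw : 0 ≤ Cw) (hSa : 0 ≤ Sa) (hSb : 0 ≤ Sb) (hcc : 0 ≤ cc)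
    (hEf : 0 ≤ Ef) (hε : 0 < ε) (pw : ℝ) : 0 ≤ nearPow Cw K Sa Sb cc Ef pw ε := by
  unfold nearPow
  exact mul_nonneg (mul_nonneg (by norm_num) (Real.rpow_nonneg (by positivity) _))
    (Real.rpow_nonneg (by positivity) _)

theorem asm_near_log {M0 ε : ℝ} (Na Nb : ℕ) (hM0 : 0 ≤ M0) (hε : 0 < ε) :
    0 ≤ (1 + Real.log (2 + 2 * M0 * Na * Nb / ε)) / ε := by
  have : (1 : ℝ) ≤ 2 + 2 * M0 * Na * Nb / ε := by
    have : 0 ≤ 2 * M0 * Na * Nb / ε := by positivity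
    linarith
  have := Real.log_nonneg this
  positivity

theorem asm_nearAbs_nonneg {C Cq q CN Ea Eb cc M0 ε : ℝ} (K Na Nb : ℕ) (hCq : 0 ≤ Cq) (hCN : 0 ≤ CN) (hM0 : 0 ≤ M0)
    (hε : 0 < ε) : 0 ≤ nearAbs C Cq q CN K Na Nb Ea Eb cc M0 ε := by
  unfold nearAbs
  have h1 := asm_near_log Na Nb hM0 hε
  have h2 : 0 ≤ Real.log ((K : ℝ) + 2) := Real.log_nonneg (by have : (0 : ℝ) ≤ K := Nat.cast_nonneg _; linarith)
  have h3 : 0 ≤ (1 + Real.log ((K : ℝ) + 2)) ^ C := Real.rpow_nonneg (by linarith) _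
  have h4 : 0 ≤ ((K : ℝ) + 2) ^ (C * (q - 2)) := Real.rpow_nonneg (by positivity) _
  positivity

theorem asm_nearAbs_mono {C C' Cq q CN Ea Eb cc M0 ε : ℝ} (K Na Nb : ℕ) (hC : C ≤ C') (hq : 2 < q) (hCq : 0 ≤ Cq)
    (hCN : 0 ≤ CN) (hM0 : 0 ≤ M0) (hε : 0 < ε) :
    nearAbs C Cq q CN K Na Nb Ea Eb cc M0 ε ≤ nearAbs C' Cq q CN K Na Nb Ea Eb cc M0 ε := by
  unfold nearAbs
  have hK : (0 : ℝ) ≤ K := Nat.cast_nonneg _
  have h1 := asm_near_log Na Nb hM0 hε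
  have h2 : 0 ≤ Real.log ((K : ℝ) + 2) := Real.log_nonneg (by linarith)
  have h3 : (1 + Real.log ((K : ℝ) + 2)) ^ C ≤ (1 + Real.log ((K : ℝ) + 2)) ^ C' :=
    Real.rpow_le_rpow_of_exponent_le (by linarith) hC
  have h4 : ((K : ℝ) + 2) ^ (C * (q - 2)) ≤ ((K : ℝ) + 2) ^ (C' * (q - 2)) :=
    Real.rpow_le_rpow_of_exponent_le (by linarith) (mul_le_mul_of_nonneg_right hC (by linarith))
  have h5 : 0 ≤ (1 + Real.log ((K : ℝ) + 2)) ^ C := Real.rpow_nonneg (by linarith) _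
  have h6 : 0 ≤ ((K : ℝ) + 2) ^ (C * (q - 2)) := Real.rpow_nonneg (by positivity) _
  have h7 : 0 ≤ (1 + Real.log ((K : ℝ) + 2)) ^ C' := Real.rpow_nonneg (by linarith) _
  refine mul_le_mul_of_nonneg_right ?_ h1
  refine mul_le_mul_of_nonneg_right ?_ (by positivity)
  refine mul_le_mul_of_nonneg_right ?_ (Real.sqrt_nonneg _)
  refine mul_le_mul_of_nonneg_right ?_ (by positivity)
  refine mul_le_mul ?_ h4 h6 (by positivity)
  exact mul_le_mul_of_nonneg_left h3 (by positivity)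

end Claimed.Agent.R258
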