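/-
Row 258, block [S7-ASM] (owner: helper28).  BASE OF THE ASSEMBLY: calculus of `Ctrl` (constant budgets), sums over the uses,
size classes of argument families and SLOT-FREE forms of the three term lemmas of S7/Terms.lean.

Size classes of a family `x : ℕ → Cell → XV` (group, cell), relative to a leaf `Y : SideSys`:
* `Y.Strong Pi x`     : `∑_{uses} ‖1_I x‖² ≤ Pi |R|`;
* `Y.SupStrong Pi x`  : `n2 I (x G I) ≤ sz I` at the uses with `∑_I |I| sz(I)² ≤ Pi |R|`   (`Strong → SupStrong`; shared strong factors);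
* `Y.Bd Pi D x`       : `n2 I (x G I) ≤ 3 Pi + D I` at the uses (`D` = the common square-budget function of the leaf, `Y.Env`);
* `Y.PhysSmall sm x`  : `∑_{uses} |I| n2p(x)² ≤ sm |R|`.
Term lemmas: `asm_three` (slots `l2` sup-strong, `l3` bounded, the other two strong), `asm_err` (slot `l0` physically small, the others bounded),
`asm_pair` (slots `l2, l3` carry a pair-small couple, the other two strong).
-/
import Claimed.Agent.R258.S7.SideDefs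
import Claimed.Agent.R258.S7.AsmPoly
import Claimed.Agent.R258.CellApi.Pack

set_option autoImplicit false
open MeasureTheory

namespace Claimed.Agent.R258

open Classical

/-! ### the calculus `Ctrl` -/

theorem asm_ctrl_zero (R : Cell) (cells : Finset Cell) {p : ℝ} (hp0 : 0 < p) : Ctrl R cells (fun _ => 0) 0 0 p 0 :=
  Ctrl.of_abs (fun _ => le_rfl) (by simp) hp0

/-- sums of at most `N` terms with common budgets -/
theorem asm_ctrl_sum_const {R : Cell} {cells : Finset Cell} {ι : Type} [Fintype ι] (t : ι → Cell → ℝ) {a b p ε : ℝ}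
    (N : ℕ) (hN : Fintype.card ι ≤ N) (ha : 0 ≤ a) (hb : 0 ≤ b) (hε : 0 ≤ ε) (hp0 : 0 < p) (hp1 : p ≤ 1)
    (h : ∀ i, Ctrl R cells (t i) a b p ε) :
    Ctrl R cells (fun I => ∑ i, t i I) (N * a) (N * b) p (N * ε) := by
  have h1 := Ctrl.sum (R := R) (cells := cells) (Finset.univ : Finset ι) t (fun _ => a) (fun _ => b)
    (fun _ => ε) p hp0 hp1 (fun i _ => h i)
  have hN' : (Fintype.card ι : ℝ) ≤ N := by exact_mod_cast hN
  refine h1.mono (fun _ _ => le_rfl) ?_ ?_ ?_ <;>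
  · rw [Finset.sum_const, Finset.card_univ, nsmul_eq_mul]
    gcongr

/-! ### sums over the uses -/

theorem asm_mem_usesAt {uses : Finset (ℕ × Cell)} {G : ℕ} {I : Cell} : G ∈ usesAt uses I ↔ (G, I) ∈ uses := by
  unfold usesAt
  simp only [Finset.mem_image, Finset.mem_filter]
  constructor
  · rintro ⟨⟨G', I'⟩, ⟨h, rfl⟩, rfl⟩
    exact h
  · intro h
    exact ⟨(G, I), ⟨h, rfl⟩, rfl⟩

theorem asm_sum_uses {M : Type} [AddCommMonoid M] (uses : Finset (ℕ × Cell)) (cells : Finset Cell)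
    (hu : ∀ u ∈ uses, u.2 ∈ cells) (f : ℕ → Cell → M) :
    ∑ I ∈ cells, ∑ G ∈ usesAt uses I, f G I = ∑ u ∈ uses, f u.1 u.2 := by
  rw [← Finset.sum_fiberwise_of_maps_to (g := Prod.snd) hu]
  refine Finset.sum_congr rfl fun I _ => ?_
  unfold usesAt
  rw [Finset.sum_image]
  · refine Finset.sum_congr rfl fun u hu => ?_
    rw [(Finset.mem_filter.1 hu).2]
  · intro u hu v hv h
    exact Prod.ext h (by rw [(Finset.mem_filter.1 hu).2, (Finset.mem_filter.1 hv).2])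

theorem asm_gabs_nonneg (uses : Finset (ℕ × Cell)) (w : Cell → ℝ × ℝ → ℂ) (x : Fin 4 → ℕ → Cell → XV) (I : Cell) :
    0 ≤ gabs uses w x I := Finset.sum_nonneg fun _ _ => norm_nonneg _

/-- total length of the uses -/
theorem asm_uses_len (R : Cell) (cells : Finset Cell) (hc : ∀ I ∈ cells, I ≤ R) (uses : Finset (ℕ × Cell))
    (hu : ∀ u ∈ uses, u.2 ∈ cells) (M0 : ℝ)
    (hm : ∀ y : ℝ, ((uses.filter fun u => y ∈ u.2.set).card : ℝ) ≤ M0) :
    ∑ u ∈ uses, u.2.len ≤ M0 * R.len := by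
  have h1 : ∑ u ∈ uses, u.2.len = ∑ I ∈ cells, I.len * ((usesAt uses I).card : ℝ) := by
    rw [← asm_sum_uses uses cells hu (fun _ I => I.len)]
    refine Finset.sum_congr rfl fun I _ => ?_
    rw [Finset.sum_const, nsmul_eq_mul, mul_comm]
  rw [h1]
  refine cell_path_bound hc _ fun y _ => ?_
  refine le_trans (le_of_eq ?_) (hm y)
  have h2 : ((uses.filter fun u => y ∈ u.2.set).card : ℝ) = ∑ u ∈ uses, (if y ∈ u.2.set then (1 : ℝ) else 0) := by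
    rw [Finset.card_filter]
    push_cast
    rfl
  rw [h2, ← asm_sum_uses uses cells hu (fun _ I => if y ∈ I.set then (1 : ℝ) else 0)]
  refine Finset.sum_congr rfl fun I _ => ?_
  rw [Finset.sum_const, nsmul_eq_mul]
  by_cases hy : y ∈ I.set
  · rw [Set.indicator_of_mem hy, if_pos hy, mul_one]
  · rw [Set.indicator_of_notMem hy, if_neg hy, mul_zero]

/-! ### size classes -/

namespace SideSys
variable (Y : SideSys)

/-- square budget over the uses -/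
def Strong (Pi : ℝ) (x : ℕ → Cell → XV) : Prop :=
  ∑ u ∈ Y.uses, ‖restr u.2.set (x u.1 u.2)‖ ^ 2 ≤ Pi * Y.R.len

/-- square budget of the supremum over the groups -/
def SupStrong (Pi : ℝ) (x : ℕ → Cell → XV) : Prop :=
  ∃ sz : Cell → ℝ, (∀ I, 0 ≤ sz I) ∧ (∀ u ∈ Y.uses, n2 u.2 (x u.1 u.2) ≤ sz u.2) ∧
    ∑ I ∈ Y.cells, I.len * sz I ^ 2 ≤ Pi * Y.R.len

/-- bounded up to the common square-budget function -/
def Bd (Pi : ℝ) (D : Cell → ℝ) (x : ℕ → Cell → XV) : Prop :=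
  ∀ u ∈ Y.uses, n2 u.2 (x u.1 u.2) ≤ 3 * Pi + D u.2

/-- small physical part -/
def PhysSmall (small : ℝ) (x : ℕ → Cell → XV) : Prop :=
  ∑ u ∈ Y.uses, u.2.len * n2p u.2 (x u.1 u.2) ^ 2 ≤ small * Y.R.len

/-- the environment of the term lemmas -/
structure Env (c0 C0 Cw Cp Pi M0 : ℝ) (D : Cell → ℝ) : Prop where
  cells_le : ∀ I ∈ Y.cells, I ≤ Y.R
  adm : ∀ I ∈ Y.cells, Admissible c0 C0 I (Y.w I)
  uses_sub : ∀ u ∈ Y.uses, u.2 ∈ Y.cells
  Pi_ge : 1 ≤ Pi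
  D_nn : ∀ I, 0 ≤ D I
  D_bud : ∑ I ∈ Y.cells, I.len * D I ^ 2 ≤ 32 * Pi * Y.R.len
  len_le : ∑ u ∈ Y.uses, u.2.len ≤ M0 * Y.R.len
  M0_nn : 0 ≤ M0
  Cw_nn : 0 ≤ Cw
  Cw_bd : ∀ (I : Cell) (w : ℝ × ℝ → ℂ), Admissible c0 C0 I w → ∀ z : Fin 4 → XV,
    ‖formV I w z‖ ≤ Cw * ∏ l, n2 I (z l)
  Cp_nn : 0 ≤ Cp
  Cp_bd : ∀ (I : Cell) (w : ℝ × ℝ → ℂ), Admissible c0 C0 I w → ∀ z : Fin 4 → XV,
    ‖formV I w z‖ ≤ Cp * ∏ l, n2p I (z l)

end SideSys

theorem asm_n2_le_agg (uses : Finset (ℕ × Cell)) (x : ℕ → Cell → XV) (u : ℕ × Cell) (hu : u ∈ uses) :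
    n2 u.2 (x u.1 u.2) ≤ agg uses x u.2 := by
  unfold agg
  rw [← Real.sqrt_sq (s5f_n2_nonneg u.2 (x u.1 u.2))]
  refine Real.sqrt_le_sqrt ?_
  exact Finset.single_le_sum (f := fun G => n2 u.2 (x G u.2) ^ 2) (fun _ _ => sq_nonneg _)
    (asm_mem_usesAt.2 hu)

theorem SideSys.Strong.sup {Y : SideSys} {Pi : ℝ} {x : ℕ → Cell → XV} (h : Y.Strong Pi x)
    (hu : ∀ u ∈ Y.uses, u.2 ∈ Y.cells) : Y.SupStrong Pi x :=
  ⟨agg Y.uses x, fun _ => Real.sqrt_nonneg _, fun u hu' => asm_n2_le_agg Y.uses x u hu',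
    by rw [s7t_agg_budget Y.uses Y.cells hu x]; exact h⟩

theorem asm_perm : ∀ l2 l3 : Fin 4, l2 ≠ l3 → ∃ e : Fin 4 ≃ Fin 4, e.symm 2 = l2 ∧ e.symm 3 = l3 := by
  decide

/-! ### the term lemmas -/

section Terms

variable {Y : SideSys} {c0 C0 Cw Cp Pi M0 : ℝ} {D : Cell → ℝ}

/-- three strong slots: `l2` sup-strong, `l3` bounded, the other two strong -/
theorem asm_three (hPW : PowerGoal) (hE : Y.Env c0 C0 Cw Cp Pi M0 D) (x : Fin 4 → ℕ → Cell → XV) (l2 l3 : Fin 4)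
    (h23 : l2 ≠ l3) (hs : ∀ l, l ≠ l2 → l ≠ l3 → Y.Strong Pi (x l)) (h2 : Y.SupStrong Pi (x l2))
    (h3 : Y.Bd Pi D (x l3)) (p ε : ℝ) (hp : 2 / 3 ≤ p) (hp1 : p ≤ 1) (hε : 0 < ε) (hε1 : ε < 1) :
    Ctrl Y.R Y.cells (gabs Y.uses Y.w x) 0 (asmP3 Cw Pi p ε) p ε := by
  obtain ⟨e, e2, e3⟩ := asm_perm l2 l3 h23
  obtain ⟨sz2, hsz0, hsz1, hsz2⟩ := h2
  have hPi : 0 ≤ Pi := by linarith [hE.Pi_ge]
  have hne : ∀ i : Fin 4, i ≠ 2 → i ≠ 3 → e.symm i ≠ l2 ∧ e.symm i ≠ l3 := by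
    intro i h2 h3
    exact ⟨fun h => h2 (e.symm.injective (h.trans e2.symm)), fun h => h3 (e.symm.injective (h.trans e3.symm))⟩
  have s0 := hs _ (hne 0 (by decide) (by decide)).1 (hne 0 (by decide) (by decide)).2
  have s1 := hs _ (hne 1 (by decide) (by decide)).1 (hne 1 (by decide) (by decide)).2
  have key := s7_three hPW c0 C0 Cw hE.Cw_bd hE.Cw_nn Y.R Y.cells hE.cells_le Y.w hE.adm Y.uses hE.uses_sub x e
    ![agg Y.uses (x (e.symm 0)), agg Y.uses (x (e.symm 1)), sz2] D (fun _ => Pi) (32 * Pi) (3 * Pi)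
    (by
      intro i I
      fin_cases i
      · exact Real.sqrt_nonneg _
      · exact Real.sqrt_nonneg _
      · exact hsz0 I)
    hE.D_nn (fun _ => hPi) (by positivity) (by positivity) (fun _ _ => le_rfl) (fun _ _ => le_rfl)
    (by rw [e2]; exact hsz1) (by rw [e3]; exact h3)
    (by
      intro i
      fin_cases i
      · show ∑ I ∈ Y.cells, I.len * agg Y.uses (x (e.symm 0)) I ^ 2 ≤ Pi * Y.R.len
        rw [s7t_agg_budget Y.uses Y.cells hE.uses_sub]; exact s0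
      · show ∑ I ∈ Y.cells, I.len * agg Y.uses (x (e.symm 1)) I ^ 2 ≤ Pi * Y.R.len
        rw [s7t_agg_budget Y.uses Y.cells hE.uses_sub]; exact s1
      · exact hsz2)
    hE.D_bud p ε hp hp1 hε hε1
  exact key

/-- a physically small slot `l0`, the other slots bounded -/
theorem asm_err (hPW : PowerGoal) (hE : Y.Env c0 C0 Cw Cp Pi M0 D) (x : Fin 4 → ℕ → Cell → XV) (l0 : Fin 4)
    (small : ℝ) (hsm : 0 ≤ small) (h0 : Y.PhysSmall small (x l0)) (hb : ∀ l, l ≠ l0 → Y.Bd Pi D (x l))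
    (p ε : ℝ) (hp : 0 < p) (hε : 0 < ε) (hε1 : ε < 1) :
    Ctrl Y.R Y.cells (gabs Y.uses Y.w x) (asmAE Cp Pi ε * Real.sqrt (M0 * small)) 0 p ε := by
  have hPi : 0 ≤ Pi := by linarith [hE.Pi_ge]
  have e0 : (Equiv.swap 0 l0).symm 0 = l0 := by simp
  exact s7_err hPW c0 C0 Cp hE.Cp_bd hE.Cp_nn Y.R Y.cells hE.cells_le Y.w hE.adm Y.uses hE.uses_sub x
    (Equiv.swap 0 l0) D (32 * Pi) (3 * Pi) small M0 hE.D_nn (by positivity) (by positivity) hsm hE.M0_nn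
    (by rw [e0]; exact h0)
    (fun i hi u hu => (s7t_n2p_le _ _).trans
      (hb _ (fun h => hi ((Equiv.swap 0 l0).symm.injective (h.trans e0.symm))) u hu))
    hE.D_bud hE.len_le p ε hp hε hε1

/-- a pair-small couple in the slots `l2, l3`, the other two slots strong -/
theorem asm_pair (hE : Y.Env c0 C0 Cw Cp Pi M0 D) (x : Fin 4 → ℕ → Cell → XV) (l2 l3 : Fin 4) (h23 : l2 ≠ l3)
    (Z Z' : Cell → XV) (η : ℝ) (hη : 0 ≤ η) (h2 : ∀ u ∈ Y.uses, x l2 u.1 u.2 = Z u.2)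
    (h3 : ∀ u ∈ Y.uses, x l3 u.1 u.2 = Z' u.2) (hpair : ∀ I ∈ Y.cells, PairSmall I (Y.w I) l2 l3 (Z I) (Z' I) η)
    (hs : ∀ l, l ≠ l2 → l ≠ l3 → Y.Strong Pi (x l)) (p : ℝ) (hp : 0 < p) :
    Ctrl Y.R Y.cells (gabs Y.uses Y.w x) (η * Pi) 0 p 0 := by
  obtain ⟨e, e2, e3⟩ := asm_perm l2 l3 h23
  have hPi : 0 ≤ Pi := by linarith [hE.Pi_ge]
  have hne : ∀ i : Fin 4, i ≠ 2 → i ≠ 3 → e.symm i ≠ l2 ∧ e.symm i ≠ l3 := by
    intro i h2 h3
    exact ⟨fun h => h2 (e.symm.injective (h.trans e2.symm)), fun h => h3 (e.symm.injective (h.trans e3.symm))⟩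
  have s0 := hs _ (hne 0 (by decide) (by decide)).1 (hne 0 (by decide) (by decide)).2
  have s1 := hs _ (hne 1 (by decide) (by decide)).1 (hne 1 (by decide) (by decide)).2
  have key := s7_pair Y.R Y.cells Y.w Y.uses hE.uses_sub x e Z Z' η Pi Pi hη hPi hPi
    (by rw [e2]; exact h2) (by rw [e3]; exact h3) (by rw [e2, e3]; exact hpair) s0 s1 p hp
  rwa [Real.sqrt_mul_self hPi] at key

end Terms

end Claimed.Agent.R258
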