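/-
Row 258, block [S7-ASM] (owner: helper28).  MULTILINEARITY OF THE GROUP SUMS: families placed by roles (`placeF`), additivity of the form in the
roles 2 and 3, binary expansion of a group sum (`asm_gsum_add`: 16 patterns indexed by `s : Finset (Fin 4)`).
-/
import Claimed.Agent.R258.S7.AsmBase

set_option autoImplicit false
open MeasureTheory

namespace Claimed.Agent.R258

open Classical

/-- four families in role order `a, b, c, d`, placed into the slots by `e : slot ≃ role` -/
def placeF (e : Fin 4 ≃ Fin 4) (xa xb xc xd : ℕ → Cell → XV) : Fin 4 → ℕ → Cell → XV :=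
  fun j => ![xa, xb, xc, xd] (e j)

theorem asm_vec4 {α β : Type} (f : α → β) (a b c d : α) (i : Fin 4) :
    f (![a, b, c, d] i) = ![f a, f b, f c, f d] i := by
  fin_cases i <;> rfl

theorem asm_placeF_apply (e : Fin 4 ≃ Fin 4) (xa xb xc xd : ℕ → Cell → XV) (G : ℕ) (I : Cell) :
    (fun l => placeF e xa xb xc xd l G I) = placeV e (xa G I) (xb G I) (xc G I) (xd G I) := by
  funext l
  exact asm_vec4 (fun x : ℕ → Cell → XV => x G I) xa xb xc xd (e l)

theorem asm_placeF_0 (e : Fin 4 ≃ Fin 4) (xa xb xc xd : ℕ → Cell → XV) :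
    placeF e xa xb xc xd (e.symm 0) = xa := by simp [placeF]

theorem asm_placeF_1 (e : Fin 4 ≃ Fin 4) (xa xb xc xd : ℕ → Cell → XV) :
    placeF e xa xb xc xd (e.symm 1) = xb := by simp [placeF]

theorem asm_placeF_2 (e : Fin 4 ≃ Fin 4) (xa xb xc xd : ℕ → Cell → XV) :
    placeF e xa xb xc xd (e.symm 2) = xc := by simp [placeF]

theorem asm_placeF_3 (e : Fin 4 ≃ Fin 4) (xa xb xc xd : ℕ → Cell → XV) :
    placeF e xa xb xc xd (e.symm 3) = xd := by simp [placeF]

/-- every slot carries one of the four roles -/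
theorem asm_slot_cases (e : Fin 4 ≃ Fin 4) (l : Fin 4) :
    l = e.symm 0 ∨ l = e.symm 1 ∨ l = e.symm 2 ∨ l = e.symm 3 := by
  have h : ∀ i : Fin 4, i = 0 ∨ i = 1 ∨ i = 2 ∨ i = 3 := by decide
  rcases h (e l) with h | h | h | h
  · exact Or.inl (by rw [← h, e.symm_apply_apply])
  · exact Or.inr (Or.inl (by rw [← h, e.symm_apply_apply]))
  · exact Or.inr (Or.inr (Or.inl (by rw [← h, e.symm_apply_apply])))
  · exact Or.inr (Or.inr (Or.inr (by rw [← h, e.symm_apply_apply])))

theorem asm_symm_ne (e : Fin 4 ≃ Fin 4) {i j : Fin 4} (h : i ≠ j) : e.symm i ≠ e.symm j :=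
  fun h' => h (e.symm.injective h')

/-- a property of the families of all four roles holds in all slots -/
theorem asm_placeF_forall (e : Fin 4 ≃ Fin 4) (xa xb xc xd : ℕ → Cell → XV) (P : (ℕ → Cell → XV) → Prop)
    (ha : P xa) (hb : P xb) (hc : P xc) (hd : P xd) (l : Fin 4) : P (placeF e xa xb xc xd l) := by
  rcases asm_slot_cases e l with h | h | h | h <;> rw [h]
  · rwa [asm_placeF_0]
  · rwa [asm_placeF_1]
  · rwa [asm_placeF_2]
  · rwa [asm_placeF_3]

/-! ### the form as a multilinear map of the roles -/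

section Form

variable (c0 C0 : ℝ) (hc0 : 0 < c0) (I : Cell) (w : ℝ × ℝ → ℂ) (h : Admissible c0 C0 I w) (e : Fin 4 ≃ Fin 4)

include hc0 h

theorem asm_form_role : ∃ N : MultilinearMap ℂ (fun _ : Fin 4 => XV) ℂ,
    ∀ xa xb xc xd : XV, N ![xa, xb, xc, xd] = formV I w (placeV e xa xb xc xd) := by
  obtain ⟨M, hM⟩ := s5f_multilinear c0 C0 hc0 I w h
  exact ⟨M.domDomCongr e, fun xa xb xc xd => by
    rw [MultilinearMap.domDomCongr_apply]
    exact hM _⟩

theorem asm_form_add2 (xa xb xc xc' xd : XV) :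
    formV I w (placeV e xa xb (xc + xc') xd) =
      formV I w (placeV e xa xb xc xd) + formV I w (placeV e xa xb xc' xd) := by
  obtain ⟨N, hN⟩ := asm_form_role c0 C0 hc0 I w h e
  have u : ∀ y : XV, Function.update ![xa, xb, xc, xd] 2 y = ![xa, xb, y, xd] := by
    intro y
    funext i
    fin_cases i <;> simp [Function.update]
  have := N.map_update_add ![xa, xb, xc, xd] 2 xc xc'
  rw [u, u, u] at this
  rw [← hN, ← hN, ← hN, this]

theorem asm_form_add3 (xa xb xc xd xd' : XV) :
    formV I w (placeV e xa xb xc (xd + xd')) =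
      formV I w (placeV e xa xb xc xd) + formV I w (placeV e xa xb xc xd') := by
  obtain ⟨N, hN⟩ := asm_form_role c0 C0 hc0 I w h e
  have u : ∀ y : XV, Function.update ![xa, xb, xc, xd] 3 y = ![xa, xb, xc, y] := by
    intro y
    funext i
    fin_cases i <;> simp [Function.update]
  have := N.map_update_add ![xa, xb, xc, xd] 3 xd xd'
  rw [u, u, u] at this
  rw [← hN, ← hN, ← hN, this]

theorem asm_form_zero2 (xa xb xd : XV) : formV I w (placeV e xa xb 0 xd) = 0 := by
  obtain ⟨N, hN⟩ := asm_form_role c0 C0 hc0 I w h e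
  rw [← hN]
  exact N.map_coord_zero 2 rfl

theorem asm_form_zero3 (xa xb xc : XV) : formV I w (placeV e xa xb xc 0) = 0 := by
  obtain ⟨N, hN⟩ := asm_form_role c0 C0 hc0 I w h e
  rw [← hN]
  exact N.map_coord_zero 3 rfl

omit e in
/-- binary expansion -/
theorem asm_form_expand (z z' : Fin 4 → XV) :
    formV I w (fun l => z l + z' l) = ∑ s : Finset (Fin 4), formV I w (fun l => if l ∈ s then z l else z' l) := by
  obtain ⟨M, hM⟩ := s5f_multilinear c0 C0 hc0 I w h
  have := M.map_add_univ z z'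
  rw [← hM]
  refine Eq.trans this (Finset.sum_congr rfl fun s _ => ?_)
  rw [hM]
  rfl

end Form

/-! ### group sums -/

theorem asm_gsum_congr (uses : Finset (ℕ × Cell)) (w : Cell → ℝ × ℝ → ℂ) (x x' : Fin 4 → ℕ → Cell → XV) (I : Cell)
    (h : ∀ G, (G, I) ∈ uses → ∀ l, x l G I = x' l G I) : gsum uses w x I = gsum uses w x' I := by
  unfold gsum
  refine Finset.sum_congr rfl fun G hG => ?_
  have := h G (asm_mem_usesAt.1 hG)
  congr 1
  funext l
  exact this l

theorem asm_gsum_add (c0 C0 : ℝ) (hc0 : 0 < c0) (uses : Finset (ℕ × Cell)) (w : Cell → ℝ × ℝ → ℂ) (I : Cell)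
    (h : Admissible c0 C0 I (w I)) (x x' : Fin 4 → ℕ → Cell → XV) :
    gsum uses w (fun l G J => x l G J + x' l G J) I =
      ∑ s : Finset (Fin 4), gsum uses w (fun l => if l ∈ s then x l else x' l) I := by
  unfold gsum
  rw [Finset.sum_comm]
  refine Finset.sum_congr rfl fun G _ => ?_
  rw [asm_form_expand c0 C0 hc0 I (w I) h]
  refine Finset.sum_congr rfl fun s _ => ?_
  congr 1
  funext l
  by_cases hl : l ∈ s
  · simp only [if_pos hl]
  · simp only [if_neg hl]

end Claimed.Agent.R258
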