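/-
Row 258, block [S7-ASM] (owner: helper28).  THE PATTERNS WITH EXACTLY TWO SIDES.
Roles `a, b` (sides) and `c, d` (cores) are placed by `e : slot ≃ role`.
  `H(S,S,A_c,A_d) = H(S,S,Z_c,Z_d) - H(S,S,S_c,Z_d) - H(S,S,E_c,Z_d) - H(S,S,A_c,S_d) - H(S,S,A_c,E_d)`,
  `H(S,S,Z_c,Z_d)` = `Transfer.ident` = main terms + near terms + far errors,
  `H(DS,S,B_c,B_d) = H(DS,S,Y_c,Y_d) - H(DS,S,U_c,Y_d) - H(DS,S,B_c,U_d)`, `Y = B + U`.
-/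
import Claimed.Agent.R258.S7.AsmForm

set_option autoImplicit false
open MeasureTheory

namespace Claimed.Agent.R258

open Classical

/-! ### the term lemmas for families placed by roles -/

theorem asm_placeF_rest (e : Fin 4 ≃ Fin 4) (xa xb xc xd : ℕ → Cell → XV) (P : (ℕ → Cell → XV) → Prop)
    (ha : P xa) (hb : P xb) (l : Fin 4) (h2 : l ≠ e.symm 2) (h3 : l ≠ e.symm 3) : P (placeF e xa xb xc xd l) := by
  rcases asm_slot_cases e l with h | h | h | h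
  · rw [h, asm_placeF_0]; exact ha
  · rw [h, asm_placeF_1]; exact hb
  · exact absurd h h2
  · exact absurd h h3

section Terms

variable {Y : SideSys} {c0 C0 Cw Cp Pi M0 : ℝ} {D : Cell → ℝ}

theorem asm_three_c (hPW : PowerGoal) (hE : Y.Env c0 C0 Cw Cp Pi M0 D) (e : Fin 4 ≃ Fin 4)
    (xa xb xc xd : ℕ → Cell → XV) (ha : Y.Strong Pi xa) (hb : Y.Strong Pi xb) (hc : Y.SupStrong Pi xc)
    (hd : Y.Bd Pi D xd) (p ε : ℝ) (hp : 2 / 3 ≤ p) (hp1 : p ≤ 1) (hε : 0 < ε) (hε1 : ε < 1) :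
    Ctrl Y.R Y.cells (gabs Y.uses Y.w (placeF e xa xb xc xd)) 0 (asmP3 Cw Pi p ε) p ε :=
  asm_three hPW hE _ (e.symm 2) (e.symm 3) (asm_symm_ne e (by decide))
    (fun l h2 h3 => asm_placeF_rest e xa xb xc xd _ ha hb l h2 h3)
    (by rw [asm_placeF_2]; exact hc) (by rw [asm_placeF_3]; exact hd) p ε hp hp1 hε hε1

theorem asm_three_d (hPW : PowerGoal) (hE : Y.Env c0 C0 Cw Cp Pi M0 D) (e : Fin 4 ≃ Fin 4)
    (xa xb xc xd : ℕ → Cell → XV) (ha : Y.Strong Pi xa) (hb : Y.Strong Pi xb) (hc : Y.Bd Pi D xc)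
    (hd : Y.SupStrong Pi xd) (p ε : ℝ) (hp : 2 / 3 ≤ p) (hp1 : p ≤ 1) (hε : 0 < ε) (hε1 : ε < 1) :
    Ctrl Y.R Y.cells (gabs Y.uses Y.w (placeF e xa xb xc xd)) 0 (asmP3 Cw Pi p ε) p ε :=
  asm_three hPW hE _ (e.symm 3) (e.symm 2) (asm_symm_ne e (by decide))
    (fun l h3 h2 => asm_placeF_rest e xa xb xc xd _ ha hb l h2 h3)
    (by rw [asm_placeF_3]; exact hd) (by rw [asm_placeF_2]; exact hc) p ε hp hp1 hε hε1

theorem asm_err_c (hPW : PowerGoal) (hE : Y.Env c0 C0 Cw Cp Pi M0 D) (e : Fin 4 ≃ Fin 4)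
    (xa xb xc xd : ℕ → Cell → XV) (small : ℝ) (hsm : 0 ≤ small) (ha : Y.Bd Pi D xa) (hb : Y.Bd Pi D xb)
    (hc : Y.PhysSmall small xc) (hd : Y.Bd Pi D xd) (p ε : ℝ) (hp : 0 < p) (hε : 0 < ε) (hε1 : ε < 1) :
    Ctrl Y.R Y.cells (gabs Y.uses Y.w (placeF e xa xb xc xd)) (asmAE Cp Pi ε * Real.sqrt (M0 * small)) 0 p ε := by
  refine asm_err hPW hE _ (e.symm 2) small hsm (by rw [asm_placeF_2]; exact hc) (fun l hl => ?_) p ε hp hε hε1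
  rcases asm_slot_cases e l with h | h | h | h
  · rw [h, asm_placeF_0]; exact ha
  · rw [h, asm_placeF_1]; exact hb
  · exact absurd h hl
  · rw [h, asm_placeF_3]; exact hd

theorem asm_err_d (hPW : PowerGoal) (hE : Y.Env c0 C0 Cw Cp Pi M0 D) (e : Fin 4 ≃ Fin 4)
    (xa xb xc xd : ℕ → Cell → XV) (small : ℝ) (hsm : 0 ≤ small) (ha : Y.Bd Pi D xa) (hb : Y.Bd Pi D xb)
    (hc : Y.Bd Pi D xc) (hd : Y.PhysSmall small xd) (p ε : ℝ) (hp : 0 < p) (hε : 0 < ε) (hε1 : ε < 1) :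
    Ctrl Y.R Y.cells (gabs Y.uses Y.w (placeF e xa xb xc xd)) (asmAE Cp Pi ε * Real.sqrt (M0 * small)) 0 p ε := by
  refine asm_err hPW hE _ (e.symm 3) small hsm (by rw [asm_placeF_3]; exact hd) (fun l hl => ?_) p ε hp hε hε1
  rcases asm_slot_cases e l with h | h | h | h
  · rw [h, asm_placeF_0]; exact ha
  · rw [h, asm_placeF_1]; exact hb
  · rw [h, asm_placeF_2]; exact hc
  · exact absurd h hl

theorem asm_pair_cd (hE : Y.Env c0 C0 Cw Cp Pi M0 D) (e : Fin 4 ≃ Fin 4) (xa xb : ℕ → Cell → XV)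
    (Z Z' : Cell → XV) (η : ℝ) (hη : 0 ≤ η) (ha : Y.Strong Pi xa) (hb : Y.Strong Pi xb)
    (hpair : ∀ I ∈ Y.cells, PairSmall I (Y.w I) (e.symm 2) (e.symm 3) (Z I) (Z' I) η) (p : ℝ) (hp : 0 < p) :
    Ctrl Y.R Y.cells (gabs Y.uses Y.w (placeF e xa xb (fun _ I => Z I) (fun _ I => Z' I))) (η * Pi) 0 p 0 :=
  asm_pair hE _ (e.symm 2) (e.symm 3) (asm_symm_ne e (by decide)) Z Z' η hη
    (fun u _ => by rw [asm_placeF_2]) (fun u _ => by rw [asm_placeF_3]) hpair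
    (fun l h2 h3 => asm_placeF_rest e xa xb _ _ _ ha hb l h2 h3) p hp

end Terms

/-! ### group sums of families placed by roles -/

theorem asm_gsum_place (uses : Finset (ℕ × Cell)) (w : Cell → ℝ × ℝ → ℂ) (e : Fin 4 ≃ Fin 4)
    (xa xb xc xd : ℕ → Cell → XV) (I : Cell) :
    gsum uses w (placeF e xa xb xc xd) I =
      ∑ G ∈ usesAt uses I, formV I (w I) (placeV e (xa G I) (xb G I) (xc G I) (xd G I)) := by
  unfold gsum
  refine Finset.sum_congr rfl fun G _ => ?_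
  rw [asm_placeF_apply]

section Split

variable (c0 C0 : ℝ) (hc0 : 0 < c0) (uses : Finset (ℕ × Cell)) (w : Cell → ℝ × ℝ → ℂ) (e : Fin 4 ≃ Fin 4) (I : Cell)
  (h : Admissible c0 C0 I (w I))

include hc0 h

theorem asm_gsum_add2 (xa xb xc xc' xd : ℕ → Cell → XV) :
    gsum uses w (placeF e xa xb (fun G J => xc G J + xc' G J) xd) I =
      gsum uses w (placeF e xa xb xc xd) I + gsum uses w (placeF e xa xb xc' xd) I := by
  rw [asm_gsum_place, asm_gsum_place, asm_gsum_place, ← Finset.sum_add_distrib]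
  exact Finset.sum_congr rfl fun G _ => asm_form_add2 c0 C0 hc0 I (w I) h e _ _ _ _ _

theorem asm_gsum_add3 (xa xb xc xd xd' : ℕ → Cell → XV) :
    gsum uses w (placeF e xa xb xc (fun G J => xd G J + xd' G J)) I =
      gsum uses w (placeF e xa xb xc xd) I + gsum uses w (placeF e xa xb xc xd') I := by
  rw [asm_gsum_place, asm_gsum_place, asm_gsum_place, ← Finset.sum_add_distrib]
  exact Finset.sum_congr rfl fun G _ => asm_form_add3 c0 C0 hc0 I (w I) h e _ _ _ _ _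

/-- `H(p_c, p_d) = H(z_c, z_d) - H(q_c, z_d) - H(p_c, q_d)` if `z = p + q` at the uses -/
theorem asm_gsum_split (xa xb pc qc zc pd qd zd : ℕ → Cell → XV)
    (hc : ∀ G, (G, I) ∈ uses → zc G I = pc G I + qc G I) (hd : ∀ G, (G, I) ∈ uses → zd G I = pd G I + qd G I) :
    gsum uses w (placeF e xa xb pc pd) I =
      gsum uses w (placeF e xa xb zc zd) I - gsum uses w (placeF e xa xb qc zd) I -
        gsum uses w (placeF e xa xb pc qd) I := by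
  rw [asm_gsum_place, asm_gsum_place, asm_gsum_place, asm_gsum_place, ← Finset.sum_sub_distrib,
    ← Finset.sum_sub_distrib]
  refine Finset.sum_congr rfl fun G hG => ?_
  have hG' := asm_mem_usesAt.1 hG
  rw [hc G hG', asm_form_add2 c0 C0 hc0 I (w I) h e, hd G hG', asm_form_add3 c0 C0 hc0 I (w I) h e,
    asm_form_add3 c0 C0 hc0 I (w I) h e]
  ring

end Split

/-- the size facts of a leaf -/
structure SideSys.Facts (Y : SideSys) (Pi small : ℝ) (D : Cell → ℝ) : Prop where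
  sS : ∀ l, Y.Strong Pi (Y.S l)
  bS : ∀ l, Y.Bd Pi D (Y.S l)
  bA : ∀ l, Y.Bd Pi D (Y.A l)
  bZ : ∀ l, Y.Bd Pi D (Y.Z l)
  bE : ∀ l, Y.Bd Pi D (Y.E l)
  bW : ∀ l, Y.Bd Pi D (fun G I => Y.A l G I + Y.S l G I)
  pE : ∀ l, Y.PhysSmall small (Y.E l)
  small_nn : 0 ≤ small
  split : ∀ l, ∀ u ∈ Y.uses, Y.Z l u.1 u.2 = Y.A l u.1 u.2 + Y.S l u.1 u.2 + Y.E l u.1 u.2
  sU : ∀ l, Y.SupStrong Pi (fun _ I => Y.Uu l I)
  bB : ∀ l, Y.Bd Pi D (fun _ I => Y.Bb l I)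
  bY : ∀ l, Y.Bd Pi D (fun _ I => Y.Bb l I + Y.Uu l I)

section Two

variable {Y : SideSys} {c0 C0 Cw Cp Pi M0 small : ℝ} {D : Cell → ℝ}

/-- the four corrections -/
noncomputable def asmCorr (Y : SideSys) (e : Fin 4 ≃ Fin 4) (I : Cell) : ℝ :=
  gabs Y.uses Y.w (placeF e (Y.S (e.symm 0)) (Y.S (e.symm 1)) (Y.S (e.symm 2)) (Y.Z (e.symm 3))) I +
  gabs Y.uses Y.w (placeF e (Y.S (e.symm 0)) (Y.S (e.symm 1)) (Y.E (e.symm 2)) (Y.Z (e.symm 3))) I +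
  gabs Y.uses Y.w (placeF e (Y.S (e.symm 0)) (Y.S (e.symm 1)) (Y.A (e.symm 2)) (Y.S (e.symm 3))) I +
  gabs Y.uses Y.w (placeF e (Y.S (e.symm 0)) (Y.S (e.symm 1)) (Y.A (e.symm 2)) (Y.E (e.symm 3))) I

theorem asm_two_corr (hPW : PowerGoal) (hE : Y.Env c0 C0 Cw Cp Pi M0 D) (hF : Y.Facts Pi small D)
    (e : Fin 4 ≃ Fin 4) (p ε : ℝ) (hp : 2 / 3 ≤ p) (hp1 : p ≤ 1) (hε : 0 < ε) (hε1 : ε < 1) :
    Ctrl Y.R Y.cells (asmCorr Y e) (2 * (asmAE Cp Pi ε * Real.sqrt (M0 * small))) (2 * asmP3 Cw Pi p ε) p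
      (4 * ε) := by
  have hp0 : 0 < p := by linarith
  have t1 := asm_three_c hPW hE e (Y.S (e.symm 0)) (Y.S (e.symm 1)) (Y.S (e.symm 2)) (Y.Z (e.symm 3))
    (hF.sS _) (hF.sS _) ((hF.sS _).sup hE.uses_sub) (hF.bZ _) p ε hp hp1 hε hε1
  have t2 := asm_err_c hPW hE e (Y.S (e.symm 0)) (Y.S (e.symm 1)) (Y.E (e.symm 2)) (Y.Z (e.symm 3)) small
    hF.small_nn (hF.bS _) (hF.bS _) (hF.pE _) (hF.bZ _) p ε hp0 hε hε1
  have t3 := asm_three_d hPW hE e (Y.S (e.symm 0)) (Y.S (e.symm 1)) (Y.A (e.symm 2)) (Y.S (e.symm 3))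
    (hF.sS _) (hF.sS _) (hF.bA _) ((hF.sS _).sup hE.uses_sub) p ε hp hp1 hε hε1
  have t4 := asm_err_d hPW hE e (Y.S (e.symm 0)) (Y.S (e.symm 1)) (Y.A (e.symm 2)) (Y.E (e.symm 3)) small
    hF.small_nn (hF.bS _) (hF.bS _) (hF.bA _) (hF.pE _) p ε hp0 hε hε1
  exact (((t1.add hp0 hp1 t2).add hp0 hp1 t3).add hp0 hp1 t4).mono (fun _ _ => le_rfl)
    (le_of_eq (by ring)) (le_of_eq (by ring)) (le_of_eq (by ring))

theorem asm_two_le (hc0 : 0 < c0) (hE : Y.Env c0 C0 Cw Cp Pi M0 D) (hF : Y.Facts Pi small D)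
    (e : Fin 4 ≃ Fin 4) (I : Cell) (hI : I ∈ Y.cells) :
    ‖gsum Y.uses Y.w (placeF e (Y.S (e.symm 0)) (Y.S (e.symm 1)) (Y.A (e.symm 2)) (Y.A (e.symm 3))) I‖ ≤
      ‖gsum Y.uses Y.w (placeF e (Y.S (e.symm 0)) (Y.S (e.symm 1)) (Y.Z (e.symm 2)) (Y.Z (e.symm 3))) I‖ +
        asmCorr Y e I := by
  have hA := hE.adm I hI
  rw [asm_gsum_split c0 C0 hc0 Y.uses Y.w e I hA (Y.S (e.symm 0)) (Y.S (e.symm 1)) (Y.A (e.symm 2))
    (fun G J => Y.S (e.symm 2) G J + Y.E (e.symm 2) G J) (Y.Z (e.symm 2)) (Y.A (e.symm 3))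
    (fun G J => Y.S (e.symm 3) G J + Y.E (e.symm 3) G J) (Y.Z (e.symm 3))
    (fun G hG => by rw [hF.split _ (G, I) hG, add_assoc]) (fun G hG => by rw [hF.split _ (G, I) hG, add_assoc]),
    asm_gsum_add2 c0 C0 hc0 Y.uses Y.w e I hA, asm_gsum_add3 c0 C0 hc0 Y.uses Y.w e I hA]
  unfold asmCorr
  have n1 := s7t_gsum_le Y.uses Y.w (placeF e (Y.S (e.symm 0)) (Y.S (e.symm 1)) (Y.S (e.symm 2)) (Y.Z (e.symm 3))) I
  have n2 := s7t_gsum_le Y.uses Y.w (placeF e (Y.S (e.symm 0)) (Y.S (e.symm 1)) (Y.E (e.symm 2)) (Y.Z (e.symm 3))) I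
  have n3 := s7t_gsum_le Y.uses Y.w (placeF e (Y.S (e.symm 0)) (Y.S (e.symm 1)) (Y.A (e.symm 2)) (Y.S (e.symm 3))) I
  have n4 := s7t_gsum_le Y.uses Y.w (placeF e (Y.S (e.symm 0)) (Y.S (e.symm 1)) (Y.A (e.symm 2)) (Y.E (e.symm 3))) I
  refine (norm_sub_le _ _).trans ?_
  refine (add_le_add (norm_sub_le _ _) (norm_add_le _ _)).trans ?_
  have := norm_add_le
    (gsum Y.uses Y.w (placeF e (Y.S (e.symm 0)) (Y.S (e.symm 1)) (Y.S (e.symm 2)) (Y.Z (e.symm 3))) I)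
    (gsum Y.uses Y.w (placeF e (Y.S (e.symm 0)) (Y.S (e.symm 1)) (Y.E (e.symm 2)) (Y.Z (e.symm 3))) I)
  linarith

/-- one transferred main term -/
theorem asm_two_main (hPW : PowerGoal) (hc0 : 0 < c0) (hE : Y.Env c0 C0 Cw Cp Pi M0 D) (hF : Y.Facts Pi small D)
    (e : Fin 4 ≃ Fin 4) (η : ℝ) (hη : 0 ≤ η)
    (hpair : ∀ I ∈ Y.cells, PairSmall I (Y.w I) (e.symm 2) (e.symm 3) (Y.Bb (e.symm 2) I + Y.Uu (e.symm 2) I)
      (Y.Bb (e.symm 3) I + Y.Uu (e.symm 3) I) η)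
    (xa : ℕ → Cell → XV) (hxa : Y.Strong Pi xa) (p ε : ℝ) (hp : 2 / 3 ≤ p) (hp1 : p ≤ 1) (hε : 0 < ε) (hε1 : ε < 1) :
    Ctrl Y.R Y.cells
      (fun I => ‖gsum Y.uses Y.w (placeF e xa (Y.S (e.symm 1)) (fun _ J => Y.Bb (e.symm 2) J)
        (fun _ J => Y.Bb (e.symm 3) J)) I‖) (η * Pi) (2 * asmP3 Cw Pi p ε) p (2 * ε) := by
  have hp0 : 0 < p := by linarith
  have t1 := asm_pair_cd hE e xa (Y.S (e.symm 1)) (fun J => Y.Bb (e.symm 2) J + Y.Uu (e.symm 2) J)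
    (fun J => Y.Bb (e.symm 3) J + Y.Uu (e.symm 3) J) η hη hxa (hF.sS _) hpair p hp0
  have t2 := asm_three_c hPW hE e xa (Y.S (e.symm 1)) (fun _ J => Y.Uu (e.symm 2) J)
    (fun _ J => Y.Bb (e.symm 3) J + Y.Uu (e.symm 3) J) hxa (hF.sS _) (hF.sU _) (hF.bY _) p ε hp hp1 hε hε1
  have t3 := asm_three_d hPW hE e xa (Y.S (e.symm 1)) (fun _ J => Y.Bb (e.symm 2) J)
    (fun _ J => Y.Uu (e.symm 3) J) hxa (hF.sS _) (hF.bB _) (hF.sU _) p ε hp hp1 hε hε1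
  refine ((t1.add hp0 hp1 t2).add hp0 hp1 t3).mono (fun I hI => ?_)
    (le_of_eq (by ring)) (le_of_eq (by ring)) (le_of_eq (by ring))
  have hA := hE.adm I hI
  rw [asm_gsum_split c0 C0 hc0 Y.uses Y.w e I hA xa (Y.S (e.symm 1)) (fun _ J => Y.Bb (e.symm 2) J)
    (fun _ J => Y.Uu (e.symm 2) J) (fun _ J => Y.Bb (e.symm 2) J + Y.Uu (e.symm 2) J)
    (fun _ J => Y.Bb (e.symm 3) J) (fun _ J => Y.Uu (e.symm 3) J)
    (fun _ J => Y.Bb (e.symm 3) J + Y.Uu (e.symm 3) J) (fun _ _ => rfl) (fun _ _ => rfl)]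
  refine (norm_sub_le _ _).trans (add_le_add ((norm_sub_le _ _).trans (add_le_add ?_ ?_)) ?_) <;>
  exact s7t_gsum_le _ _ _ _

/-- the far errors -/
theorem asm_two_far (hE : Y.Env c0 C0 Cw Cp Pi M0 D) (xa xb : ℕ → Cell → XV) (ha : Y.Strong Pi xa)
    (hb : Y.Strong Pi xb) (err : ℕ → Cell → ℂ) (far : ℝ) (hfar : 0 ≤ far)
    (h : ∀ u ∈ Y.uses, ‖err u.1 u.2‖ ≤ far * n2 u.2 (xa u.1 u.2) * n2 u.2 (xb u.1 u.2)) (p : ℝ) (hp : 0 < p) :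
    Ctrl Y.R Y.cells (fun I => ‖∑ G ∈ usesAt Y.uses I, err G I‖) (far * Pi) 0 p 0 := by
  have key : Ctrl Y.R Y.cells
      (fun I => far * ∑ G ∈ usesAt Y.uses I, (n2 I (xa G I) ^ 2 + n2 I (xb G I) ^ 2) / 2) (far * Pi) 0 p 0 := by
    refine Ctrl.of_abs (fun I => mul_nonneg hfar (Finset.sum_nonneg fun _ _ => by positivity)) ?_ hp
    have e1 : ∑ I ∈ Y.cells, I.len * (far * ∑ G ∈ usesAt Y.uses I, (n2 I (xa G I) ^ 2 + n2 I (xb G I) ^ 2) / 2) =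
        far / 2 * (∑ u ∈ Y.uses, ‖restr u.2.set (xa u.1 u.2)‖ ^ 2 + ∑ u ∈ Y.uses, ‖restr u.2.set (xb u.1 u.2)‖ ^ 2) := by
      rw [← Finset.sum_add_distrib, ← asm_sum_uses Y.uses Y.cells hE.uses_sub
        (fun G I => ‖restr I.set (xa G I)‖ ^ 2 + ‖restr I.set (xb G I)‖ ^ 2), Finset.mul_sum]
      refine Finset.sum_congr rfl fun I _ => ?_
      rw [Finset.mul_sum, Finset.mul_sum, Finset.mul_sum]
      refine Finset.sum_congr rfl fun G _ => ?_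
      rw [← s5f_len_n2_sq, ← s5f_len_n2_sq]
      ring
    rw [e1]
    have ha' : ∑ u ∈ Y.uses, ‖restr u.2.set (xa u.1 u.2)‖ ^ 2 ≤ Pi * Y.R.len := ha
    have hb' : ∑ u ∈ Y.uses, ‖restr u.2.set (xb u.1 u.2)‖ ^ 2 ≤ Pi * Y.R.len := hb
    nlinarith
  refine key.mono (fun I _ => ?_) le_rfl le_rfl le_rfl
  refine (norm_sum_le _ _).trans ?_
  rw [Finset.mul_sum]
  refine Finset.sum_le_sum fun G hG => ?_
  refine (h (G, I) (asm_mem_usesAt.1 hG)).trans ?_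
  show far * n2 I (xa G I) * n2 I (xb G I) ≤ far * ((n2 I (xa G I) ^ 2 + n2 I (xb G I) ^ 2) / 2)
  rw [mul_assoc]
  refine mul_le_mul_of_nonneg_left ?_ hfar
  nlinarith [sq_nonneg (n2 I (xa G I) - n2 I (xb G I))]

/-- the near terms -/
theorem asm_two_near {e : Fin 4 ≃ Fin 4} (τ : Transfer Y e) (Ntr : ℕ) (hn : τ.nNear ≤ Ntr) (hP : 1 ≤ Y.P)
    (hcoef : ∀ t, ‖τ.coef t‖ ≤ 2 / (Y.P : ℝ)) (nA nP p ε2 : ℝ) (hnA : 0 ≤ nA) (hnP : 0 ≤ nP) (hε2 : 0 ≤ ε2)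
    (hp0 : 0 < p) (hp1 : p ≤ 1) (hNear : ∀ t, Ctrl Y.R Y.cells (fun I => ‖(τ.near t).term I‖) nA nP p ε2) :
    Ctrl Y.R Y.cells (fun I => ∑ t, ‖τ.coef t‖ * ‖(τ.near t).term I‖) (Ntr * (2 / (Y.P : ℝ) * nA))
      (Ntr * (2 * nP)) p (Ntr * ε2) := by
  refine asm_ctrl_sum_const _ Ntr (by simpa using hn) (by positivity) (by positivity) hε2 hp0 hp1 (fun t => ?_)
  refine ((hNear t).smul (norm_nonneg (τ.coef t)) hp0).mono (fun _ _ => le_rfl) ?_ ?_ le_rfl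
  · exact mul_le_mul_of_nonneg_right (hcoef t) hnA
  · refine mul_le_mul_of_nonneg_right ?_ hnP
    have hP' : (1 : ℝ) ≤ Y.P := by exact_mod_cast hP
    have h2 : ‖τ.coef t‖ ≤ 2 := (hcoef t).trans (by rw [div_le_iff₀ (by positivity)]; linarith)
    calc ‖τ.coef t‖ ^ p ≤ 2 ^ p := Real.rpow_le_rpow (norm_nonneg _) h2 hp0.le
      _ ≤ 2 ^ (1 : ℝ) := Real.rpow_le_rpow_of_exponent_le (by norm_num) hp1
      _ = 2 := Real.rpow_one 2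

/-- the identity of Lemma 6.9, summed over the groups used at `I` -/
theorem asm_two_ident {e : Fin 4 ≃ Fin 4} (τ : Transfer Y e) {Ntr Na Nb : ℕ} {Ea Eb cc far : ℝ}
    (hτ : τ.Ok c0 C0 Ntr Na Nb Ea Eb Pi cc M0 far) (I : Cell) :
    gsum Y.uses Y.w (placeF e (Y.S (e.symm 0)) (Y.S (e.symm 1)) (Y.Z (e.symm 2)) (Y.Z (e.symm 3))) I =
      ∑ σ, τ.sgM σ * gsum Y.uses Y.w (placeF e (fun G J => τ.Dm σ G J (Y.S (e.symm 0) G J)) (Y.S (e.symm 1))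
          (fun _ J => Y.Bb (e.symm 2) J) (fun _ J => Y.Bb (e.symm 3) J)) I +
        ∑ t, τ.coef t * (τ.near t).term I + ∑ G ∈ usesAt Y.uses I, τ.err G I := by
  rw [asm_gsum_place]
  have h1 : ∀ σ, τ.sgM σ * gsum Y.uses Y.w (placeF e (fun G J => τ.Dm σ G J (Y.S (e.symm 0) G J)) (Y.S (e.symm 1))
      (fun _ J => Y.Bb (e.symm 2) J) (fun _ J => Y.Bb (e.symm 3) J)) I =
      ∑ G ∈ usesAt Y.uses I, τ.sgM σ * formV I (Y.w I) (placeV e (τ.Dm σ G I (Y.S (e.symm 0) G I))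
        (Y.S (e.symm 1) G I) (Y.Bb (e.symm 2) I) (Y.Bb (e.symm 3) I)) := by
    intro σ
    rw [asm_gsum_place, Finset.mul_sum]
  have h2 : ∀ t, τ.coef t * (τ.near t).term I =
      ∑ G ∈ usesAt Y.uses I, τ.coef t * ∑ p, formV I (Y.w I)
        (placeV (τ.eN t) (τ.xa t G I p) (Y.S (e.symm 1) G I) (τ.Cg t G (s7Rel Y.R I) p) (τ.Dg t G (s7Rel Y.R I))) := by
    intro t
    rw [← Finset.mul_sum]
    rfl
  simp only [h1, h2]
  rw [Finset.sum_comm, Finset.sum_comm (s := (Finset.univ : Finset (Fin τ.nNear))), ← Finset.sum_add_distrib,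
    ← Finset.sum_add_distrib]
  exact Finset.sum_congr rfl fun G hG => hτ.ident (G, I) (asm_mem_usesAt.1 hG)

theorem asm_strong_Dm {e : Fin 4 ≃ Fin 4} (τ : Transfer Y e) (hD : ∀ σ G I x, n2 I (τ.Dm σ G I x) ≤ n2 I x)
    (σ : Fin τ.nMain) (x : ℕ → Cell → XV) (hx : Y.Strong Pi x) : Y.Strong Pi (fun G J => τ.Dm σ G J (x G J)) := by
  refine le_trans (Finset.sum_le_sum fun u _ => ?_) hx
  rw [← s5f_len_n2_sq, ← s5f_len_n2_sq]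
  exact mul_le_mul_of_nonneg_left (pow_le_pow_left₀ (s5f_n2_nonneg _ _) (hD σ u.1 u.2 _) 2) (cell_len_nonneg _)

/-- **the patterns with exactly two sides** -/
theorem asm_two (hPW : PowerGoal) (hc0 : 0 < c0) (hE : Y.Env c0 C0 Cw Cp Pi M0 D) (hF : Y.Facts Pi small D)
    (e : Fin 4 ≃ Fin 4) (η : ℝ) (hη : 0 ≤ η)
    (hpair : ∀ I ∈ Y.cells, PairSmall I (Y.w I) (e.symm 2) (e.symm 3) (Y.Bb (e.symm 2) I + Y.Uu (e.symm 2) I)
      (Y.Bb (e.symm 3) I + Y.Uu (e.symm 3) I) η)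
    (τ : Transfer Y e) {Ntr Na Nb : ℕ} {Ea Eb cc far : ℝ} (hτ : τ.Ok c0 C0 Ntr Na Nb Ea Eb Pi cc M0 far)
    (hfar : 0 ≤ far) (hP : 1 ≤ Y.P) (nA nP p ε1 ε2 : ℝ) (hnA : 0 ≤ nA) (hnP : 0 ≤ nP) (hp : 2 / 3 ≤ p) (hp1 : p ≤ 1)
    (hε1 : 0 < ε1) (hε1' : ε1 < 1) (hε2 : 0 ≤ ε2)
    (hNear : ∀ t, Ctrl Y.R Y.cells (fun I => ‖(τ.near t).term I‖) nA nP p ε2) :
    Ctrl Y.R Y.cells
      (fun I => ‖gsum Y.uses Y.w (placeF e (Y.S (e.symm 0)) (Y.S (e.symm 1)) (Y.A (e.symm 2)) (Y.A (e.symm 3))) I‖)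
      (2 * (asmAE Cp Pi ε1 * Real.sqrt (M0 * small)) + Ntr * (η * Pi) + Ntr * (2 / (Y.P : ℝ) * nA) + far * Pi)
      (2 * asmP3 Cw Pi p ε1 + Ntr * (2 * asmP3 Cw Pi p ε1) + Ntr * (2 * nP)) p
      (4 * ε1 + Ntr * (2 * ε1) + Ntr * ε2) := by
  have hp0 : 0 < p := by linarith
  have hPi : 0 ≤ Pi := by linarith [hE.Pi_ge]
  have c1 := asm_two_corr hPW hE hF e p ε1 hp hp1 hε1 hε1'
  have c2 : Ctrl Y.R Y.cells (fun I => ∑ σ, ‖gsum Y.uses Y.w (placeF e (fun G J => τ.Dm σ G J (Y.S (e.symm 0) G J))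
      (Y.S (e.symm 1)) (fun _ J => Y.Bb (e.symm 2) J) (fun _ J => Y.Bb (e.symm 3) J)) I‖)
      (Ntr * (η * Pi)) (Ntr * (2 * asmP3 Cw Pi p ε1)) p (Ntr * (2 * ε1)) :=
    asm_ctrl_sum_const _ Ntr (by simpa using hτ.nMain_le) (by positivity)
      (mul_nonneg (by norm_num) (asm_p3_nonneg hE.Cw_nn hPi hε1 p)) (by positivity) hp0 hp1
      (fun σ => asm_two_main hPW hc0 hE hF e η hη hpair _ (asm_strong_Dm τ hτ.Dm_le σ _ (hF.sS _)) p ε1 hp hp1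
        hε1 hε1')
  have c3 := asm_two_near τ Ntr hτ.nNear_le hP hτ.coef_le nA nP p ε2 hnA hnP hε2 hp0 hp1 hNear
  have c4 := asm_two_far hE (Y.S (e.symm 0)) (Y.S (e.symm 1)) (hF.sS _) (hF.sS _) τ.err far hfar hτ.far_le p hp0
  refine (((c1.add hp0 hp1 c2).add hp0 hp1 c3).add hp0 hp1 c4).mono (fun I hI => ?_)
    le_rfl (le_of_eq (by ring)) (le_of_eq (by ring))
  refine (asm_two_le hc0 hE hF e I hI).trans ?_
  rw [asm_two_ident τ hτ I]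
  have n1 : ‖∑ σ, τ.sgM σ * gsum Y.uses Y.w (placeF e (fun G J => τ.Dm σ G J (Y.S (e.symm 0) G J)) (Y.S (e.symm 1))
      (fun _ J => Y.Bb (e.symm 2) J) (fun _ J => Y.Bb (e.symm 3) J)) I‖ ≤
      ∑ σ, ‖gsum Y.uses Y.w (placeF e (fun G J => τ.Dm σ G J (Y.S (e.symm 0) G J))
      (Y.S (e.symm 1)) (fun _ J => Y.Bb (e.symm 2) J) (fun _ J => Y.Bb (e.symm 3) J)) I‖ := by
    refine (norm_sum_le _ _).trans (Finset.sum_le_sum fun σ _ => ?_)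
    rw [norm_mul]
    exact mul_le_of_le_one_left (norm_nonneg _) (hτ.sgM_le σ)
  have n2 : ‖∑ t, τ.coef t * (τ.near t).term I‖ ≤ ∑ t, ‖τ.coef t‖ * ‖(τ.near t).term I‖ := by
    refine (norm_sum_le _ _).trans (Finset.sum_le_sum fun t _ => ?_)
    rw [norm_mul]
  have n3 := norm_add_le (∑ σ, τ.sgM σ * gsum Y.uses Y.w (placeF e (fun G J => τ.Dm σ G J (Y.S (e.symm 0) G J))
      (Y.S (e.symm 1)) (fun _ J => Y.Bb (e.symm 2) J) (fun _ J => Y.Bb (e.symm 3) J)) I +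
        ∑ t, τ.coef t * (τ.near t).term I) (∑ G ∈ usesAt Y.uses I, τ.err G I)
  have n4 := norm_add_le (∑ σ, τ.sgM σ * gsum Y.uses Y.w (placeF e (fun G J => τ.Dm σ G J (Y.S (e.symm 0) G J))
      (Y.S (e.symm 1)) (fun _ J => Y.Bb (e.symm 2) J) (fun _ J => Y.Bb (e.symm 3) J)) I)
        (∑ t, τ.coef t * (τ.near t).term I)
  linarith

end Two

end Claimed.Agent.R258
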