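/-
Row 258, block [S7-ASM] (owner: helper28).  THE ASSEMBLY.
1. `asm_env`, `asm_facts`: from `SideSys.Valid` to the environment and the size facts (`D = 2 (∑_G ∑_l yA² + n2(S)²)^{1/2}`).
2. `asm_expand`: `Z = W + E`, `W = A + S`: `leaf ≤ ∑_{s ≠ univ} gabs (W on s, E off s) + ∑_s ‖gsum (A on s, S off s)‖`.
3. the patterns: `asm_pat_err` (15), `asm_pat` (16: 5 cores, 6 with two sides, 5 with at least three sides).
4. `asm_main`: the constants.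
-/
import Claimed.Agent.R258.S7.AsmTwo

set_option autoImplicit false
open MeasureTheory

namespace Claimed.Agent.R258

open Classical

/-! ### 1. environment and size facts -/

/-- the aggregated square function of the cores and the sides -/
noncomputable def asmR (Y : SideSys) (yA : Fin 4 → ℕ → Cell → ℝ) (I : Cell) : ℝ :=
  Real.sqrt (∑ G ∈ usesAt Y.uses I, ∑ l, (yA l G I ^ 2 + n2 I (Y.S l G I) ^ 2))

theorem asm_R_ge (Y : SideSys) (yA : Fin 4 → ℕ → Cell → ℝ) (hy : ∀ l G I, 0 ≤ yA l G I) (l : Fin 4) (u : ℕ × Cell)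
    (hu : u ∈ Y.uses) : yA l u.1 u.2 ≤ asmR Y yA u.2 ∧ n2 u.2 (Y.S l u.1 u.2) ≤ asmR Y yA u.2 := by
  have h1 : yA l u.1 u.2 ^ 2 + n2 u.2 (Y.S l u.1 u.2) ^ 2 ≤
      ∑ G ∈ usesAt Y.uses u.2, ∑ l, (yA l G u.2 ^ 2 + n2 u.2 (Y.S l G u.2) ^ 2) := by
    refine le_trans ?_ (Finset.single_le_sum (f := fun G => ∑ l, (yA l G u.2 ^ 2 + n2 u.2 (Y.S l G u.2) ^ 2))
      (fun _ _ => Finset.sum_nonneg fun _ _ => by positivity) (asm_mem_usesAt.2 hu))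
    exact Finset.single_le_sum (f := fun l => yA l u.1 u.2 ^ 2 + n2 u.2 (Y.S l u.1 u.2) ^ 2)
      (fun _ _ => by positivity) (Finset.mem_univ l)
  unfold asmR
  constructor
  · rw [← Real.sqrt_sq (hy l u.1 u.2)]
    exact Real.sqrt_le_sqrt (by nlinarith [sq_nonneg (n2 u.2 (Y.S l u.1 u.2))])
  · rw [← Real.sqrt_sq (s5f_n2_nonneg u.2 (Y.S l u.1 u.2))]
    exact Real.sqrt_le_sqrt (by nlinarith [sq_nonneg (yA l u.1 u.2)])

theorem asm_R_bud (Y : SideSys) (yA : Fin 4 → ℕ → Cell → ℝ) (Pi : ℝ) (hu : ∀ u ∈ Y.uses, u.2 ∈ Y.cells)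
    (h1 : ∀ l, ∑ u ∈ Y.uses, u.2.len * yA l u.1 u.2 ^ 2 ≤ Pi * Y.R.len)
    (h2 : ∀ l, ∑ u ∈ Y.uses, ‖restr u.2.set (Y.S l u.1 u.2)‖ ^ 2 ≤ Pi * Y.R.len) :
    ∑ I ∈ Y.cells, I.len * (2 * asmR Y yA I) ^ 2 ≤ 32 * Pi * Y.R.len := by
  have e1 : ∑ I ∈ Y.cells, I.len * (2 * asmR Y yA I) ^ 2 =
      4 * ∑ l, (∑ u ∈ Y.uses, u.2.len * yA l u.1 u.2 ^ 2 + ∑ u ∈ Y.uses, ‖restr u.2.set (Y.S l u.1 u.2)‖ ^ 2) := by
    have e2 : ∑ l, (∑ u ∈ Y.uses, u.2.len * yA l u.1 u.2 ^ 2 + ∑ u ∈ Y.uses, ‖restr u.2.set (Y.S l u.1 u.2)‖ ^ 2) =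
        ∑ u ∈ Y.uses, ∑ l, (u.2.len * yA l u.1 u.2 ^ 2 + ‖restr u.2.set (Y.S l u.1 u.2)‖ ^ 2) := by
      rw [Finset.sum_comm]
      exact Finset.sum_congr rfl fun l _ => Finset.sum_add_distrib.symm
    rw [e2, ← asm_sum_uses Y.uses Y.cells hu
      (fun G I => ∑ l, (I.len * yA l G I ^ 2 + ‖restr I.set (Y.S l G I)‖ ^ 2)), Finset.mul_sum]
    refine Finset.sum_congr rfl fun I _ => ?_
    unfold asmR
    rw [mul_pow, Real.sq_sqrt (Finset.sum_nonneg fun _ _ => Finset.sum_nonneg fun _ _ => by positivity)]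
    have e3 : ∀ G, ∑ l, (I.len * yA l G I ^ 2 + ‖restr I.set (Y.S l G I)‖ ^ 2) =
        I.len * ∑ l, (yA l G I ^ 2 + n2 I (Y.S l G I) ^ 2) := by
      intro G
      rw [Finset.mul_sum]
      refine Finset.sum_congr rfl fun l _ => ?_
      rw [← s5f_len_n2_sq]
      ring
    simp only [e3]
    rw [← Finset.mul_sum]
    ring
  rw [e1]
  have : ∑ l : Fin 4, (∑ u ∈ Y.uses, u.2.len * yA l u.1 u.2 ^ 2 + ∑ u ∈ Y.uses, ‖restr u.2.set (Y.S l u.1 u.2)‖ ^ 2) ≤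
      ∑ _l : Fin 4, (Pi * Y.R.len + Pi * Y.R.len) := Finset.sum_le_sum fun l _ => add_le_add (h1 l) (h2 l)
  rw [Finset.sum_const, Finset.card_univ, Fintype.card_fin, nsmul_eq_mul] at this
  push_cast at this
  linarith

section Valid

variable {Y : SideSys} {c0 C0 η : ℝ} {Ntr Na Nb : ℕ} {Ea Eb Pi cc M0 far small : ℝ}

theorem asm_env (hV : Y.Valid c0 C0 η Ntr Na Nb Ea Eb Pi cc M0 far small) (Cw Cp : ℝ) (hCw : 0 ≤ Cw) (hCp : 0 ≤ Cp)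
    (hCwb : ∀ (I : Cell) (w : ℝ × ℝ → ℂ), Admissible c0 C0 I w → ∀ z : Fin 4 → XV, ‖formV I w z‖ ≤ Cw * ∏ l, n2 I (z l))
    (hCpb : ∀ (I : Cell) (w : ℝ × ℝ → ℂ), Admissible c0 C0 I w → ∀ z : Fin 4 → XV, ‖formV I w z‖ ≤ Cp * ∏ l, n2p I (z l)) :
    ∃ D : Cell → ℝ, Y.Env c0 C0 Cw Cp Pi M0 D ∧ Y.Facts Pi small D := by
  obtain ⟨yA, hy0, hy1, hy2⟩ := hV.A_le
  have hu : ∀ u ∈ Y.uses, u.2 ∈ Y.cells := fun u h => (hV.uses_sub u h).2
  have hPi := hV.Pi_ge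
  have hR0 : ∀ I, 0 ≤ asmR Y yA I := fun I => Real.sqrt_nonneg _
  have hM0 : 0 ≤ M0 := le_trans (Nat.cast_nonneg _) (hV.mult 0)
  refine ⟨fun I => 2 * asmR Y yA I, ⟨hV.cells_le, hV.adm, hu, hPi, fun I => by have := hR0 I; positivity,
    asm_R_bud Y yA Pi hu hy2 hV.S_bud, asm_uses_len Y.R Y.cells hV.cells_le Y.uses hu M0 hV.mult, hM0, hCw, hCwb,
    hCp, hCpb⟩, ?_⟩
  have bS : ∀ l, Y.Bd Pi (fun I => 2 * asmR Y yA I) (Y.S l) := fun l u h => by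
    have := (asm_R_ge Y yA hy0 l u h).2
    have := hR0 u.2
    show n2 u.2 (Y.S l u.1 u.2) ≤ 3 * Pi + 2 * asmR Y yA u.2
    linarith
  have bA : ∀ l, Y.Bd Pi (fun I => 2 * asmR Y yA I) (Y.A l) := fun l u h => by
    have := (asm_R_ge Y yA hy0 l u h).1
    have := hR0 u.2
    have := hy1 l u h
    show n2 u.2 (Y.A l u.1 u.2) ≤ 3 * Pi + 2 * asmR Y yA u.2
    linarith
  have bZ : ∀ l, Y.Bd Pi (fun I => 2 * asmR Y yA I) (Y.Z l) := fun l u h => by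
    have := hR0 u.2
    have := hV.Z_le l u h
    show n2 u.2 (Y.Z l u.1 u.2) ≤ 3 * Pi + 2 * asmR Y yA u.2
    linarith
  refine ⟨hV.S_bud, bS, bA, bZ, fun l u h => ?_, fun l u h => ?_, hV.E_small, hV.small_nn, hV.split,
    fun l => ?_, fun l u h => ?_, fun l u h => ?_⟩
  · have e : Y.E l u.1 u.2 = Y.Z l u.1 u.2 - Y.A l u.1 u.2 - Y.S l u.1 u.2 := by
      rw [hV.split l u h]; abel
    have h1 := (asm_R_ge Y yA hy0 l u h)
    have h2 := hy1 l u h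
    have h3 := hV.Z_le l u h
    have h4 := s5f_n2_sub u.2 (Y.Z l u.1 u.2 - Y.A l u.1 u.2) (Y.S l u.1 u.2)
    have h5 := s5f_n2_sub u.2 (Y.Z l u.1 u.2) (Y.A l u.1 u.2)
    show n2 u.2 (Y.E l u.1 u.2) ≤ 3 * Pi + 2 * asmR Y yA u.2
    rw [e]
    linarith [h1.1, h1.2]
  · have h1 := (asm_R_ge Y yA hy0 l u h)
    have h2 := hy1 l u h
    have h4 := s5f_n2_add u.2 (Y.A l u.1 u.2) (Y.S l u.1 u.2)
    show n2 u.2 (Y.A l u.1 u.2 + Y.S l u.1 u.2) ≤ 3 * Pi + 2 * asmR Y yA u.2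
    linarith [h1.1, h1.2]
  · refine ⟨fun I => n2 I (Y.Uu l I), fun I => s5f_n2_nonneg _ _, fun _ _ => le_rfl, ?_⟩
    refine le_trans (le_of_eq (Finset.sum_congr rfl fun I _ => ?_)) (hV.Uu_bud l)
    exact s5f_len_n2_sq I _
  · have := hV.Bb_le l u.2 (hu u h)
    have := hR0 u.2
    show n2 u.2 (Y.Bb l u.2) ≤ 3 * Pi + 2 * asmR Y yA u.2
    linarith
  · have h1 := hV.Bb_le l u.2 (hu u h)
    have h2 := hV.Uu_le l u.2 (hu u h)
    have h3 := s5f_n2_add u.2 (Y.Bb l u.2) (Y.Uu l u.2)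
    have := hR0 u.2
    show n2 u.2 (Y.Bb l u.2 + Y.Uu l u.2) ≤ 3 * Pi + 2 * asmR Y yA u.2
    linarith

end Valid

/-! ### 2. the expansion -/

/-- cores plus sides on `s`, errors off `s` -/
noncomputable def SideSys.pE (Y : SideSys) (s : Finset (Fin 4)) : Fin 4 → ℕ → Cell → XV :=
  fun l => if l ∈ s then (fun G I => Y.A l G I + Y.S l G I) else Y.E l

/-- cores on `s`, sides off `s` -/
def SideSys.pS (Y : SideSys) (s : Finset (Fin 4)) : Fin 4 → ℕ → Cell → XV :=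
  fun l => if l ∈ s then Y.A l else Y.S l

section Pat

variable {Y : SideSys} {c0 C0 Cw Cp Pi M0 small : ℝ} {D : Cell → ℝ}

theorem asm_expand (hc0 : 0 < c0) (hE : Y.Env c0 C0 Cw Cp Pi M0 D) (hF : Y.Facts Pi small D) (I : Cell)
    (hI : I ∈ Y.cells) :
    Y.leaf I ≤ ∑ s ∈ (Finset.univ : Finset (Finset (Fin 4))).erase Finset.univ, gabs Y.uses Y.w (Y.pE s) I +
      ∑ s : Finset (Fin 4), ‖gsum Y.uses Y.w (Y.pS s) I‖ := by
  have hA := hE.adm I hI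
  have e1 : gsum Y.uses Y.w Y.Z I = ∑ s : Finset (Fin 4), gsum Y.uses Y.w (Y.pE s) I := by
    rw [asm_gsum_congr Y.uses Y.w Y.Z (fun l G J => (Y.A l G J + Y.S l G J) + Y.E l G J) I
      (fun G hG l => hF.split l (G, I) hG)]
    exact asm_gsum_add c0 C0 hc0 Y.uses Y.w I hA (fun l G J => Y.A l G J + Y.S l G J) Y.E
  have e2 : gsum Y.uses Y.w (Y.pE Finset.univ) I = ∑ s : Finset (Fin 4), gsum Y.uses Y.w (Y.pS s) I := by
    rw [asm_gsum_congr Y.uses Y.w (Y.pE Finset.univ) (fun l G J => Y.A l G J + Y.S l G J) I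
      (fun G _ l => by simp [SideSys.pE])]
    exact asm_gsum_add c0 C0 hc0 Y.uses Y.w I hA Y.A Y.S
  unfold SideSys.leaf
  rw [e1, ← Finset.add_sum_erase _ _ (Finset.mem_univ Finset.univ), e2, add_comm]
  refine (norm_add_le _ _).trans (add_le_add ?_ (norm_sum_le _ _))
  exact (norm_sum_le _ _).trans (Finset.sum_le_sum fun s _ => s7t_gsum_le _ _ _ _)

/-! ### 3. the patterns -/

theorem asm_pat_err (hPW : PowerGoal) (hE : Y.Env c0 C0 Cw Cp Pi M0 D) (hF : Y.Facts Pi small D)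
    (s : Finset (Fin 4)) (hs : s ≠ Finset.univ) (p ε : ℝ) (hp : 0 < p) (hε : 0 < ε) (hε1 : ε < 1) :
    Ctrl Y.R Y.cells (gabs Y.uses Y.w (Y.pE s)) (asmAE Cp Pi ε * Real.sqrt (M0 * small)) 0 p ε := by
  obtain ⟨l0, hl0⟩ : ∃ l0, l0 ∉ s := by
    by_contra hcon
    simp only [not_exists, not_not] at hcon
    exact hs (Finset.eq_univ_iff_forall.2 hcon)
  refine asm_err hPW hE _ l0 small hF.small_nn ?_ (fun l _ => ?_) p ε hp hε hε1
  · have : Y.pE s l0 = Y.E l0 := by simp [SideSys.pE, hl0]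
    rw [this]
    exact hF.pE l0
  · by_cases hl : l ∈ s
    · have : Y.pE s l = fun G I => Y.A l G I + Y.S l G I := by simp [SideSys.pE, hl]
      rw [this]
      exact hF.bW l
    · have : Y.pE s l = Y.E l := by simp [SideSys.pE, hl]
      rw [this]
      exact hF.bE l

theorem asm_pat_three (hPW : PowerGoal) (hE : Y.Env c0 C0 Cw Cp Pi M0 D) (hF : Y.Facts Pi small D)
    (s : Finset (Fin 4)) (hs : s.card ≤ 1) (p ε : ℝ) (hp : 2 / 3 ≤ p) (hp1 : p ≤ 1) (hε : 0 < ε) (hε1 : ε < 1) :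
    Ctrl Y.R Y.cells (fun I => ‖gsum Y.uses Y.w (Y.pS s) I‖) 0 (asmP3 Cw Pi p ε) p ε := by
  obtain ⟨l3, hl3⟩ := Finset.card_le_one_iff_subset_singleton.1 hs
  obtain ⟨l2, h23⟩ := exists_ne l3
  have hS : ∀ l, l ≠ l3 → Y.pS s l = Y.S l := by
    intro l hl
    have : l ∉ s := fun h => hl (Finset.mem_singleton.1 (hl3 h))
    simp [SideSys.pS, this]
  refine (asm_three hPW hE (Y.pS s) l2 l3 h23 (fun l _ h3 => by rw [hS l h3]; exact hF.sS l)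
    (by rw [hS l2 h23]; exact (hF.sS l2).sup hE.uses_sub) ?_ p ε hp hp1 hε hε1).mono
    (fun I _ => s7t_gsum_le _ _ _ _) le_rfl le_rfl le_rfl
  by_cases hl : l3 ∈ s
  · have : Y.pS s l3 = Y.A l3 := by simp [SideSys.pS, hl]
    rw [this]
    exact hF.bA l3
  · have : Y.pS s l3 = Y.S l3 := by simp [SideSys.pS, hl]
    rw [this]
    exact hF.bS l3

theorem asm_pat_core (s : Finset (Fin 4)) (hs : 3 ≤ s.card) (XcA XcP p ε : ℝ)
    (hcore : ∀ c : Fin 4 → Bool, (Finset.univ.filter fun l => c l = true).card ≤ 1 →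
      Ctrl Y.R Y.cells (fun I => ‖gsum Y.uses Y.w (Y.patArg c) I‖) XcA XcP p ε) :
    Ctrl Y.R Y.cells (fun I => ‖gsum Y.uses Y.w (Y.pS s) I‖) XcA XcP p ε := by
  have e : Y.pS s = Y.patArg (fun l => decide (l ∉ s)) := by
    funext l
    by_cases hl : l ∈ s <;> simp [SideSys.pS, SideSys.patArg, hl]
  rw [e]
  refine hcore _ ?_
  have : (Finset.univ.filter fun l => decide (l ∉ s) = true) = sᶜ := by
    ext l
    simp
  rw [this, Finset.card_compl, Fintype.card_fin]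
  omega

set_option maxRecDepth 100000 in
theorem asm_perm2 : ∀ s : Finset (Fin 4), s.card = 2 →
    ∃ e : Fin 4 ≃ Fin 4, e.symm 0 ∉ s ∧ e.symm 1 ∉ s ∧ e.symm 2 ∈ s ∧ e.symm 3 ∈ s := by
  decide

theorem asm_pat_two {η : ℝ} {Ntr Na Nb : ℕ} {Ea Eb cc far : ℝ} (hPW : PowerGoal) (hc0 : 0 < c0)
    (hV : Y.Valid c0 C0 η Ntr Na Nb Ea Eb Pi cc M0 far small) (hE : Y.Env c0 C0 Cw Cp Pi M0 D)
    (hF : Y.Facts Pi small D) (s : Finset (Fin 4)) (hs : s.card = 2)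
    (nA nP p ε1 ε2 : ℝ) (hnA : 0 ≤ nA) (hnP : 0 ≤ nP) (hp : 2 / 3 ≤ p) (hp1 : p ≤ 1)
    (hε1 : 0 < ε1) (hε1' : ε1 < 1) (hε2 : 0 ≤ ε2)
    (hNear : ∀ (e : Fin 4 ≃ Fin 4) (τ : Transfer Y e), τ.Ok c0 C0 Ntr Na Nb Ea Eb Pi cc M0 far →
      ∀ t, Ctrl Y.R Y.cells (fun I => ‖(τ.near t).term I‖) nA nP p ε2) :
    Ctrl Y.R Y.cells (fun I => ‖gsum Y.uses Y.w (Y.pS s) I‖)
      (2 * (asmAE Cp Pi ε1 * Real.sqrt (M0 * small)) + Ntr * (η * Pi) + Ntr * (2 / (Y.P : ℝ) * nA) + far * Pi)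
      (2 * asmP3 Cw Pi p ε1 + Ntr * (2 * asmP3 Cw Pi p ε1) + Ntr * (2 * nP)) p
      (4 * ε1 + Ntr * (2 * ε1) + Ntr * ε2) := by
  obtain ⟨e, h0, h1, h2, h3⟩ := asm_perm2 s hs
  have hp0 : 0 < p := by linarith
  have hPi : 0 ≤ Pi := by linarith [hE.Pi_ge]
  have hP3 := asm_p3_nonneg hE.Cw_nn hPi hε1 p
  have hAE := asm_aE_nonneg hE.Cp_nn hPi ε1
  have hη := hV.η_nn
  have hfar := hV.far_nn
  have eq : Y.pS s = placeF e (Y.S (e.symm 0)) (Y.S (e.symm 1)) (Y.A (e.symm 2)) (Y.A (e.symm 3)) := by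
    funext l
    rcases asm_slot_cases e l with h | h | h | h <;> rw [h]
    · rw [asm_placeF_0]; simp [SideSys.pS, h0]
    · rw [asm_placeF_1]; simp [SideSys.pS, h1]
    · rw [asm_placeF_2]; simp [SideSys.pS, h2]
    · rw [asm_placeF_3]; simp [SideSys.pS, h3]
  rw [eq]
  by_cases hB : Y.isB (e.symm 2) = true ∧ Y.isB (e.symm 3) = true
  · obtain ⟨τ, hτ⟩ := hV.transfer e hB.1 hB.2
    exact asm_two hPW hc0 hE hF e η hη (fun I hI => hV.pair I hI _ _ (asm_symm_ne e (by decide))) τ hτ hfar hV.P_pos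
      nA nP p ε1 ε2 hnA hnP hp hp1 hε1 hε1' hε2 (hNear e τ hτ)
  · refine (asm_ctrl_zero Y.R Y.cells hp0).mono (fun I hI => ?_) (by positivity) (by positivity) (by positivity)
    rw [asm_gsum_place]
    refine le_of_eq ?_
    rw [norm_eq_zero]
    refine Finset.sum_eq_zero fun G _ => ?_
    have hA := hE.adm I hI
    by_cases hB2 : Y.isB (e.symm 2) = true
    · have hB3 : Y.isB (e.symm 3) = false := by
        by_contra hcon
        exact hB ⟨hB2, by simpa using hcon⟩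
      rw [(hV.isU _ hB3 G I).1]
      exact asm_form_zero3 c0 C0 hc0 I (Y.w I) hA e _ _ _
    · have hB2' : Y.isB (e.symm 2) = false := by simpa using hB2
      rw [(hV.isU _ hB2' G I).1]
      exact asm_form_zero2 c0 C0 hc0 I (Y.w I) hA e _ _ _

end Pat

/-! ### 4. the constants -/

theorem asm_sum_card (f : ℕ → ℝ) : ∑ s : Finset (Fin 4), f s.card = f 0 + 4 * f 1 + 6 * f 2 + 4 * f 3 + f 4 := by
  rw [← Finset.powerset_univ, Finset.sum_powerset_apply_card]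
  simp [Finset.sum_range_succ, Nat.choose]

/-- **[S7-ASM]** -/
theorem asm_main (c0 C0 : ℝ) (hc0 : 0 < c0) (hC0 : 1 ≤ C0) (hN : NearGoal c0 C0) (hPW : PowerGoal) : LeafGoal c0 C0 := by
  obtain ⟨C1, hC1, hN⟩ := hN
  obtain ⟨Cw, hCw1, hCwb⟩ := s5f_bound c0 C0 hc0 hC0
  obtain ⟨Cp, hCp1, hCpb⟩ := s7t_bound_phys c0 C0 hc0 hC0
  have hCw : 0 ≤ Cw := by linarith
  have hCp : 0 ≤ Cp := by linarith
  obtain ⟨C2, hC2, hb2⟩ := asm_pb_abs Cp hCp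
  obtain ⟨C3, hC3, hb3⟩ := asm_pb_pow Cw hCw
  refine ⟨C1 + C2 + C3, by positivity, fun q hq2 hq3 => ?_⟩
  obtain ⟨Cq, hCq, hN⟩ := hN q hq2 hq3
  refine ⟨Cq, hCq, fun N CN s0 hCN hLB Y η Ntr Na Nb Ea Eb Pi cc M0 far small hV hdep pw ε XcA XcP hpw hpw1 hε hε1
    hXcA hXcP hcore => ?_⟩
  obtain ⟨D, hE, hF⟩ := asm_env hV Cw Cp hCw hCp hCwb hCpb
  have hp0 : 0 < pw := by linarith
  have hPi : 0 ≤ Pi := by linarith [hE.Pi_ge]
  have he1 := asm_e1_pos hε Ntr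
  have he2 := asm_e2_pos hε Ntr
  have he1' : asmE1 ε Ntr < 1 := (asm_e1_le hε Ntr).trans_lt hε1
  have he2' : asmE2 ε Ntr < 1 := (asm_e2_le hε Ntr).trans_lt hε1
  have hnA : 0 ≤ nearAbs C1 Cq q CN Y.K Na Nb Ea Eb cc M0 (asmE2 ε Ntr) :=
    asm_nearAbs_nonneg Y.K Na Nb hCq.le hCN hE.M0_nn he2
  have hnP : 0 ≤ nearPow Cw Y.K Pi Pi (max cc 0) Pi pw (asmE2 ε Ntr) :=
    asm_nearPow_nonneg Y.K hCw hPi hPi (le_max_right _ _) hPi he2 pw
  have hNear : ∀ (e : Fin 4 ≃ Fin 4) (τ : Transfer Y e), τ.Ok c0 C0 Ntr Na Nb Ea Eb Pi cc M0 far →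
      ∀ t, Ctrl Y.R Y.cells (fun I => ‖(τ.near t).term I‖) (nearAbs C1 Cq q CN Y.K Na Nb Ea Eb cc M0 (asmE2 ε Ntr))
        (nearPow Cw Y.K Pi Pi (max cc 0) Pi pw (asmE2 ε Ntr)) pw (asmE2 ε Ntr) := by
    intro e τ hτ t
    have hh := hτ.near_hyp t
    rw [max_eq_left hh.pos.1.le]
    exact hN N CN s0 hCN hLB Cw hCw hCwb (Fin τ.nb) (τ.near t) Na Nb Ea Eb Pi Pi cc Pi M0 hh hdep pw (asmE2 ε Ntr)
      hpw hpw1 he2 he2'
  -- the error patterns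
  have cE : Ctrl Y.R Y.cells
      (fun I => ∑ s ∈ (Finset.univ : Finset (Finset (Fin 4))).erase Finset.univ, gabs Y.uses Y.w (Y.pE s) I)
      (15 * (asmAE Cp Pi (asmE1 ε Ntr) * Real.sqrt (M0 * small))) 0 pw (15 * asmE1 ε Ntr) := by
    have h := Ctrl.sum (R := Y.R) (cells := Y.cells) ((Finset.univ : Finset (Finset (Fin 4))).erase Finset.univ)
      (fun s => gabs Y.uses Y.w (Y.pE s)) (fun _ => asmAE Cp Pi (asmE1 ε Ntr) * Real.sqrt (M0 * small)) (fun _ => 0)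
      (fun _ => asmE1 ε Ntr) pw hp0 hpw1
      (fun s hs => asm_pat_err hPW hE hF s (Finset.ne_of_mem_erase hs) pw _ hp0 he1 he1')
    have hc : ((Finset.univ : Finset (Finset (Fin 4))).erase Finset.univ).card = 15 := by simp
    refine h.mono (fun _ _ => le_rfl) (le_of_eq ?_) (le_of_eq ?_) (le_of_eq ?_)
    · rw [Finset.sum_const, hc]; norm_num
    · rw [Finset.sum_const, hc]; norm_num
    · rw [Finset.sum_const, hc]; norm_num
  -- the patterns of cores and sides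
  obtain ⟨XaS2, hXa⟩ : ∃ x, x = 2 * (asmAE Cp Pi (asmE1 ε Ntr) * Real.sqrt (M0 * small)) + Ntr * (η * Pi) +
      Ntr * (2 / (Y.P : ℝ) * nearAbs C1 Cq q CN Y.K Na Nb Ea Eb cc M0 (asmE2 ε Ntr)) + far * Pi := ⟨_, rfl⟩
  obtain ⟨XpS2, hXp⟩ : ∃ x, x = 2 * asmP3 Cw Pi pw (asmE1 ε Ntr) + Ntr * (2 * asmP3 Cw Pi pw (asmE1 ε Ntr)) +
      Ntr * (2 * nearPow Cw Y.K Pi Pi (max cc 0) Pi pw (asmE2 ε Ntr)) := ⟨_, rfl⟩
  obtain ⟨εS2, hεS⟩ : ∃ x, x = 4 * asmE1 ε Ntr + Ntr * (2 * asmE1 ε Ntr) + Ntr * asmE2 ε Ntr := ⟨_, rfl⟩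
  have cS : Ctrl Y.R Y.cells (fun I => ∑ s : Finset (Fin 4), ‖gsum Y.uses Y.w (Y.pS s) I‖)
      (6 * XaS2 + 5 * XcA) (5 * asmP3 Cw Pi pw (asmE1 ε Ntr) + 6 * XpS2 + 5 * XcP) pw
      (5 * asmE1 ε Ntr + 6 * εS2 + 5 * (ε / 100)) := by
    have h := Ctrl.sum (R := Y.R) (cells := Y.cells) (Finset.univ : Finset (Finset (Fin 4)))
      (fun s I => ‖gsum Y.uses Y.w (Y.pS s) I‖)
      (fun s => (fun k : ℕ => if k ≤ 1 then 0 else if k = 2 then XaS2 else XcA) s.card)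
      (fun s => (fun k : ℕ => if k ≤ 1 then asmP3 Cw Pi pw (asmE1 ε Ntr) else if k = 2 then XpS2 else XcP) s.card)
      (fun s => (fun k : ℕ => if k ≤ 1 then asmE1 ε Ntr else if k = 2 then εS2 else ε / 100) s.card) pw hp0 hpw1
      (fun s _ => by
        rcases (by omega : s.card ≤ 1 ∨ s.card = 2 ∨ 3 ≤ s.card) with h | h | h
        · simp only [if_pos h]
          exact asm_pat_three hPW hE hF s h pw _ hpw hpw1 he1 he1'
        · have h' : ¬ s.card ≤ 1 := by omega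
          simp only [if_neg h', if_pos h]
          rw [hXa, hXp, hεS]
          exact asm_pat_two hPW hc0 hV hE hF s h _ _ pw _ _ hnA hnP hpw hpw1 he1 he1' he2.le hNear
        · have h' : ¬ s.card ≤ 1 := by omega
          have h'' : ¬ s.card = 2 := by omega
          simp only [if_neg h', if_neg h'']
          exact asm_pat_core s h XcA XcP pw _ hcore)
    refine h.mono (fun _ _ => le_rfl) (le_of_eq ?_) (le_of_eq ?_) (le_of_eq ?_)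
    · refine (asm_sum_card (fun k : ℕ => if k ≤ 1 then 0 else if k = 2 then XaS2 else XcA)).trans ?_
      norm_num; ring
    · refine (asm_sum_card
        (fun k : ℕ => if k ≤ 1 then asmP3 Cw Pi pw (asmE1 ε Ntr) else if k = 2 then XpS2 else XcP)).trans ?_
      norm_num; ring
    · refine (asm_sum_card (fun k : ℕ => if k ≤ 1 then asmE1 ε Ntr else if k = 2 then εS2 else ε / 100)).trans ?_
      norm_num; ring
  -- the parameters
  have hθ : (⟨Pi, ε, Ntr, Y.K, max cc 0, pw⟩ : AsmPar).Ok :=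
    ⟨hE.Pi_ge, hε, hε1, hV.Ntr_le, hV.K_le, le_max_right _ _, max_le hV.cc_le hPi, hpw, hpw1⟩
  have hX := hθ.one_le_X
  have hXe : (⟨Pi, ε, Ntr, Y.K, max cc 0, pw⟩ : AsmPar).X = Pi / ε := rfl
  rw [hXe] at hX
  have hB2 : 27 * asmAE Cp Pi (asmE1 ε Ntr) + 6 * Ntr * Pi + 6 * Pi ≤ (C1 + C2 + C3) * (Pi / ε) ^ (C1 + C2 + C3) :=
    ((hb2 _ hθ).2).trans (asm_cx_mono hX hC2.le (by linarith))
  have hB3 : (17 + 12 * Ntr) * asmP3 Cw Pi pw (asmE1 ε Ntr) +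
      12 * Ntr * nearPow Cw Y.K Pi Pi (max cc 0) Pi pw (asmE2 ε Ntr) ≤ (C1 + C2 + C3) * (Pi / ε) ^ (C1 + C2 + C3) :=
    ((hb3 _ hθ).2).trans (asm_cx_mono hX hC3.le (by linarith))
  have hAE := asm_aE_nonneg hCp hPi (asmE1 ε Ntr)
  have hn : (0 : ℝ) ≤ Ntr := Nat.cast_nonneg _
  refine (cE.add hp0 hpw1 cS).mono (fun I hI => asm_expand hc0 hE hF I hI) ?_ ?_ ?_
  · have hmono := asm_nearAbs_mono (Ea := Ea) (Eb := Eb) (cc := cc) Y.K Na Nb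
      (show C1 ≤ C1 + C2 + C3 by linarith) hq2 hCq.le hCN hE.M0_nn he2
    have hP : (0 : ℝ) ≤ 2 / (Y.P : ℝ) := by positivity
    have k1 : 27 * asmAE Cp Pi (asmE1 ε Ntr) ≤ (C1 + C2 + C3) * (Pi / ε) ^ (C1 + C2 + C3) := by nlinarith
    have k2 : 6 * Ntr * Pi ≤ (C1 + C2 + C3) * (Pi / ε) ^ (C1 + C2 + C3) := by nlinarith
    have k3 : 6 * Pi ≤ (C1 + C2 + C3) * (Pi / ε) ^ (C1 + C2 + C3) := by nlinarith
    have m1 := mul_le_mul_of_nonneg_right k1 (Real.sqrt_nonneg (M0 * small))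
    have m2 := mul_le_mul_of_nonneg_right k2 hV.η_nn
    have m3 := mul_le_mul_of_nonneg_right k3 hV.far_nn
    have m4 := mul_le_mul_of_nonneg_left hmono (show 0 ≤ 6 * (Ntr : ℝ) * (2 / (Y.P : ℝ)) by positivity)
    rw [hXa]
    unfold asmE2 at m4 ⊢
    linarith
  · rw [hXp]
    linarith
  · rw [hεS]
    exact asm_eps_sum hε Ntr

end Claimed.Agent.R258
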