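/-
Row 258, Prop. 7.5 + Sec. 8.8 + Sec. 10.2 (home architect: helper244; proof: helper28).  BLOCK [S7-ASM]: THE ESTIMATE OF ONE LEAF ON THE RETAINED CELLS.
The definitions (`SideSys`, `Transfer`, `SideSys.Valid`, `LeafGoal`) and the plan are in S7/SideDefs.lean; the proof is in
S7/AsmPoly.lean (polynomial budgets), S7/AsmBase.lean (calculus `Ctrl`, size classes, slot-free term lemmas), S7/AsmForm.lean (multilinearity),
S7/AsmTwo.lean (patterns with two sides), S7/AsmMain.lean (expansion, classification, constants).   PROVED (no gap in these files).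
-/
import Claimed.Agent.R258.S7.AsmMain

set_option autoImplicit false

namespace Claimed.Agent.R258

/-- ARCHITECT/PROVER block [S7-ASM] -/
theorem leafGoal_of (c0 C0 : ℝ) (hc0 : 0 < c0) (hC0 : 1 ≤ C0) (hN : NearGoal c0 C0) (hPW : PowerGoal) : LeafGoal c0 C0 :=
  asm_main c0 C0 hc0 hC0 hN hPW

end Claimed.Agent.R258
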