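/-
Row 258 (home architect: helper244).  Lemma 8.8 WITHOUT the lift for the concrete localized arguments `Y.Z κ` of one leaf:
`LocSys.RowsGoal κ (8 Kap^4)` (definition in S8/ALoc.lean, consumer: layer (A) of Sec. 8) from `IsComb.rows` (S7/Comb.lean) + the histories of S7/Hist.lean.
-/
import Claimed.Agent.R258.S7.Hist
import Claimed.Agent.R258.S8.ALoc
import Claimed.Agent.R258.Loc.Search

set_option autoImplicit false
open MeasureTheory

namespace Claimed.Agent.R258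

open Classical

namespace LocSys
variable (Y : LocSys LocTag)

/-- the localized argument as an averaged outer projection of a combined history applied to the restricted input -/
theorem hst_Z_eq (κ : ℕ) (l : Fin 4) (hl : Y.pat l = false) (G : ℕ) {U : Cell} (hU : U ≤ Y.X.root) :
    Y.Z κ l G U = ∑ i : Fin Y.p.P, ((Y.p.P : ℂ)⁻¹) • cproj (Y.lmM l (.ball (loc_jb (Y.leaf κ) l) G) ((i : ℕ) + 1) U) U
      (((Y.evalH l U (Y.hist κ l)).comp (Y.opB l U)) (restr Y.X.root.set (Y.X.F l))) := by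
  have h1 : Y.opB l U (restr Y.X.root.set (Y.X.F l)) = Y.X.B l U := by
    rw [← Y.hst_opB l U]
    simp only [opB, ContinuousLinearMap.sub_apply, pj_cproj_restr_le _ hU]
  have h2 : Y.z l U = Y.X.B l U := by
    simp [z, BaseSeg.arg, hl]
  simp only [ContinuousLinearMap.comp_apply, h1]
  unfold Z Zsh Qbar outer
  rw [h2]
  simp only [ContinuousLinearMap.smul_apply, ContinuousLinearMap.sum_apply, Qm, Finset.smul_sum]
  rw [Fin.sum_univ_eq_sum_range (fun i => ((Y.p.P : ℂ)⁻¹) • cproj (Y.lmM l (.ball (loc_jb (Y.leaf κ) l) G) (i + 1) U) U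
    (Y.evalH l U (Y.hist κ l) (Y.X.B l U))) Y.p.P, Finset.range_eq_Ico,
    Finset.sum_Ico_add' (fun i => ((Y.p.P : ℂ)⁻¹) • cproj (Y.lmM l (.ball (loc_jb (Y.leaf κ) l) G) i U) U
    (Y.evalH l U (Y.hist κ l) (Y.X.B l U))) 0 Y.p.P 1]
  rfl

/-- **Lemma 8.8 without the lift** for the leaf `κ` -/
theorem hst_rowsGoal {Dm : ℝ} {m0 : ℕ} (hY : Y.Valid Dm m0) (hB : Y.BesselGoal) {c0 C0 q η D M LU : ℝ}
    (hX : Y.X.Valid c0 C0 q η D M LU) (hq : 2 ≤ q) (κ : ℕ) {Kap : ℝ} (hK : 1 ≤ Kap)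
    (hcompr : ∀ (l : Fin 4) (W : List ((Cell → Finset Col) × Bool)), (∀ f ∈ W, f.1 ∈ Y.famM l) → W.length ≤ m0 + 3 →
      ComprFor Y.X.root W Kap) : Y.RowsGoal κ (8 * Kap ^ 4) := by
  intro l hl ι _ Ge Ue Te Bz hBz he hloc hBes
  have hP := hY.P_pos
  have hj := loc_jb_range (Y.leaf κ) l
  have hT : IsComb (Y.famM l) False (m0 + 1) (1 * 2) (fun J => (Y.evalH l J (Y.hist κ l)).comp (Y.opB l J)) :=
    ((Y.hst_comb_evalH hP l (Y.hist κ l)).comp (Y.hst_comb_opB l).of_pos zero_le_one zero_le_two).mono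
      (Nat.add_le_add_right (hY.hist_len κ l) 1) le_rfl
  have hroot : Y.X.root ∈ Y.X.T := hX.tree.root_mem
  have hF : ‖restr Y.X.root.set (Y.X.F l)‖ ^ 2 ≤ 1 * Y.X.root.len := by
    have h1 : n2 Y.X.root (Y.X.F l) ≤ 1 := (s5f_n2_le_nnorm q hq _ _ (hX.f_cs l)).trans (hX.f_norm l _ hroot)
    have hlen : 0 < Y.X.root.len := cell_len_pos _
    unfold n2 at h1
    rw [div_le_one (Real.sqrt_pos.2 hlen)] at h1
    calc ‖restr Y.X.root.set (Y.X.F l)‖ ^ 2 ≤ Real.sqrt Y.X.root.len ^ 2 := pow_le_pow_left₀ (norm_nonneg _) h1 2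
      _ = 1 * Y.X.root.len := by rw [Real.sq_sqrt hlen.le, one_mul]
  have hcS : ∀ I ∈ Y.X.S, I ≤ Y.X.root := fun I hI => hX.tree.le_root I (hX.S_sub hI)
  have hmem : ∀ (i : Fin Y.p.P) (G : ℕ), Y.lmM l (.ball (loc_jb (Y.leaf κ) l) G) ((i : ℕ) + 1) ∈ Y.famM l :=
    fun i G => Or.inl ⟨_, _, rfl⟩
  have h := hT.rows s7_varRowsGoal (R := Y.X.root) (Kap := Kap) (cF := 1) (Ct' := 1) (Y.hst_inh_M hY hX l)
    (fun W hW hlen => hcompr l W hW (by omega)) hK (by norm_num) (restr Y.X.root.set (Y.X.F l)) hF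
    (Y.grps7 κ Y.X.S) (certU Y.X.root (Y.uses7 κ Y.X.S))
    (fun G J J' hc hJ hJ' => ⟨hJ', by obtain ⟨-, u, hu, h1, h2⟩ := hc; exact ⟨u, hu, h1, h2.trans hJ⟩⟩)
    (fun _ : Fin Y.p.P => ((Y.p.P : ℂ)⁻¹)) (fun i G => Y.lmM l (.ball (loc_jb (Y.leaf κ) l) G) ((i : ℕ) + 1))
    (by
      simp only [Finset.sum_const, Finset.card_univ, Fintype.card_fin, nsmul_eq_mul, norm_inv, Complex.norm_natCast]
      rw [mul_inv_cancel₀ (by positivity)])
    (fun i G _ => Y.hst_inh_M hY hX l _ (hmem i G))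
    (fun i => Y.hst_usableBessel hY hB κ Y.X.S hcS l _ _ hj ⟨by omega, by have := i.2; omega⟩)
    (fun i G _ => hcompr l _ (fun f hf => by rw [List.mem_singleton.1 hf]; exact hmem i G) (by simp))
    ι Ge Ue Te Bz hBz
    (fun e => by
      obtain ⟨h1, I, hI, hIU, hG⟩ := he e
      have hu : (Ge e, I) ∈ Y.uses7 κ Y.X.S := Y.hst_mem_uses7.2 ⟨hI, hG⟩
      exact ⟨Finset.mem_image.2 ⟨_, hu, rfl⟩, h1, h1, _, hu, rfl, hIU⟩)
    hloc hBes
  calc ∑ e, ‖Te e (Y.Z κ l (Ge e) (Ue e))‖ ^ 2 = _ :=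
        Finset.sum_congr rfl fun e _ => by rw [Y.hst_Z_eq κ l hl (Ge e) (he e).1]
    _ ≤ _ := h
    _ = 8 * Kap ^ 4 * Bz * Y.X.root.len := by ring

end LocSys

end Claimed.Agent.R258
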