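/-
Row 258, block [S7-ADP] (architect helper52): THE ADAPTER  Sec. 6 (`LocSys`) + Sec. 8 (`ModeSys`)  ⟹  `SideSys.Valid` (S7/Side.lean).
FILE AdpDefs: definitions only.

* `AdpHyp`    : the hypotheses of `AdpGoal` (S10/Att.lean) as ONE structure;   `AdpGoals` : the abstract goals of Sec. 7 (all proved elsewhere);
* `adpSub G`  : substitution of the group in a filter name (`ball j _ ↦ ball j G`); all lists of filters are computed for the dummy group `0`;
* `adpZg`     : global localized outputs `Zg l G n = ∑_{J ∈ cellsAt R n} Z l G J`;   `adpVg` : the linear sides, fixed on blocks;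
* `adpOutP/Q/B` : global outputs of positive histories (with an individual projection `Q'_pd`, resp. a band, in front);
* `adpMainL`, `adpNearL` : the lists of the main terms / near terms of Lemma 6.9 (signs, final helper lists, steps, offsets);
* `adpXa, adpCg, adpDg, adpNear, adpTransfer` : the data of the near terms and the `Transfer` record;
* `FrzBud`    : freeze budget of one global output;
* constants `adpV0, adpJ0, adpNst, adpE1, adpEa, adpEb, adpNtr, adpM0, adpPi`.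
-/
import Claimed.Agent.R258.Pack023

set_option autoImplicit false
open MeasureTheory

namespace Claimed.Agent.R258

open Classical

/-! ### the abstract goals of Sec. 7 -/

/-- the abstract goals of Sec. 7 used by the adapter -/
structure AdpGoals : Prop where
  var : VarGoal
  var1 : VarOneGoal
  varSh : VarShGoal
  jump : JumpGoal
  roll : StackRollGoal
  lin : StackLinGoal
  stU : StackUGoal
  rollBud : RollBudGoal
  frz : FreezeBudGoal

/-! ### filters and lists -/

/-- substitution of the group -/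
def adpSub (G : ℕ) : LocFilt → LocFilt
  | .cum m => .cum m
  | .ball j _ => .ball j G

/-- substitution of the group in a transfer step -/
def adpSubT (G : ℕ) (t : LocTStep) : LocTStep :=
  ⟨t.fromC, adpSub G t.f, t.ha.map (adpSub G), t.hc.map (adpSub G), t.hd.map (adpSub G)⟩

/-- only cumulative filters -/
def AdpCum (h : List LocFilt) : Prop := ∀ f ∈ h, ∃ m, f = LocFilt.cum m

/-- at most `m0` cumulative filters, possibly with one ball filter in front -/
def AdpShape (m0 : ℕ) (h : List LocFilt) : Prop :=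
  ∃ h', AdpCum h' ∧ h'.length ≤ m0 ∧ (h = h' ∨ ∃ j G, 1 ≤ j ∧ j ≤ 4 ∧ h = LocFilt.ball j G :: h')

/-- the structural properties of a transfer step -/
structure AdpStepOk (m0 : ℕ) (t : LocTStep) : Prop where
  shC : AdpShape m0 (t.f :: (if t.fromC then t.hc else t.hd))
  shD : AdpShape m0 (if t.fromC then t.hd else t.hc)
  ha_len : t.ha.length ≤ 2 * m0 + 1

/-! ### freeze budgets -/

/-- freeze budget of a global output `Zg G n`: a cell function `cF` (`= c_F(J)² |J|`), independent of the group, dominating the differences from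
the value at the start of the block at all certified cells. -/
def FrzBud (R : Cell) (K : ℕ) (uses : Finset (ℕ × Cell)) (Zg : ℕ → ℕ → XV) (Ef : ℝ) : Prop :=
  ∃ cF : Cell → ℝ, (∀ J, 0 ≤ cF J) ∧ (∀ A : Finset Cell, (∀ J ∈ A, J ≤ R) → ∑ J ∈ A, cF J ≤ Ef * R.len) ∧
    ∀ G J, certU R uses G J → ‖restr J.set (Zg G (s7Rel R J) - Zg G (s7Blk K R J * K))‖ ^ 2 ≤ cF J

/-! ### constants -/

/-- variation budget of all global outputs -/
noncomputable def adpV0 (m0 : ℕ) (Kap : ℝ) : ℝ := 2 * (2 * ((m0 : ℝ) + 4) * Kap) ^ 2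
/-- jump constant of the helper products -/
noncomputable def adpJ0 (m0 K : ℕ) : ℝ :=
  (2 * ((2 * m0 + 3 : ℕ) : ℝ) * ((1 + Nat.clog 2 (2 * K + 3) : ℕ) : ℝ) ^ (2 * m0 + 3 - 1)) ^ 2
/-- number of configurations of a side stack -/
def adpNst (K : ℕ) : ℕ := (Nat.log 2 K + 6) ^ 2 + (Nat.log 2 K + 2)
/-- basic energy -/
noncomputable def adpE1 (m0 : ℕ) (Kap X17 LU : ℝ) : ℝ := adpV0 m0 Kap + X17 + 2 * LU
/-- energy of a side stack under operators of norm `≤ cT` with jump constant `J0`, `n` bands -/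
noncomputable def adpEst (n : ℕ) (cT J0 : ℝ) (m0 : ℕ) (Kap X17 LU : ℝ) : ℝ := (n : ℝ) * (10 * (cT ^ 2 + J0) * adpE1 m0 Kap X17 LU)
noncomputable def adpEa (m0 K P : ℕ) (Kap X17 LU : ℝ) : ℝ := adpEst (P + 2) 2 (adpJ0 m0 K) m0 Kap X17 LU
noncomputable def adpEb (m0 : ℕ) (Kap X17 LU : ℝ) : ℝ := adpEst 1 1 0 m0 Kap X17 LU
/-- number of terms of a transfer -/
def adpNtr (m0 : ℕ) : ℕ := 4 ^ m0 * (2 * m0 + 2) * 5
noncomputable def adpM0 (Mm : ℝ) (D : ℕ) : ℝ := max 1 (Mm * D)
/-- side square budget -/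
noncomputable def adpSB (m0 K : ℕ) (Kap X17 LU : ℝ) : ℝ := 18 * K * adpV0 m0 Kap + 2 * K * X17 + 2 * LU
/-- the polynomial budget -/
noncomputable def adpPi (m0 K P : ℕ) (Kap X17 LU CR : ℝ) : ℝ :=
  2 + K + adpNtr m0 + adpSB m0 K Kap X17 LU + 2 * CR + (18 * CR ^ 2 * K * adpV0 m0 Kap + 2 * K * X17)
    + (4 * ((P : ℝ) + 2) + 1) * (K * adpV0 m0 Kap)

section defs

variable {Tag : Type} (Y : LocSys Tag) (κ : ℕ) (cells : Finset Cell) {d : ℕ} (M : ModeSys d) (p : S8Par)

/-- the hypotheses of `AdpGoal` -/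
structure AdpHyp (hc : LocCat) (c0 C0 q η D Mm LU Dm Kap CR small X17 far G0 : ℝ) (m0 : ℕ) : Prop where
  c0_pos : 0 < c0
  C0_ge : 1 ≤ C0
  hX : Y.X.Valid c0 C0 q η D Mm LU
  hq : 2 ≤ q
  hpat : PatOk Y.pat
  htree : ∀ l c I, I ≤ Y.X.root → ∀ Φ ∈ Y.X.cat l c I, ∃ I' ∈ Y.X.T, I ≤ I' ∧ Φ ∈ Y.X.cat l c I'
  hY : Y.Valid Dm m0
  hBes : Y.BesselGoal
  hcells : cells ⊆ Y.X.S.filter Y.CS.good
  hκ : κ ∈ Finset.Icc 1 Y.p.L
  hhelp : Y.HelpValid hc Dm
  htr : ∀ a b c e : Fin 4, slot4 a b c e → Y.pat c = false → Y.pat e = false →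
    Y.TransferGoal hc κ a b c e (M.Sc p (Y.Z κ) a) (M.Sc p (Y.Z κ) b) far
  hroot : M.root = Y.X.root
  hisB : ∀ l, M.isB l = !Y.pat l
  huses : M.uses = Y.uses7 κ cells
  hgrps : M.grps = Y.grps7 κ cells
  hK : 1 ≤ p.K
  hM : M.Valid p G0
  hlink : M.Link p (Y.Z κ) CR small
  h17 : M.G17 p X17
  hKap : 1 ≤ Kap
  hcompr : ∀ (l : Fin 4) (W : List ((Cell → Finset Col) × Bool)), (∀ f ∈ W, f.1 ∈ Y.famM l) → W.length ≤ m0 + 3 →
    ComprFor Y.X.root W Kap
  far_nn : 0 ≤ far
  small_nn : 0 ≤ small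
  CR_nn : 0 ≤ CR
  X17_nn : 0 ≤ X17
  LU_nn : 0 ≤ LU
  η_nn : 0 ≤ η

/-- global localized output at relative depth `n` -/
noncomputable def adpZg (l : Fin 4) (G n : ℕ) : XV := ∑ J ∈ cellsAt Y.X.root n, Y.Z κ l G J

/-- the linear side of the block `j` -/
noncomputable def adpVg (l : Fin 4) (G j : ℕ) : XV :=
  ∑ J ∈ (M.pres p G).filter (fun J => s7Rel M.root J + 2 * p.K = j * p.K), M.V p l G J

/-- global output of a positive history -/
noncomputable def adpOutP (l : Fin 4) (h : List LocFilt) (G n : ℕ) : XV :=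
  ∑ J ∈ cellsAt Y.X.root n, Y.evalP l J (h.map (adpSub G)) (Y.X.B l J)

/-- global output of a positive history with the individual projection `Q'_pd` of `f` in front -/
noncomputable def adpOutQ (l : Fin 4) (f : LocFilt) (h : List LocFilt) (pd : ℕ) (G n : ℕ) : XV :=
  ∑ J ∈ cellsAt Y.X.root n, Y.Qm' l (adpSub G f) pd J (Y.evalP l J (h.map (adpSub G)) (Y.X.B l J))

/-- global output of a positive history with the band `pd` of `f` in front -/
noncomputable def adpOutB (l : Fin 4) (f : LocFilt) (h : List LocFilt) (pd : ℕ) (G n : ℕ) : XV :=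
  ∑ J ∈ cellsAt Y.X.root n, Y.bandM l (adpSub G f) pd J (Y.evalP l J (h.map (adpSub G)) (Y.X.B l J))

/-- the main terms of Lemma 6.9 (sign, final list of helper averages), dummy group `0` -/
def adpMainL (c e : Fin 4) : List (ℤ × List LocFilt) :=
  (Y.posHist κ c 0).flatMap fun x => (Y.posHist κ e 0).map fun x' => (x.1 * x'.1, loc_tfinal Y.p [] x.2 x'.2)

/-- the transfer steps of Lemma 6.9 with their signs, dummy group `0` -/
def adpStepL (c e : Fin 4) : List (ℤ × LocTStep) :=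
  (Y.posHist κ c 0).flatMap fun x => (Y.posHist κ e 0).flatMap fun x' =>
    (loc_tsteps Y.p [] x.2 x'.2).map fun t => (x.1 * x'.1, t)

/-- the near terms of Lemma 6.9 (sign, step, offset) -/
def adpNearL (c e : Fin 4) : List (ℤ × LocTStep × ℤ) :=
  (adpStepL Y κ c e).flatMap fun x => ([-2, -1, 0, 1, 2] : List ℤ).map fun dl => (x.1, x.2, dl)

/-- slot of the banded complement of a step -/
def adpCl (c e : Fin 4) (t : LocTStep) : Fin 4 := if t.fromC then c else e
/-- remaining history of the banded complement -/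
def adpCh (t : LocTStep) : List LocFilt := if t.fromC then t.hc else t.hd
/-- slot of the other complement -/
def adpDl (c e : Fin 4) (t : LocTStep) : Fin 4 := if t.fromC then e else c
/-- history of the other complement -/
def adpDh (t : LocTStep) : List LocFilt := if t.fromC then t.hd else t.hc

/-- the banded side -/
noncomputable def adpXa (hc : LocCat) (a : Fin 4) (S : ℕ → Cell → XV) (t : LocTStep) (G : ℕ) (I : Cell) (pa : Fin (Y.p.P + 2)) : XV :=
  Y.bandH hc a (adpSub G t.f) pa I (Y.evalD hc a I (t.ha.map (adpSub G)) (S G I))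

/-- the operators producing the banded side -/
noncomputable def adpTa (hc : LocCat) (a : Fin 4) (t : LocTStep) (pa : Fin (Y.p.P + 2)) (G n : ℕ) : XV →L[ℂ] XV :=
  ∑ J ∈ cellsAt Y.X.root n, (Y.bandH hc a (adpSub G t.f) pa J).comp (Y.evalD hc a J (t.ha.map (adpSub G)))

/-- the complementary band stack, shifted by the offset `dl` -/
noncomputable def adpCg (c e : Fin 4) (t : LocTStep) (dl : ℤ) (G n : ℕ) (pa : Fin (Y.p.P + 2)) : XV :=
  if 1 ≤ (pa : ℤ) + dl ∧ (pa : ℤ) + dl ≤ (Y.p.P : ℤ) + 1 then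
    adpOutB Y (adpCl c e t) t.f (adpCh t) ((pa : ℤ) + dl).toNat G n else 0

/-- the other complement -/
noncomputable def adpDg (c e : Fin 4) (t : LocTStep) (G n : ℕ) : XV := adpOutP Y (adpDl c e t) (adpDh t) G n

/-- role assignment of a near term -/
def adpEN (e : Fin 4 ≃ Fin 4) (t : LocTStep) : Fin 4 ≃ Fin 4 := if t.fromC then e else e.trans (Equiv.swap 2 3)

/-- the near-band data of the step `t` at the offset `dl` -/
noncomputable def adpNear (hc : LocCat) (e : Fin 4 ≃ Fin 4) (t : LocTStep) (dl : ℤ) : NearData (Fin (Y.p.P + 2)) where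
  R := Y.X.root
  K := p.K
  cells := cells
  w := Y.X.w
  grps := Y.grps7 κ cells
  uses := Y.uses7 κ cells
  e := adpEN e t
  xa := adpXa Y hc (e.symm 0) (M.Sc p (Y.Z κ) (e.symm 0)) t
  xb := M.Sc p (Y.Z κ) (e.symm 1)
  Cg := adpCg Y (e.symm 2) (e.symm 3) t dl
  Dg := adpDg Y (e.symm 2) (e.symm 3) t

/-- the output of Lemma 6.9 as a `Transfer` record -/
noncomputable def adpTransfer (hc : LocCat) (e : Fin 4 ≃ Fin 4) : Transfer (sideSysOf Y κ cells M p) e where
  nMain := (adpMainL Y κ (e.symm 2) (e.symm 3)).length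
  sgM := fun σ => (((adpMainL Y κ (e.symm 2) (e.symm 3))[σ].1 : ℤ) : ℂ)
  Dm := fun σ G I => Y.evalD hc (e.symm 0) I ((adpMainL Y κ (e.symm 2) (e.symm 3))[σ].2.map (adpSub G))
  nNear := (adpNearL Y κ (e.symm 2) (e.symm 3)).length
  coef := fun t => (((adpNearL Y κ (e.symm 2) (e.symm 3))[t].1 : ℤ) : ℂ) *
    (((-(adpNearL Y κ (e.symm 2) (e.symm 3))[t].2.2 : ℤ) : ℂ) / (Y.p.P : ℂ))
  nb := Y.p.P + 2
  eN := fun t => adpEN e (adpNearL Y κ (e.symm 2) (e.symm 3))[t].2.1
  xa := fun t => adpXa Y hc (e.symm 0) (M.Sc p (Y.Z κ) (e.symm 0)) (adpNearL Y κ (e.symm 2) (e.symm 3))[t].2.1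
  Cg := fun t => adpCg Y (e.symm 2) (e.symm 3) (adpNearL Y κ (e.symm 2) (e.symm 3))[t].2.1
    (adpNearL Y κ (e.symm 2) (e.symm 3))[t].2.2
  Dg := fun t => adpDg Y (e.symm 2) (e.symm 3) (adpNearL Y κ (e.symm 2) (e.symm 3))[t].2.1
  err := fun G I =>
    formV I (Y.X.w I) (placeV e (M.Sc p (Y.Z κ) (e.symm 0) G I) (M.Sc p (Y.Z κ) (e.symm 1) G I)
        (Y.Z κ (e.symm 2) G I) (Y.Z κ (e.symm 3) G I))
      - Y.transferSum hc κ (e.symm 0) (e.symm 1) (e.symm 2) (e.symm 3) G
          (M.Sc p (Y.Z κ) (e.symm 0) G I) (M.Sc p (Y.Z κ) (e.symm 1) G I) I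

theorem adp_transfer_near (hc : LocCat) (e : Fin 4 ≃ Fin 4) (t : Fin (adpTransfer Y κ cells M p hc e).nNear) :
    (adpTransfer Y κ cells M p hc e).near t =
      adpNear Y κ cells M p hc e (adpNearL Y κ (e.symm 2) (e.symm 3))[t].2.1 (adpNearL Y κ (e.symm 2) (e.symm 3))[t].2.2 := rfl

end defs

end Claimed.Agent.R258
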