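/-
Row 258, block [S7-ADP] (architect helper52).  FILE AdpNum: the explicit constants of S7/AdpDefs.lean against the overhead `adpOH` of S10/Att.lean
(exponent `Ca = 12`).  Pure real arithmetic.
-/
import Claimed.Agent.R258.S7.AdpDefs
import Claimed.Agent.R258.S10.Att

set_option autoImplicit false

namespace Claimed.Agent.R258

/-! ### logarithms -/

theorem adp_log_le (n : ℕ) (hn : n ≠ 0) : (Nat.log 2 n : ℝ) * Real.log 2 ≤ Real.log n := by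
  have h1 : (2 : ℝ) ^ Nat.log 2 n ≤ n := by exact_mod_cast Nat.pow_log_le_self 2 hn
  have h2 := Real.log_le_log (by positivity) h1
  rwa [Real.log_pow] at h2

theorem adp_natlog_le (K : ℕ) : (Nat.log 2 K : ℝ) ≤ 3 / 2 * Real.log ((K : ℝ) + 2) := by
  have hlg : 0 ≤ Real.log ((K : ℝ) + 2) := Real.log_nonneg (by have : (0 : ℝ) ≤ K := Nat.cast_nonneg _; linarith)
  rcases Nat.eq_zero_or_pos K with rfl | hK
  · simpa using hlg
  · have h1 := adp_log_le K hK.ne'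
    have hK' : (0 : ℝ) < K := by exact_mod_cast hK
    have h2 : Real.log K ≤ Real.log ((K : ℝ) + 2) := Real.log_le_log hK' (by linarith)
    have h3 := Real.log_two_gt_d9
    have h4 : (0 : ℝ) ≤ Nat.log 2 K := Nat.cast_nonneg _
    nlinarith

theorem adp_clog_le (K : ℕ) : (Nat.clog 2 (2 * K + 3) : ℝ) ≤ 2 + 3 / 2 * Real.log ((K : ℝ) + 2) := by
  have hK0 : (0 : ℝ) ≤ K := Nat.cast_nonneg _
  have hlg : 0 ≤ Real.log ((K : ℝ) + 2) := Real.log_nonneg (by linarith)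
  have h0 : Nat.clog 2 (2 * K + 3) ≤ Nat.log 2 (2 * K + 3) + 1 :=
    Nat.clog_le_of_le_pow (Nat.lt_pow_succ_log_self (by norm_num) _).le
  have h0' : (Nat.clog 2 (2 * K + 3) : ℝ) ≤ (Nat.log 2 (2 * K + 3) : ℝ) + 1 := by exact_mod_cast h0
  have h1 := adp_log_le (2 * K + 3) (by omega)
  have h2 : Real.log ((2 * K + 3 : ℕ) : ℝ) ≤ Real.log 2 + Real.log ((K : ℝ) + 2) := by
    rw [← Real.log_mul (by norm_num) (by linarith)]
    refine Real.log_le_log (by positivity) ?_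
    push_cast
    linarith
  have h3 := Real.log_two_gt_d9
  have h4 : (0 : ℝ) ≤ Nat.log 2 (2 * K + 3) := Nat.cast_nonneg _
  have h5 : ((Nat.log 2 (2 * K + 3) : ℝ) - 1) * Real.log 2 ≤ Real.log ((K : ℝ) + 2) := by linarith
  have h6 : (Nat.log 2 (2 * K + 3) : ℝ) - 1 ≤ 3 / 2 * Real.log ((K : ℝ) + 2) := by
    rcases le_total ((Nat.log 2 (2 * K + 3) : ℝ) - 1) 0 with h | h
    · linarith
    · nlinarith
  linarith

/-! ### the base of the overhead -/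

/-- the base of `adpOH` -/
noncomputable def adpBase (m0 K : ℕ) (Kap X17 LU : ℝ) : ℝ :=
  (4 : ℝ) ^ m0 * (2 + Real.log ((K : ℝ) + 2)) ^ (m0 + 1) * (Kap + X17 + LU + 2)

theorem adp_OH_eq (m0 K : ℕ) (Kap X17 LU : ℝ) : adpOH 12 m0 K Kap X17 LU = adpBase m0 K Kap X17 LU ^ 12 := by
  unfold adpOH adpBase
  rw [show (12 : ℝ) = ((12 : ℕ) : ℝ) by norm_num, Real.rpow_natCast]

/-- abstract facts on `b = x y S` -/
theorem adp_base_facts {x y S : ℝ} (hx : 1 ≤ x) (hy : 2 ≤ y) (hS : 3 ≤ S) :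
    6 ≤ x * y * S ∧ 6 * x ≤ x * y * S ∧ 3 * y ≤ x * y * S ∧ 2 * S ≤ x * y * S ∧ 3 * (x * y) ≤ x * y * S ∧ 2 * (x * S) ≤ x * y * S := by
  have h1 : 6 ≤ y * S := by nlinarith
  have h2 : 2 ≤ x * y := by nlinarith
  have h3 : 3 ≤ x * S := by nlinarith
  refine ⟨by nlinarith, by nlinarith, by nlinarith, by nlinarith, by nlinarith, by nlinarith⟩

theorem adp_absorb {b c : ℝ} (hb : 6 ≤ b) (k j : ℕ) (hkj : k + j = 12) (hc : c ≤ 6 ^ j) : c * b ^ k ≤ b ^ 12 := by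
  have h1 : (6 : ℝ) ^ j ≤ b ^ j := pow_le_pow_left₀ (by norm_num) hb j
  have h2 : 0 ≤ b ^ k := by positivity
  calc c * b ^ k ≤ b ^ j * b ^ k := mul_le_mul_of_nonneg_right (hc.trans h1) h2
    _ = b ^ 12 := by rw [← pow_add, add_comm, hkj]

section

variable (m0 K : ℕ) {Kap X17 LU : ℝ} (hKap : 1 ≤ Kap) (hX : 0 ≤ X17) (hLU : 0 ≤ LU)
include hKap hX hLU

/-- the elementary facts on the base -/
theorem adp_base_all :
    6 ≤ adpBase m0 K Kap X17 LU ∧ 6 * (4 : ℝ) ^ m0 ≤ adpBase m0 K Kap X17 LU ∧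
    3 * (2 + Real.log ((K : ℝ) + 2)) ≤ adpBase m0 K Kap X17 LU ∧ 2 * (Kap + X17 + LU + 2) ≤ adpBase m0 K Kap X17 LU ∧
    3 * ((4 : ℝ) ^ m0 * (2 + Real.log ((K : ℝ) + 2)) ^ (m0 + 1)) ≤ adpBase m0 K Kap X17 LU ∧
    2 * ((4 : ℝ) ^ m0 * (Kap + X17 + LU + 2)) ≤ adpBase m0 K Kap X17 LU := by
  have hK0 : (0 : ℝ) ≤ K := Nat.cast_nonneg _
  have hlg : 0 ≤ Real.log ((K : ℝ) + 2) := Real.log_nonneg (by linarith)
  have hx : (1 : ℝ) ≤ 4 ^ m0 := one_le_pow₀ (by norm_num)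
  have hL : 2 + Real.log ((K : ℝ) + 2) ≤ (2 + Real.log ((K : ℝ) + 2)) ^ (m0 + 1) := le_self_pow₀ (by linarith) (by omega)
  obtain ⟨a1, a2, a3, a4, a5, a6⟩ := adp_base_facts hx (y := (2 + Real.log ((K : ℝ) + 2)) ^ (m0 + 1)) (by linarith)
    (S := Kap + X17 + LU + 2) (by linarith)
  unfold adpBase
  exact ⟨a1, a2, by linarith, a4, a5, a6⟩

omit hKap hX hLU in
theorem adp_m0_le : (m0 : ℝ) + 1 ≤ 4 ^ m0 := by
  have : m0 + 1 ≤ 4 ^ m0 := Nat.lt_pow_self (by norm_num)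
  exact_mod_cast this

theorem adp_V0_le : adpV0 m0 Kap ≤ 32 * adpBase m0 K Kap X17 LU ^ 2 := by
  obtain ⟨a1, a2, a3, a4, a5, a6⟩ := adp_base_all m0 K hKap hX hLU
  have hm := adp_m0_le m0
  have hm0 : (0 : ℝ) ≤ m0 := Nat.cast_nonneg _
  have h1 : 2 * ((m0 : ℝ) + 4) * Kap ≤ 4 * adpBase m0 K Kap X17 LU := by
    have : ((m0 : ℝ) + 4) * Kap ≤ (4 * 4 ^ m0) * (Kap + X17 + LU + 2) :=
      mul_le_mul (by linarith) (by linarith) (by linarith) (by positivity)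
    nlinarith
  have h0 : 0 ≤ 2 * ((m0 : ℝ) + 4) * Kap := by positivity
  have h2 := pow_le_pow_left₀ h0 h1 2
  unfold adpV0
  nlinarith

theorem adp_J0_le : adpJ0 m0 K ≤ 8 * adpBase m0 K Kap X17 LU ^ 4 := by
  obtain ⟨a1, a2, a3, a4, a5, a6⟩ := adp_base_all m0 K hKap hX hLU
  have hm := adp_m0_le m0
  have hm0 : (0 : ℝ) ≤ m0 := Nat.cast_nonneg _
  have hK0 : (0 : ℝ) ≤ K := Nat.cast_nonneg _
  have hlg : 0 ≤ Real.log ((K : ℝ) + 2) := Real.log_nonneg (by linarith)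
  set L := 2 + Real.log ((K : ℝ) + 2) with hL
  set b := adpBase m0 K Kap X17 LU with hb
  have hc : ((1 + Nat.clog 2 (2 * K + 3) : ℕ) : ℝ) ≤ 2 * L := by
    have := adp_clog_le K
    push_cast
    linarith
  have hc0 : (0 : ℝ) ≤ ((1 + Nat.clog 2 (2 * K + 3) : ℕ) : ℝ) := Nat.cast_nonneg _
  have e1 : (2 * L) ^ (2 * m0 + 3 - 1) = 4 * 4 ^ m0 * (L ^ (m0 + 1)) ^ 2 := by
    have : 2 * m0 + 3 - 1 = 2 * m0 + 2 := by omega
    rw [this, show (4 : ℝ) ^ m0 = 2 ^ (2 * m0) by rw [pow_mul]; norm_num]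
    ring_nf
  have h1 : ((1 + Nat.clog 2 (2 * K + 3) : ℕ) : ℝ) ^ (2 * m0 + 3 - 1) ≤ 4 * 4 ^ m0 * (L ^ (m0 + 1)) ^ 2 := by
    rw [← e1]
    exact pow_le_pow_left₀ hc0 hc _
  have h2 : ((2 * m0 + 3 : ℕ) : ℝ) ≤ 3 * 4 ^ m0 := by push_cast; linarith
  have hxy0 : 0 ≤ (4 : ℝ) ^ m0 * L ^ (m0 + 1) := by positivity
  have h3 : 2 * ((2 * m0 + 3 : ℕ) : ℝ) * ((1 + Nat.clog 2 (2 * K + 3) : ℕ) : ℝ) ^ (2 * m0 + 3 - 1)
      ≤ 24 * ((4 : ℝ) ^ m0 * L ^ (m0 + 1)) ^ 2 := by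
    have := mul_le_mul h2 h1 (by positivity) (by positivity)
    calc 2 * ((2 * m0 + 3 : ℕ) : ℝ) * ((1 + Nat.clog 2 (2 * K + 3) : ℕ) : ℝ) ^ (2 * m0 + 3 - 1)
        = 2 * (((2 * m0 + 3 : ℕ) : ℝ) * ((1 + Nat.clog 2 (2 * K + 3) : ℕ) : ℝ) ^ (2 * m0 + 3 - 1)) := by ring
      _ ≤ 2 * (3 * 4 ^ m0 * (4 * 4 ^ m0 * (L ^ (m0 + 1)) ^ 2)) := by linarith
      _ = 24 * ((4 : ℝ) ^ m0 * L ^ (m0 + 1)) ^ 2 := by ring
  have h4 : ((4 : ℝ) ^ m0 * L ^ (m0 + 1)) ^ 2 ≤ (b / 3) ^ 2 := pow_le_pow_left₀ hxy0 (by linarith) 2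
  have h5 : 2 * ((2 * m0 + 3 : ℕ) : ℝ) * ((1 + Nat.clog 2 (2 * K + 3) : ℕ) : ℝ) ^ (2 * m0 + 3 - 1) ≤ 8 / 3 * b ^ 2 := by
    nlinarith
  have h6 := pow_le_pow_left₀ (by positivity) h5 2
  unfold adpJ0
  have h7 : 0 ≤ b ^ 4 := by positivity
  calc _ ≤ (8 / 3 * b ^ 2) ^ 2 := h6
    _ = 64 / 9 * b ^ 4 := by ring
    _ ≤ 8 * b ^ 4 := by linarith

theorem adp_E1_le : adpE1 m0 Kap X17 LU ≤ 33 * adpBase m0 K Kap X17 LU ^ 2 := by
  obtain ⟨a1, a2, a3, a4, a5, a6⟩ := adp_base_all m0 K hKap hX hLU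
  have h1 := adp_V0_le m0 K hKap hX hLU
  unfold adpE1
  nlinarith

theorem adp_Ntr_le2 : (adpNtr m0 : ℝ) ≤ adpBase m0 K Kap X17 LU ^ 2 := by
  obtain ⟨a1, a2, a3, a4, a5, a6⟩ := adp_base_all m0 K hKap hX hLU
  have hm := adp_m0_le m0
  have hx : (1 : ℝ) ≤ 4 ^ m0 := one_le_pow₀ (by norm_num)
  unfold adpNtr
  push_cast
  nlinarith

theorem adp_Ntr_le : (adpNtr m0 : ℝ) ≤ adpOH 12 m0 K Kap X17 LU := by
  rw [adp_OH_eq]
  have := adp_absorb (adp_base_all m0 K hKap hX hLU).1 2 10 rfl (c := 1) (by norm_num)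
  linarith [adp_Ntr_le2 m0 K hKap hX hLU]

theorem adp_Nst_le : (adpNst K : ℝ) ≤ adpOH 12 m0 K Kap X17 LU := by
  rw [adp_OH_eq]
  obtain ⟨a1, a2, a3, a4, a5, a6⟩ := adp_base_all m0 K hKap hX hLU
  have := adp_absorb a1 2 10 rfl (c := 2) (by norm_num)
  have h1 := adp_natlog_le K
  have h0 : (0 : ℝ) ≤ Nat.log 2 K := Nat.cast_nonneg _
  have hK0 : (0 : ℝ) ≤ K := Nat.cast_nonneg _
  have hlg : 0 ≤ Real.log ((K : ℝ) + 2) := Real.log_nonneg (by linarith)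
  unfold adpNst
  push_cast
  nlinarith

theorem adp_two_le : (2 : ℝ) ≤ adpOH 12 m0 K Kap X17 LU := by
  rw [adp_OH_eq]
  have := adp_absorb (adp_base_all m0 K hKap hX hLU).1 0 12 rfl (c := 2) (by norm_num)
  simpa using this

theorem adp_Eb_le : adpEb m0 Kap X17 LU ≤ adpOH 12 m0 K Kap X17 LU := by
  rw [adp_OH_eq]
  have := adp_absorb (adp_base_all m0 K hKap hX hLU).1 2 10 rfl (c := 330) (by norm_num)
  have h1 := adp_E1_le m0 K hKap hX hLU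
  unfold adpEb adpEst
  push_cast
  linarith

theorem adp_Ea_le {P : ℕ} (hP : 1 ≤ P) : adpEa m0 K P Kap X17 LU ≤ P * adpOH 12 m0 K Kap X17 LU := by
  rw [adp_OH_eq]
  obtain ⟨a1, a2, a3, a4, a5, a6⟩ := adp_base_all m0 K hKap hX hLU
  have h0 := adp_absorb a1 6 6 rfl (c := 8910) (by norm_num)
  have h1 := adp_E1_le m0 K hKap hX hLU
  have h2 := adp_J0_le m0 K hKap hX hLU
  have hP' : (1 : ℝ) ≤ P := by exact_mod_cast hP
  set b := adpBase m0 K Kap X17 LU with hb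
  have hE0 : 0 ≤ adpE1 m0 Kap X17 LU := by
    unfold adpE1 adpV0
    positivity
  have hJ0 : 0 ≤ adpJ0 m0 K := by unfold adpJ0; positivity
  have hb4 : 4 ≤ b ^ 4 := le_trans (by norm_num) (pow_le_pow_left₀ (by norm_num : (0 : ℝ) ≤ 6) a1 4)
  have h3 : (2 ^ 2 + adpJ0 m0 K) * adpE1 m0 Kap X17 LU ≤ (9 * b ^ 4) * (33 * b ^ 2) :=
    mul_le_mul (by linarith) h1 hE0 (by positivity)
  have h4 : 10 * (2 ^ 2 + adpJ0 m0 K) * adpE1 m0 Kap X17 LU ≤ 2970 * b ^ 6 := by nlinarith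
  have h5 : 0 ≤ 10 * (2 ^ 2 + adpJ0 m0 K) * adpE1 m0 Kap X17 LU := by positivity
  unfold adpEa adpEst
  push_cast
  calc ((P : ℝ) + 2) * (10 * (2 ^ 2 + adpJ0 m0 K) * adpE1 m0 Kap X17 LU)
      ≤ (3 * P) * (2970 * b ^ 6) := mul_le_mul (by linarith) h4 h5 (by positivity)
    _ = P * (8910 * b ^ 6) := by ring
    _ ≤ P * b ^ 12 := mul_le_mul_of_nonneg_left h0 (by positivity)

omit hKap hX hLU in
theorem adp_Q_facts {P K r : ℝ} (hp : 0 ≤ P) (hk : 0 ≤ K) (hr : 0 ≤ r) :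
    1 ≤ (P + 1) * (K + 1) * (r + 1) ∧ K ≤ ((P + 1) * (K + 1) * (r + 1)) ^ 2 ∧ r ≤ ((P + 1) * (K + 1) * (r + 1)) ^ 2 ∧
    r ^ 2 * K ≤ ((P + 1) * (K + 1) * (r + 1)) ^ 2 ∧ (4 * (P + 2) + 1) * K ≤ 9 * ((P + 1) * (K + 1) * (r + 1)) ^ 2 := by
  have b1 : 1 ≤ (P + 1) * (K + 1) := by nlinarith
  have q1 : 1 ≤ (P + 1) * (K + 1) * (r + 1) := by nlinarith
  have q2 : (K + 1) * (r + 1) ≤ (P + 1) * (K + 1) * (r + 1) := by
    have : 0 ≤ (K + 1) * (r + 1) := by positivity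
    nlinarith
  have q3 : (P + 1) * (K + 1) ≤ (P + 1) * (K + 1) * (r + 1) := by nlinarith
  have qQ : (P + 1) * (K + 1) * (r + 1) ≤ ((P + 1) * (K + 1) * (r + 1)) ^ 2 := by nlinarith
  have c1 : K + 1 ≤ (K + 1) * (r + 1) := by nlinarith
  have c2 : r + 1 ≤ (K + 1) * (r + 1) := by nlinarith
  refine ⟨q1, by linarith, by linarith, ?_, ?_⟩
  · have h1 : r ^ 2 * K ≤ ((K + 1) * (r + 1)) ^ 2 := by
      have e1 : 0 ≤ r * K := by positivity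
      have e2 : 0 ≤ r ^ 2 * K := by positivity
      have e3 : 0 ≤ r ^ 2 * K ^ 2 := by positivity
      have e4 : 0 ≤ r * K ^ 2 := by positivity
      have e5 : 0 ≤ K ^ 2 := by positivity
      have e6 : 0 ≤ r ^ 2 := by positivity
      have : ((K + 1) * (r + 1)) ^ 2 = r ^ 2 * K ^ 2 + 2 * (r ^ 2 * K) + r ^ 2 + 2 * (r * K ^ 2) + 4 * (r * K) + 2 * r + K ^ 2
          + 2 * K + 1 := by ring
      rw [this]
      linarith
    exact h1.trans (pow_le_pow_left₀ (by positivity) q2 2)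
  · have e1 : 0 ≤ P * K := by positivity
    have : (4 * (P + 2) + 1) * K ≤ 9 * ((P + 1) * (K + 1)) := by nlinarith
    linarith

theorem adp_Pi_le (P : ℕ) {CR : ℝ} (hCR : 0 ≤ CR) :
    adpPi m0 K P Kap X17 LU CR ≤ (((P : ℝ) + 1) * ((K : ℝ) + 1) * (CR + 1)) ^ (12 : ℝ) * adpOH 12 m0 K Kap X17 LU := by
  rw [adp_OH_eq, show (12 : ℝ) = ((12 : ℕ) : ℝ) by norm_num, Real.rpow_natCast]
  obtain ⟨a1, a2, a3, a4, a5, a6⟩ := adp_base_all m0 K hKap hX hLU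
  have h0 := adp_absorb a1 2 10 rfl (c := 1452) (by norm_num)
  have hV := adp_V0_le m0 K hKap hX hLU
  have hV0 : 0 ≤ adpV0 m0 Kap := by unfold adpV0; positivity
  have hN := adp_Ntr_le2 m0 K hKap hX hLU
  have hp : (0 : ℝ) ≤ P := Nat.cast_nonneg _
  have hk : (0 : ℝ) ≤ K := Nat.cast_nonneg _
  obtain ⟨q1, qk, qr, qrk, qpk⟩ := adp_Q_facts hp hk hCR
  set b := adpBase m0 K Kap X17 LU with hb
  set Q := ((P : ℝ) + 1) * ((K : ℝ) + 1) * (CR + 1) with hQ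
  have hB1 : 1 ≤ b ^ 2 := one_le_pow₀ (by linarith)
  have hbB : b ≤ b ^ 2 := by nlinarith
  have hQ2 : 0 ≤ Q ^ 2 := by positivity
  have hQ21 : 1 ≤ Q ^ 2 := one_le_pow₀ q1
  have gen : ∀ α β c : ℝ, α ≤ Q ^ 2 → 0 ≤ β → β ≤ c * b ^ 2 → α * β ≤ c * (Q ^ 2 * b ^ 2) := by
    intro α β c h1 h2 h3
    calc α * β ≤ Q ^ 2 * β := mul_le_mul_of_nonneg_right h1 h2
      _ ≤ Q ^ 2 * (c * b ^ 2) := mul_le_mul_of_nonneg_left h3 hQ2
      _ = c * (Q ^ 2 * b ^ 2) := by ring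
  have t1 := gen 1 1 1 hQ21 zero_le_one (by linarith)
  have t2 := gen K 1 1 qk zero_le_one (by linarith)
  have t3 := gen 1 (adpNtr m0 : ℝ) 1 hQ21 (Nat.cast_nonneg _) (by linarith)
  have t4 := gen K (adpV0 m0 Kap) 32 qk hV0 hV
  have t5 := gen K X17 1 qk hX (by linarith)
  have t6 := gen 1 LU 1 hQ21 hLU (by linarith)
  have t7 := gen CR 1 1 qr zero_le_one (by linarith)
  have t8 := gen (CR ^ 2 * K) (adpV0 m0 Kap) 32 qrk hV0 hV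
  have t9 : (4 * ((P : ℝ) + 2) + 1) * K * adpV0 m0 Kap ≤ 288 * (Q ^ 2 * b ^ 2) := by
    calc (4 * ((P : ℝ) + 2) + 1) * K * adpV0 m0 Kap ≤ 9 * Q ^ 2 * adpV0 m0 Kap := mul_le_mul_of_nonneg_right qpk hV0
      _ ≤ 9 * Q ^ 2 * (32 * b ^ 2) := mul_le_mul_of_nonneg_left hV (by positivity)
      _ = 288 * (Q ^ 2 * b ^ 2) := by ring
  have hfin : adpPi m0 K P Kap X17 LU CR ≤ 1452 * (Q ^ 2 * b ^ 2) := by
    unfold adpPi adpSB
    linarith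
  have hQ12 : Q ^ 2 ≤ Q ^ 12 := pow_le_pow_right₀ q1 (by norm_num)
  calc adpPi m0 K P Kap X17 LU CR ≤ 1452 * (Q ^ 2 * b ^ 2) := hfin
    _ = Q ^ 2 * (1452 * b ^ 2) := by ring
    _ ≤ Q ^ 12 * b ^ 12 := mul_le_mul hQ12 h0 (by positivity) (by positivity)

end

end Claimed.Agent.R258
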