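/-
Row 258, block [S7-ADP] (architect helper52).  THE ADAPTER: `adpGoal_of : AdpGoal c0 C0` (S10/Att.lean).
Sec. 6 (`LocSys`) + Sec. 8 (`ModeSys`)  ⟹  `SideSys.Valid` for `sideSysOf`, with explicit constants (exponent `Ca = 12`).
Files: AdpDefs (definitions), AdpList, AdpSum (lists, algebra of `transferSum`), AdpCalc (abstract calculus), AdpElem (elementary fields),
AdpOut (variation / freeze budgets), AdpRoll (side states as global functions), AdpStack (Lemma 7.4), AdpIdent (identity of Lemma 6.9),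
AdpValid (assembly), AdpNum (numerics).
-/
import Claimed.Agent.R258.S7.AdpValid
import Claimed.Agent.R258.S7.AdpNum
import Claimed.Agent.R258.Pack007
import Claimed.Agent.R258.Pack023

set_option autoImplicit false

namespace Claimed.Agent.R258

/-- the abstract goals of Sec. 7 are proved -/
theorem adp_goals : AdpGoals where
  var := s7_varGoal
  var1 := s7_varOneGoal
  varSh := s7_varShGoal
  jump := s7_jumpGoal
  roll := stk_rollGoal
  lin := stk_linGoal
  stU := stk_uGoal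
  rollBud := stk_rollBudGoal
  frz := stk_freezeBudGoal

/-- **[S7-ADP]** -/
theorem adpGoal_of (c0 C0 : ℝ) (hc0 : 0 < c0) (hC0 : 1 ≤ C0) : AdpGoal c0 C0 := by
  refine ⟨12, by norm_num, ?_⟩
  intro Y κ cells d M p hc q η D Mm LU Dm Kap CR small X17 far G0 m0 hX hq hpat htree hY hBes hcells hκ hhelp htr hroot hisB huses
    hgrps hK hM hlink h17 hKap hcompr far_nn small_nn CR_nn X17_nn LU_nn η_nn
  have H : AdpHyp Y κ cells M p hc c0 C0 q η D Mm LU Dm Kap CR small X17 far G0 m0 :=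
    ⟨hc0, hC0, hX, hq, hpat, htree, hY, hBes, hcells, hκ, hhelp, htr, hroot, hisB, huses, hgrps, hK, hM, hlink, h17, hKap, hcompr,
      far_nn, small_nn, CR_nn, X17_nn, LU_nn, η_nn⟩
  exact ⟨adpNtr m0, adpNst p.K, adpNst p.K, adpEa m0 p.K Y.p.P Kap X17 LU, adpEb m0 Kap X17 LU, adpPi m0 p.K Y.p.P Kap X17 LU CR, 2,
    adpM0 Mm Y.p.D, H.valid adp_goals, adp_Ntr_le m0 p.K hKap X17_nn LU_nn, adp_Nst_le m0 p.K hKap X17_nn LU_nn,
    adp_Nst_le m0 p.K hKap X17_nn LU_nn, adp_Ea_le m0 p.K hKap X17_nn LU_nn H.P_pos, adp_Eb_le m0 p.K hKap X17_nn LU_nn,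
    adp_two_le m0 p.K hKap X17_nn LU_nn, adp_Pi_le m0 p.K hKap X17_nn LU_nn Y.p.P CR_nn, le_rfl⟩

end Claimed.Agent.R258
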