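/-
Row 258, block [S7-ADP] (architect helper52).  FILE AdpCalc: abstract calculus (no `LocSys`, no `ModeSys`):
monotonicity of `VarBud`, the calculus of freeze budgets `FrzBud`, the `frz` field of `NearData.Hyp`, block sums, the identity-type local operator,
locality of `IsComb` operators, forms with restricted / vanishing arguments, `placeV` versus `put4`.      PROVED (no gap in this file).

PLANS.
C1 `VarBud.mono*`: unfold the two fields.  `FrzBud.sub`: `cF = 2 cF₁ + 2 cF₂`, `‖x - y‖² ≤ 2‖x‖² + 2‖y‖²`.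
   `FrzBud.of_varBud`: `cF J = ∑_{G ∈ grps, certU R uses G J} ‖restr J (Zg G (s7Rel R J) - Zg G (s7Blk K R J * K))‖²`; the budget is `FreezeBudGoal`;
      a certified `G` belongs to `grps` (`huses`), `Finset.single_le_sum`.
   `FrzBud.of_shared`: apply `FreezeBudGoal` with `grps' = {0}`, `uses' = uses.image fun u => (0, u.2)`; `VarBud.mono_cert`;
      `certU R uses G J → certU R uses' 0 J`.
C2 `adp_frz_field`: `cFtot J = ∑_p cF_p J + cF_D J`, `cF J = √(cFtot J / |J|)`; `cF J ^ 2 * |J| = cFtot J`.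
C3 `adp_block_sum`: write `uses ⊆ ` pairs `(G, I)`; for fixed `G` and fixed relative depth `n` the cells are pairwise disjoint
      (`cmb_sum_restr_le` of S7/Comb.lean with `E = {I | (G,I) ∈ uses, s7Rel R I = n} ⊆ cellsAt R n`), so the sum over them is `≤ ‖Vg G (n / K)‖²`;
      the depths `n` of the uses lie in some `range (N * K)`; `∑_{n < N K} a (n / K) = K ∑_{j < N} a j`.
C4 forms: `s5f_restr`, `s5f_multilinear` (S5/Form.lean) as black boxes.
-/
import Claimed.Agent.R258.S7.AdpDefs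

set_option autoImplicit false
open MeasureTheory

namespace Claimed.Agent.R258

open Classical

/-! ### C1: `VarBud`, `FrzBud` -/

theorem VarBud.mono {R : Cell} {grps : Finset ℕ} {cert : ℕ → Cell → Prop} {Zg : ℕ → ℕ → XV} {V0 V0' : ℝ}
    (h : VarBud R grps cert Zg V0) (hV : V0 ≤ V0') : VarBud R grps cert Zg V0' where
  var := fun κ _ r t h1 h2 E h3 h4 => (h.var κ r t h1 h2 E h3 h4).trans (mul_le_mul_of_nonneg_right hV (cell_len_nonneg R))
  one := fun t E h1 h2 => (h.one t E h1 h2).trans (mul_le_mul_of_nonneg_right hV (cell_len_nonneg R))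

theorem VarBud.mono_cert {R : Cell} {grps : Finset ℕ} {cert cert' : ℕ → Cell → Prop} {Zg : ℕ → ℕ → XV} {V0 : ℝ}
    (h : VarBud R grps cert Zg V0) (hc : ∀ G J, cert' G J → cert G J) : VarBud R grps cert' Zg V0 where
  var := fun κ _ r t h1 h2 E h3 h4 => h.var κ r t h1 h2 E h3 fun G i J hJ => hc G J (h4 G i J hJ)
  one := fun t E h1 h2 => h.one t E h1 fun G J hJ => hc G J (h2 G J hJ)

theorem VarBud.zero (R : Cell) (grps : Finset ℕ) (cert : ℕ → Cell → Prop) {V0 : ℝ} (hV : 0 ≤ V0) :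
    VarBud R grps cert (fun _ _ => 0) V0 where
  var := fun κ _ r t _ _ E _ _ => by simpa using mul_nonneg hV (cell_len_nonneg R)
  one := fun t E _ _ => by simpa using mul_nonneg hV (cell_len_nonneg R)

section frz

variable {R : Cell} {K : ℕ} {uses : Finset (ℕ × Cell)}

theorem FrzBud.mono {Zg : ℕ → ℕ → XV} {Ef Ef' : ℝ} (h : FrzBud R K uses Zg Ef) (hE : Ef ≤ Ef') : FrzBud R K uses Zg Ef' := by
  obtain ⟨cF, h1, h2, h3⟩ := h
  exact ⟨cF, h1, fun A hA => (h2 A hA).trans (mul_le_mul_of_nonneg_right hE (cell_len_nonneg R)), h3⟩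

theorem FrzBud.zero {Ef : ℝ} (hE : 0 ≤ Ef) : FrzBud R K uses (fun _ _ => 0) Ef :=
  ⟨fun _ => 0, fun _ => le_rfl, fun A _ => by simpa using mul_nonneg hE (cell_len_nonneg R), fun G J _ => by simp⟩

theorem FrzBud.sub {Zg Zg' : ℕ → ℕ → XV} {Ef Ef' : ℝ} (h : FrzBud R K uses Zg Ef) (h' : FrzBud R K uses Zg' Ef') :
    FrzBud R K uses (fun G n => Zg G n - Zg' G n) (2 * Ef + 2 * Ef') := by
  obtain ⟨cF, h1, h2, h3⟩ := h
  obtain ⟨cF', h1', h2', h3'⟩ := h'
  refine ⟨fun J => 2 * cF J + 2 * cF' J, fun J => by have := h1 J; have := h1' J; positivity, fun A hA => ?_, fun G J hJ => ?_⟩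
  · rw [Finset.sum_add_distrib, ← Finset.mul_sum, ← Finset.mul_sum]
    have := h2 A hA
    have := h2' A hA
    nlinarith
  · have e : Zg G (s7Rel R J) - Zg' G (s7Rel R J) - (Zg G (s7Blk K R J * K) - Zg' G (s7Blk K R J * K))
        = (Zg G (s7Rel R J) - Zg G (s7Blk K R J * K)) - (Zg' G (s7Rel R J) - Zg' G (s7Blk K R J * K)) := by abel
    beta_reduce
    rw [e, map_sub]
    have a1 := h3 G J hJ
    have a2 := h3' G J hJ
    have a3 := norm_sub_le (restr J.set (Zg G (s7Rel R J) - Zg G (s7Blk K R J * K)))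
      (restr J.set (Zg' G (s7Rel R J) - Zg' G (s7Blk K R J * K)))
    have a4 := norm_nonneg (restr J.set (Zg G (s7Rel R J) - Zg G (s7Blk K R J * K))
      - restr J.set (Zg' G (s7Rel R J) - Zg' G (s7Blk K R J * K)))
    nlinarith [sq_nonneg (‖restr J.set (Zg G (s7Rel R J) - Zg G (s7Blk K R J * K))‖
      - ‖restr J.set (Zg' G (s7Rel R J) - Zg' G (s7Blk K R J * K))‖)]

theorem FrzBud.of_varBud (hF : FreezeBudGoal) (hK : 1 ≤ K) {grps : Finset ℕ} (huses : ∀ u ∈ uses, u.1 ∈ grps ∧ u.2 ≤ R)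
    {Zg : ℕ → ℕ → XV} {V0 : ℝ} (hV0 : 0 ≤ V0) (h : VarBud R grps (certU R uses) Zg V0) : FrzBud R K uses Zg (K * V0) := by
  refine ⟨fun J => ∑ G ∈ grps.filter (fun G => certU R uses G J),
      ‖restr J.set (Zg G (s7Rel R J) - Zg G (s7Blk K R J * K))‖ ^ 2, fun J => Finset.sum_nonneg fun _ _ => sq_nonneg _,
    fun A hA => hF R K hK grps uses huses Zg V0 hV0 h A hA, fun G J hJ => ?_⟩
  have hG : G ∈ grps.filter (fun G => certU R uses G J) := by
    obtain ⟨_, u, hu, rfl, _⟩ := id hJ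
    exact Finset.mem_filter.2 ⟨(huses u hu).1, hJ⟩
  exact Finset.single_le_sum (f := fun G => ‖restr J.set (Zg G (s7Rel R J) - Zg G (s7Blk K R J * K))‖ ^ 2)
    (fun _ _ => sq_nonneg _) hG

theorem FrzBud.of_shared (hF : FreezeBudGoal) (hK : 1 ≤ K) (huses : ∀ u ∈ uses, u.2 ≤ R)
    {Zs : ℕ → XV} {V0 : ℝ} (hV0 : 0 ≤ V0) (h : VarBud R {0} (fun _ J => J ≤ R) (fun _ => Zs) V0) :
    FrzBud R K uses (fun _ => Zs) (K * V0) := by
  have huses' : ∀ u ∈ uses.image (fun u => ((0 : ℕ), u.2)), u.1 ∈ ({0} : Finset ℕ) ∧ u.2 ≤ R := by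
    intro u hu
    obtain ⟨v, hv, rfl⟩ := Finset.mem_image.1 hu
    exact ⟨Finset.mem_singleton_self _, huses v hv⟩
  obtain ⟨cF, h1, h2, h3⟩ := FrzBud.of_varBud (K := K) hF hK huses' hV0 (h.mono_cert fun G J hJ => hJ.1)
  refine ⟨cF, h1, h2, fun G J hJ => h3 0 J ?_⟩
  obtain ⟨hJR, u, hu, _, huJ⟩ := hJ
  exact ⟨hJR, (0, u.2), Finset.mem_image_of_mem _ hu, rfl, huJ⟩

/-! ### C2: the field `frz` of `NearData.Hyp` -/

theorem adp_frz_field {γ : Type} [Fintype γ] {Cg : ℕ → ℕ → γ → XV} {Dg : ℕ → ℕ → XV} {Ec Ed : ℝ}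
    (hC : ∀ p, FrzBud R K uses (fun G n => Cg G n p) Ec) (hD : FrzBud R K uses Dg Ed) :
    ∃ cF : Cell → ℝ, (∀ J, 0 ≤ cF J) ∧
      (∀ A : Finset Cell, (∀ J ∈ A, J ≤ R) → ∑ J ∈ A, J.len * cF J ^ 2 ≤ ((Fintype.card γ : ℝ) * Ec + Ed) * R.len) ∧
      ∀ G J, certU R uses G J →
        ∑ p, ‖restr J.set (Cg G (s7Rel R J) p - Cg G (s7Blk K R J * K) p)‖ ^ 2 ≤ cF J ^ 2 * J.len ∧
        ‖restr J.set (Dg G (s7Rel R J) - Dg G (s7Blk K R J * K))‖ ^ 2 ≤ cF J ^ 2 * J.len := by
  choose cC c1 c2 c3 using hC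
  obtain ⟨cD, d1, d2, d3⟩ := hD
  have hpos : ∀ J, 0 ≤ ∑ p, cC p J + cD J := fun J => add_nonneg (Finset.sum_nonneg fun p _ => c1 p J) (d1 J)
  have hsq : ∀ J : Cell, Real.sqrt ((∑ p, cC p J + cD J) / J.len) ^ 2 * J.len = ∑ p, cC p J + cD J := by
    intro J
    rw [Real.sq_sqrt (div_nonneg (hpos J) (cell_len_nonneg J)), div_mul_cancel₀ _ (cell_len_ne_zero J)]
  refine ⟨fun J => Real.sqrt ((∑ p, cC p J + cD J) / J.len), fun J => Real.sqrt_nonneg _, fun A hA => ?_, fun G J hJ => ?_⟩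
  · have e : ∀ J ∈ A, J.len * Real.sqrt ((∑ p, cC p J + cD J) / J.len) ^ 2 = ∑ p, cC p J + cD J := by
      intro J _
      rw [mul_comm, hsq]
    rw [Finset.sum_congr rfl e, Finset.sum_add_distrib, Finset.sum_comm, add_mul]
    refine add_le_add ?_ (d2 A hA)
    calc ∑ p, ∑ J ∈ A, cC p J ≤ ∑ _p : γ, Ec * R.len := Finset.sum_le_sum fun p _ => c2 p A hA
      _ = (Fintype.card γ : ℝ) * Ec * R.len := by rw [Finset.sum_const, Finset.card_univ, nsmul_eq_mul]; ring
  · beta_reduce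
    rw [hsq]
    constructor
    · calc ∑ p, ‖restr J.set (Cg G (s7Rel R J) p - Cg G (s7Blk K R J * K) p)‖ ^ 2 ≤ ∑ p, cC p J :=
            Finset.sum_le_sum fun p _ => c3 p G J hJ
        _ ≤ _ := le_add_of_nonneg_right (d1 J)
    · exact (d3 G J hJ).trans (le_add_of_nonneg_left (Finset.sum_nonneg fun p _ => c1 p J))

end frz

/-! ### C3: block sums, the identity-type operator -/

/-- a function fixed on blocks is counted once for every depth of the block -/
theorem adp_block_sum {R : Cell} {K : ℕ} (hK : 1 ≤ K) {grps : Finset ℕ} {uses : Finset (ℕ × Cell)}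
    (huses : ∀ u ∈ uses, u.1 ∈ grps ∧ u.2 ≤ R) (Vg : ℕ → ℕ → XV) {EV : ℝ}
    (hV : ∀ B : Finset ℕ, ∑ G ∈ grps, ∑ j ∈ B, ‖Vg G j‖ ^ 2 ≤ EV * R.len) :
    ∑ u ∈ uses, ‖restr u.2.set (Vg u.1 (s7Blk K R u.2))‖ ^ 2 ≤ K * EV * R.len := by
  have hoff : ∀ o ∈ Finset.range K, ∑ u ∈ uses.filter (fun u => s7Off K R u.2 = o),
      ‖restr u.2.set (Vg u.1 (s7Blk K R u.2))‖ ^ 2 ≤ EV * R.len := by
    intro o _
    refine le_trans ?_ (hV (uses.image (fun u => s7Blk K R u.2)))
    rw [← Finset.sum_fiberwise_of_maps_to (s := uses.filter (fun u => s7Off K R u.2 = o)) (t := grps) (g := fun u => u.1)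
      (fun u hu => (huses u (Finset.mem_filter.1 hu).1).1)]
    refine Finset.sum_le_sum fun G _ => ?_
    rw [← Finset.sum_fiberwise_of_maps_to (s := (uses.filter (fun u => s7Off K R u.2 = o)).filter (fun u => u.1 = G))
      (t := uses.image (fun u => s7Blk K R u.2)) (g := fun u => s7Blk K R u.2)
      (fun u hu => Finset.mem_image_of_mem _ (Finset.mem_filter.1 (Finset.mem_filter.1 hu).1).1)]
    refine Finset.sum_le_sum fun j _ => ?_
    have e : ∑ u ∈ ((uses.filter (fun u => s7Off K R u.2 = o)).filter (fun u => u.1 = G)).filter (fun u => s7Blk K R u.2 = j),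
          ‖restr u.2.set (Vg u.1 (s7Blk K R u.2))‖ ^ 2
        = ∑ I ∈ (((uses.filter (fun u => s7Off K R u.2 = o)).filter (fun u => u.1 = G)).filter
            (fun u => s7Blk K R u.2 = j)).image Prod.snd, ‖restr I.set (Vg G j)‖ ^ 2 := by
      rw [Finset.sum_image]
      · refine Finset.sum_congr rfl fun u hu => ?_
        simp only [Finset.mem_filter] at hu
        rw [hu.1.2, hu.2]
      · intro u hu v hv h
        simp only [Finset.coe_filter, Finset.mem_filter, Set.mem_ofPred_eq] at hu hv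
        exact Prod.ext (hu.1.2.trans hv.1.2.symm) h
    rw [e]
    refine cmb_sum_restr_le (R := R) (n := j * K + o) ?_ _
    intro I hI
    obtain ⟨u, hu, rfl⟩ := Finset.mem_image.1 hI
    simp only [Finset.mem_filter] at hu
    have := stk_mem_cellsAt (huses u hu.1.1.1).2
    rwa [stk_rel_eq K, hu.2, hu.1.1.2] at this
  rw [← Finset.sum_fiberwise_of_maps_to (s := uses) (t := Finset.range K) (g := fun u => s7Off K R u.2)
    (fun u _ => Finset.mem_range.2 (stk_off_lt hK R u.2))]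
  calc _ ≤ ∑ _o ∈ Finset.range K, EV * R.len := Finset.sum_le_sum hoff
    _ = K * EV * R.len := by rw [Finset.sum_const, Finset.card_range, nsmul_eq_mul]; ring

theorem adp_locOp_id (R : Cell) (K : ℕ) : LocOp R (fun _ => restr R.set) 1 0 K where
  loc := fun n J hJ x => by
    have h := (cell_mem_cellsAt'.1 hJ).1
    rw [xv_restr_cell_le h, xv_restr_cell_le' h]
  bd := fun n x => by rw [one_mul]; exact xv_norm_restr_le _ _
  jump := fun κ _ r t n0 _ _ _ x => by simp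

/-! ### locality of `IsComb` operators -/

section comb

variable {𝓕 : Set (Cell → Finset Col)} {pos : Prop} {m : ℕ} {Ct : ℝ} {T : Cell → XV →L[ℂ] XV}

theorem adp_comb_apply_restr (hT : IsComb 𝓕 pos m Ct T) (J : Cell) (x : XV) : T J (restr J.set x) = T J x := by
  obtain ⟨ι, hι, c, W, h1, h2, h3⟩ := hT
  simp only [h3, _root_.sum_apply, _root_.smul_apply, cmb_prod_restr]

theorem adp_comb_restr_apply (hT : IsComb 𝓕 pos m Ct T) (J : Cell) (x : XV) : restr J.set (T J x) = T J x := by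
  obtain ⟨ι, hι, c, W, h1, h2, h3⟩ := hT
  simp only [h3, _root_.sum_apply, _root_.smul_apply, map_sum, map_smul, s7v_restr_prod]

theorem adp_comb_apply_restr_le (hT : IsComb 𝓕 pos m Ct T) {J R : Cell} (h : J ≤ R) (x : XV) : T J (restr R.set x) = T J x := by
  rw [← adp_comb_apply_restr hT J (restr R.set x), xv_restr_cell_le h, adp_comb_apply_restr hT]

theorem adp_comb_norm_le (hT : IsComb 𝓕 pos m Ct T) (J : Cell) (x : XV) : ‖T J x‖ ≤ Ct * ‖restr J.set x‖ := by
  obtain ⟨ι, hι, c, W, h1, h2, h3⟩ := hT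
  rw [h3, _root_.sum_apply]
  simp only [_root_.smul_apply]
  exact (cmb_norm_le Finset.univ c _ _ fun i _ => cmb_norm_prod_le (W i) J x).trans
    (mul_le_mul_of_nonneg_right h2 (norm_nonneg _))

end comb

/-! ### C4: forms -/

/-- the form sees only the restrictions of its arguments to the cell -/
theorem adp_form_congr {c0 C0 : ℝ} (hc0 : 0 < c0) {I : Cell} {w : ℝ × ℝ → ℂ} (h : Admissible c0 C0 I w) {z z' : Fin 4 → XV}
    (hz : ∀ l, restr I.set (z l) = restr I.set (z' l)) : formV I w z = formV I w z' := by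
  rw [← s5f_restr c0 C0 hc0 I w h z, ← s5f_restr c0 C0 hc0 I w h z']
  congr 1
  funext l
  exact hz l

/-- a vanishing argument -/
theorem adp_form_zero {c0 C0 : ℝ} (hc0 : 0 < c0) {I : Cell} {w : ℝ × ℝ → ℂ} (h : Admissible c0 C0 I w) {z : Fin 4 → XV} (l : Fin 4)
    (hz : z l = 0) : formV I w z = 0 := by
  obtain ⟨Mf, hM⟩ := s5f_multilinear c0 C0 hc0 I w h
  rw [← hM]
  exact Mf.map_coord_zero l hz

theorem adp_slot4 (e : Fin 4 ≃ Fin 4) : slot4 (e.symm 0) (e.symm 1) (e.symm 2) (e.symm 3) := by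
  refine ⟨?_, ?_, ?_, ?_, ?_, ?_⟩ <;> exact fun h => absurd (e.symm.injective h) (by decide)

theorem adp_placeV (e : Fin 4 ≃ Fin 4) (xa xb xc xd : XV) :
    placeV e xa xb xc xd = put4 (e.symm 0) (e.symm 1) (e.symm 2) xa xb xc xd := by
  funext l
  unfold placeV put4
  simp only [Equiv.eq_symm_apply]
  generalize e l = r
  fin_cases r <;> simp

theorem adp_placeV_swap (e : Fin 4 ≃ Fin 4) (xa xb xc xd : XV) :
    placeV (e.trans (Equiv.swap 2 3)) xa xb xc xd = placeV e xa xb xd xc := by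
  funext l
  unfold placeV
  simp only [Equiv.trans_apply]
  generalize e l = r
  fin_cases r
  · have : Equiv.swap (2 : Fin 4) 3 0 = 0 := by decide
    simp [this]
  · have : Equiv.swap (2 : Fin 4) 3 1 = 1 := by decide
    simp [this]
  · simp
  · simp

end Claimed.Agent.R258
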