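/-
Row 258, block [S7-ADP] (architect helper52).  FILE AdpStack: Lemma 7.4 for the concrete side states: fixed stacks of `T (Sc)` for local operator
families `T`, in particular for the banded helper products (`stA`) and for the untouched side (`stB`); the size budget `szA`.
-/
import Claimed.Agent.R258.S7.AdpRoll

set_option autoImplicit false
open MeasureTheory

namespace Claimed.Agent.R258

open Classical

theorem adp_sum_fin_band {N : Type*} [AddCommMonoid N] (P : ℕ) (g : ℕ → N) (h0 : g 0 = 0) :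
    ∑ pa : Fin (P + 2), g pa = ∑ pd ∈ Finset.Icc 1 (P + 1), g pd := by
  rw [Fin.sum_univ_eq_sum_range g (P + 2)]
  have e : Finset.Icc 1 (P + 1) = (Finset.range (P + 2)).erase 0 := by
    ext x
    simp only [Finset.mem_Icc, Finset.mem_erase, Finset.mem_range]
    omega
  rw [e, Finset.sum_erase _ h0]

section

variable {Tag : Type} {Y : LocSys Tag} {κ : ℕ} {cells : Finset Cell} {d : ℕ} {M : ModeSys d} {p : S8Par} {hc : LocCat}
  {c0 C0 q η D Mm LU Dm Kap CR small X17 far G0 : ℝ} {m0 : ℕ}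

theorem adp_bandH_zero (hc : LocCat) (l : Fin 4) (f : LocFilt) (I : Cell) : Y.bandH hc l f 0 I = 0 := by
  unfold LocSys.bandH
  simp

namespace AdpHyp

variable (H : AdpHyp Y κ cells M p hc c0 C0 q η D Mm LU Dm Kap CR small X17 far G0 m0) (Gs : AdpGoals)
include H Gs

/-- **Lemma 7.4** for the side state of the slot `l` under a family of local operators -/
theorem sideStacks (l : Fin 4) (γ : Type) [Fintype γ] (T : γ → ℕ → ℕ → XV →L[ℂ] XV) (cT J0 : ℝ) (hcT : 0 ≤ cT) (hJ0 : 0 ≤ J0)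
    (hT : ∀ pa G, LocOp Y.X.root (T pa G) cT J0 p.K) :
    HasStacks Y.X.root p.K (Y.grps7 κ cells) (Y.uses7 κ cells) γ
      (fun G I pa => T pa G (s7Rel Y.X.root I) (M.Sc p (Y.Z κ) l G I)) (adpNst p.K)
      (adpEst (Fintype.card γ) cT J0 m0 Kap X17 LU) := by
  have hV := adp_V0_nonneg m0 Kap
  have hX := H.X17_nn
  have hLU := H.LU_nn
  have ha : 0 ≤ cT ^ 2 + J0 := by positivity
  have hn : (0 : ℝ) ≤ (Fintype.card γ : ℝ) := Nat.cast_nonneg _
  cases hl : Y.pat l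
  · have h1 := Gs.roll Y.X.root p.K H.hK _ _ H.uses_sub' γ T cT J0 hcT hJ0 hT (adpZg Y κ l) _ hV (H.varBud_Z Gs hl)
    have h2 := Gs.lin Y.X.root p.K H.hK _ _ H.uses_sub' γ T cT J0 hcT hJ0 hT (adpVg M p l) X17 hX (H.Vg_energy hl)
    have hE1 : (Fintype.card γ : ℝ) * (10 * (cT ^ 2 + J0) * adpV0 m0 Kap) ≤ adpEst (Fintype.card γ) cT J0 m0 Kap X17 LU := by
      unfold adpEst adpE1
      refine mul_le_mul_of_nonneg_left ?_ hn
      nlinarith [mul_nonneg ha hV, mul_nonneg ha hX, mul_nonneg ha hLU]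
    have hE2 : (Fintype.card γ : ℝ) * ((cT ^ 2 + J0) * X17) ≤ adpEst (Fintype.card γ) cT J0 m0 Kap X17 LU := by
      unfold adpEst adpE1
      refine mul_le_mul_of_nonneg_left ?_ hn
      nlinarith [mul_nonneg ha hV, mul_nonneg ha hX, mul_nonneg ha hLU]
    refine ((h1.mono le_rfl hE1).add (h2.mono le_rfl hE2)).congr fun u hu pa => ?_
    have hmem := stk_mem_cellsAt (H.use_le hu)
    beta_reduce
    rw [← map_add, (hT pa u.1).loc _ _ hmem, (hT pa u.1).loc _ _ hmem, H.Sc_eq hl hu, xv_restr_idem]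
  · have h3 := Gs.stU Y.X.root p.K H.hK _ _ H.uses_sub' γ T cT J0 hcT hJ0 hT (fun G I => Y.Z κ l G I) (2 * LU) (by positivity)
      (H.Z_bud_U hl)
    have hE3 : (Fintype.card γ : ℝ) * (cT ^ 2 * (2 * LU)) ≤ adpEst (Fintype.card γ) cT J0 m0 Kap X17 LU := by
      unfold adpEst adpE1
      refine mul_le_mul_of_nonneg_left ?_ hn
      nlinarith [mul_nonneg ha hV, mul_nonneg ha hX, mul_nonneg ha hLU, mul_nonneg hJ0 hLU]
    refine (h3.mono (by unfold adpNst; omega) hE3).congr fun u _ pa => ?_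
    rw [H.Sc_U hl]

theorem locOp_Ta (a : Fin 4) {t : LocTStep} (ht : AdpStepOk m0 t) (pa : Fin (Y.p.P + 2)) (G : ℕ) :
    LocOp Y.X.root (adpTa Y hc a t pa G) 2 (adpJ0 m0 p.K) p.K := by
  have h1 := (Y.hst_comb_bandH H.P_pos hc a (adpSub G t.f) pa (t.ha.map (adpSub G))).mono (m' := 2 * m0 + 3)
    (by rw [List.length_map]; have := ht.ha_len; omega) le_rfl
  exact h1.locOp Gs.jump (Y.hst_inh_H H.hY hc H.hhelp a) zero_le_two p.K

omit Gs in
theorem restr_Ta (a : Fin 4) (t : LocTStep) (pa : Fin (Y.p.P + 2)) (G : ℕ) {I : Cell} (hI : I ≤ Y.X.root) (x : XV) :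
    restr I.set (adpTa Y hc a t pa G (s7Rel Y.X.root I) x)
      = Y.bandH hc a (adpSub G t.f) pa I (Y.evalD hc a I (t.ha.map (adpSub G)) x) := by
  unfold adpTa
  rw [_root_.sum_apply]
  exact adp_restr_glob_self (fun J => ((Y.bandH hc a (adpSub G t.f) pa J).comp (Y.evalD hc a J (t.ha.map (adpSub G)))) x)
    (fun J => adp_comb_restr_apply (Y.hst_comb_bandH H.P_pos hc a (adpSub G t.f) pa (t.ha.map (adpSub G))) J x) hI

theorem stA (a : Fin 4) {t : LocTStep} (ht : AdpStepOk m0 t) :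
    HasStacks Y.X.root p.K (Y.grps7 κ cells) (Y.uses7 κ cells) (Fin (Y.p.P + 2)) (adpXa Y hc a (M.Sc p (Y.Z κ) a) t) (adpNst p.K)
      (adpEa m0 p.K Y.p.P Kap X17 LU) := by
  have h := H.sideStacks Gs a (Fin (Y.p.P + 2)) (fun pa G => adpTa Y hc a t pa G) 2 (adpJ0 m0 p.K) zero_le_two
    (by unfold adpJ0; positivity) (fun pa G => H.locOp_Ta Gs a ht pa G)
  rw [Fintype.card_fin] at h
  refine h.congr fun u hu pa => ?_
  rw [H.restr_Ta a t pa u.1 (H.use_le hu)]
  exact adp_comb_restr_apply (adp_comb_bandH hc a (adpSub u.1 t.f) pa) u.2 _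

theorem stB (b : Fin 4) :
    HasStacks Y.X.root p.K (Y.grps7 κ cells) (Y.uses7 κ cells) Unit (fun G I _ => M.Sc p (Y.Z κ) b G I) (adpNst p.K)
      (adpEb m0 Kap X17 LU) := by
  have h := H.sideStacks Gs b Unit (fun _ _ _ => restr Y.X.root.set) 1 0 zero_le_one le_rfl (fun _ _ => adp_locOp_id _ _)
  rw [Fintype.card_unit] at h
  refine h.congr fun u hu _ => ?_
  rw [xv_restr_cell_le (H.use_le hu)]

theorem szA (a : Fin 4) (t : LocTStep) :
    ∑ u ∈ Y.uses7 κ cells, ∑ pa, ‖restr u.2.set (adpXa Y hc a (M.Sc p (Y.Z κ) a) t u.1 u.2 pa)‖ ^ 2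
      ≤ adpSB m0 p.K Kap X17 LU * Y.X.root.len := by
  refine le_trans (Finset.sum_le_sum fun u _ => ?_) (H.S_bud Gs a)
  unfold adpXa
  simp only [adp_comb_restr_apply (adp_comb_bandH hc a (adpSub u.1 t.f) _) u.2]
  rw [adp_sum_fin_band Y.p.P (fun pd => ‖Y.bandH hc a (adpSub u.1 t.f) pd u.2
    (Y.evalD hc a u.2 (t.ha.map (adpSub u.1)) (M.Sc p (Y.Z κ) a u.1 u.2))‖ ^ 2) (by rw [adp_bandH_zero]; simp),
    Y.hst_band_sum_H H.hY]
  refine pow_le_pow_left₀ (norm_nonneg _) ((xv_norm_restr_le _ _).trans ?_) 2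
  have := adp_comb_norm_le (Y.hst_comb_evalD H.P_pos hc a (t.ha.map (adpSub u.1))) u.2 (M.Sc p (Y.Z κ) a u.1 u.2)
  rwa [one_mul] at this

end AdpHyp

end

end Claimed.Agent.R258
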