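/-
Row 258, block [S7-ADP] (architect helper52).  FILE AdpList: PURE LIST COMBINATORICS of the expansion of complements and of the transfer schedule
(`loc_expand`, `loc_tsteps`, `loc_tfinal`, `loc_leaf` of Loc/Iface.lean).  No analysis, no paper.  Leaves P-ADP-L1, P-ADP-L2, P-ADP-L3.

PLANS.
L1 (schedule).  `loc_tsteps`, `loc_tfinal` are defined by well-founded recursion: use the functional induction principles `loc_tsteps.induct`,
   `loc_tfinal.induct` (or strong induction on `hc.length + hd.length`) and `rw [loc_tsteps]` / `simp only [loc_tsteps]` to unfold one step.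
   `adpSub G` preserves ranks, so the `if` takes the same branch.
L2 (expansion, leaves).  Induction on the history.  `loc_leaf L u0 κ = (loc_step κ)^[L] init`: prove by induction on the number of iterations
   (`Function.iterate_succ_apply'`) the invariant "all filters of all four histories are cumulative".
L3 (the lists of terms).  Unfold `List.mem_flatMap`, `List.mem_map`; lengths by `List.length_flatMap` + `List.sum_le_card_nsmul`-type bounds, or by
   induction; `(loc_expand h).length ≤ 2 ^ h.length`.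
-/
import Claimed.Agent.R258.S7.AdpDefs

set_option autoImplicit false

namespace Claimed.Agent.R258

open Classical

/-! ### L1: the schedule -/

theorem adp_sub_rank (p : LocParams) (G : ℕ) (f : LocFilt) : (adpSub G f).rank p = f.rank p := by
  cases f <;> rfl

theorem adp_sub_pad0 (p : LocParams) (G : ℕ) (f : LocFilt) : (adpSub G f).pad0 p = f.pad0 p := by
  cases f <;> rfl

theorem adp_tsteps_map (p : LocParams) (G : ℕ) (ha hc hd : List LocFilt) :
    loc_tsteps p (ha.map (adpSub G)) (hc.map (adpSub G)) (hd.map (adpSub G)) = (loc_tsteps p ha hc hd).map (adpSubT G) := by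
  fun_induction loc_tsteps p ha hc hd with
  | case1 ha => simp [loc_tsteps]
  | case2 ha f hc ih =>
    simp only [List.map_cons, List.map_nil] at ih ⊢
    rw [loc_tsteps, ih]
    rfl
  | case3 ha g hd ih =>
    simp only [List.map_cons, List.map_nil] at ih ⊢
    rw [loc_tsteps, ih]
    rfl
  | case4 ha f hc g hd h ih =>
    simp only [List.map_cons] at ih ⊢
    rw [loc_tsteps, if_pos (by rw [adp_sub_rank, adp_sub_rank]; exact h), ih]
    rfl
  | case5 ha f hc g hd h ih =>
    simp only [List.map_cons] at ih ⊢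
    rw [loc_tsteps, if_neg (by rw [adp_sub_rank, adp_sub_rank]; exact h), ih]
    rfl

theorem adp_tfinal_map (p : LocParams) (G : ℕ) (ha hc hd : List LocFilt) :
    loc_tfinal p (ha.map (adpSub G)) (hc.map (adpSub G)) (hd.map (adpSub G)) = (loc_tfinal p ha hc hd).map (adpSub G) := by
  fun_induction loc_tfinal p ha hc hd with
  | case1 ha => simp [loc_tfinal]
  | case2 ha f hc ih =>
    simp only [List.map_cons, List.map_nil] at ih ⊢
    rw [loc_tfinal, ih]
  | case3 ha g hd ih =>
    simp only [List.map_cons, List.map_nil] at ih ⊢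
    rw [loc_tfinal, ih]
  | case4 ha f hc g hd h ih =>
    simp only [List.map_cons] at ih ⊢
    rw [loc_tfinal, if_pos (by rw [adp_sub_rank, adp_sub_rank]; exact h), ih]
  | case5 ha f hc g hd h ih =>
    simp only [List.map_cons] at ih ⊢
    rw [loc_tfinal, if_neg (by rw [adp_sub_rank, adp_sub_rank]; exact h), ih]

theorem adp_tsteps_length (p : LocParams) (ha hc hd : List LocFilt) : (loc_tsteps p ha hc hd).length = hc.length + hd.length := by
  fun_induction loc_tsteps p ha hc hd with
  | case1 ha => simp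
  | case2 ha f hc ih => simp only [List.length_cons, List.length_nil] at ih ⊢; omega
  | case3 ha g hd ih => simp only [List.length_cons, List.length_nil] at ih ⊢; omega
  | case4 ha f hc g hd h ih => simp only [List.length_cons] at ih ⊢; omega
  | case5 ha f hc g hd h ih => simp only [List.length_cons] at ih ⊢; omega

/-- every step: the outgoing filter followed by the remaining history is a suffix of the original history of its slot, the other history is a
suffix of the other original history, and the helper list is short -/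
theorem adp_tsteps_struct (p : LocParams) (ha hc hd : List LocFilt) : ∀ t ∈ loc_tsteps p ha hc hd,
    ((t.fromC = true ∧ (t.f :: t.hc) <:+ hc ∧ t.hd <:+ hd) ∨ (t.fromC = false ∧ t.hc <:+ hc ∧ (t.f :: t.hd) <:+ hd)) ∧
      t.ha.length + 1 ≤ ha.length + hc.length + hd.length := by
  fun_induction loc_tsteps p ha hc hd with
  | case1 ha => intro t ht; simp at ht
  | case2 ha f hc ih =>
    intro t ht
    rcases List.mem_cons.mp ht with rfl | ht
    · exact ⟨Or.inl ⟨rfl, List.suffix_rfl, List.suffix_rfl⟩, by simp only [List.length_cons]; omega⟩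
    · obtain ⟨h1, h2⟩ := ih t ht
      refine ⟨?_, by simp only [List.length_cons] at h2 ⊢; omega⟩
      rcases h1 with ⟨a, b, c⟩ | ⟨a, b, c⟩
      · exact Or.inl ⟨a, b.trans (List.suffix_cons _ _), c⟩
      · exact Or.inr ⟨a, b.trans (List.suffix_cons _ _), c⟩
  | case3 ha g hd ih =>
    intro t ht
    rcases List.mem_cons.mp ht with rfl | ht
    · exact ⟨Or.inr ⟨rfl, List.suffix_rfl, List.suffix_rfl⟩, by simp only [List.length_cons]; omega⟩
    · obtain ⟨h1, h2⟩ := ih t ht
      refine ⟨?_, by simp only [List.length_cons] at h2 ⊢; omega⟩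
      rcases h1 with ⟨a, b, c⟩ | ⟨a, b, c⟩
      · exact Or.inl ⟨a, b, c.trans (List.suffix_cons _ _)⟩
      · exact Or.inr ⟨a, b, c.trans (List.suffix_cons _ _)⟩
  | case4 ha f hc g hd h ih =>
    intro t ht
    rcases List.mem_cons.mp ht with rfl | ht
    · exact ⟨Or.inl ⟨rfl, List.suffix_rfl, List.suffix_rfl⟩, by simp only [List.length_cons]; omega⟩
    · obtain ⟨h1, h2⟩ := ih t ht
      refine ⟨?_, by simp only [List.length_cons] at h2 ⊢; omega⟩
      rcases h1 with ⟨a, b, c⟩ | ⟨a, b, c⟩
      · exact Or.inl ⟨a, b.trans (List.suffix_cons _ _), c⟩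
      · exact Or.inr ⟨a, b.trans (List.suffix_cons _ _), c⟩
  | case5 ha f hc g hd h ih =>
    intro t ht
    rcases List.mem_cons.mp ht with rfl | ht
    · exact ⟨Or.inr ⟨rfl, List.suffix_rfl, List.suffix_rfl⟩, by simp only [List.length_cons]; omega⟩
    · obtain ⟨h1, h2⟩ := ih t ht
      refine ⟨?_, by simp only [List.length_cons] at h2 ⊢; omega⟩
      rcases h1 with ⟨a, b, c⟩ | ⟨a, b, c⟩
      · exact Or.inl ⟨a, b, c.trans (List.suffix_cons _ _)⟩
      · exact Or.inr ⟨a, b, c.trans (List.suffix_cons _ _)⟩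

/-! ### shapes -/

theorem adp_map_sub_cum {h : List LocFilt} (hh : AdpCum h) (G : ℕ) : h.map (adpSub G) = h := by
  have : h.map (adpSub G) = h.map id := by
    apply List.map_congr_left
    intro f hf
    obtain ⟨m, rfl⟩ := hh f hf
    rfl
  rw [this, List.map_id]

theorem AdpCum.suffix {h h' : List LocFilt} (hh : AdpCum h) (hs : h' <:+ h) : AdpCum h' :=
  fun f hf => hh f (hs.subset hf)

theorem AdpShape.suffix {m0 : ℕ} {h h' : List LocFilt} (hh : AdpShape m0 h) (hs : h' <:+ h) : AdpShape m0 h' := by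
  obtain ⟨h0, hc, hl, rfl | ⟨j, G, hj1, hj4, rfl⟩⟩ := hh
  · exact ⟨h', hc.suffix hs, hs.length_le.trans hl, Or.inl rfl⟩
  · rcases List.suffix_cons_iff.mp hs with rfl | hs
    · exact ⟨h0, hc, hl, Or.inr ⟨j, G, hj1, hj4, rfl⟩⟩
    · exact ⟨h', hc.suffix hs, hs.length_le.trans hl, Or.inl rfl⟩

/-! ### L2: expansion of complements, search leaves -/

theorem adp_expand_sign (h : LocHist) : ∀ x ∈ loc_expand h, x.1 = 1 ∨ x.1 = -1 := by
  induction h with
  | nil =>
    intro x hx
    simp only [loc_expand, List.mem_singleton] at hx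
    left; rw [hx]
  | cons e t ih =>
    obtain ⟨f, b⟩ := e
    intro x hx
    cases b with
    | false =>
      simp only [loc_expand, List.mem_map] at hx
      obtain ⟨y, hy, rfl⟩ := hx
      exact ih y hy
    | true =>
      simp only [loc_expand, List.mem_append, List.mem_map] at hx
      rcases hx with hx | ⟨y, hy, rfl⟩
      · exact ih x hx
      · rcases ih y hy with h | h
        · right; simp [h]
        · left; simp [h]

theorem adp_expand_length (h : LocHist) : (loc_expand h).length ≤ 2 ^ h.length := by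
  induction h with
  | nil => simp [loc_expand]
  | cons e t ih =>
    obtain ⟨f, b⟩ := e
    cases b with
    | false =>
      simp only [loc_expand, List.length_map, List.length_cons, pow_succ]
      omega
    | true =>
      simp only [loc_expand, List.length_append, List.length_map, List.length_cons, pow_succ]
      omega

theorem adp_expand_sub (h : LocHist) : ∀ x ∈ loc_expand h, x.2.length ≤ h.length ∧ ∀ f ∈ x.2, ∃ b, (f, b) ∈ h := by
  induction h with
  | nil =>
    intro x hx
    simp only [loc_expand, List.mem_singleton] at hx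
    rw [hx]
    simp
  | cons e t ih =>
    obtain ⟨f, b⟩ := e
    have hcons : ∀ y ∈ loc_expand t, (f :: y.2).length ≤ ((f, b) :: t).length ∧
        ∀ g ∈ f :: y.2, ∃ b', (g, b') ∈ (f, b) :: t := by
      intro y hy
      obtain ⟨h1, h2⟩ := ih y hy
      refine ⟨by simp only [List.length_cons]; omega, ?_⟩
      intro g hg
      rcases List.mem_cons.mp hg with rfl | hg
      · exact ⟨b, List.mem_cons_self⟩
      · obtain ⟨b', hb'⟩ := h2 g hg
        exact ⟨b', List.mem_cons_of_mem _ hb'⟩
    intro x hx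
    cases b with
    | false =>
      simp only [loc_expand, List.mem_map] at hx
      obtain ⟨y, hy, rfl⟩ := hx
      exact hcons y hy
    | true =>
      simp only [loc_expand, List.mem_append, List.mem_map] at hx
      rcases hx with hx | ⟨y, hy, rfl⟩
      · obtain ⟨h1, h2⟩ := ih x hx
        refine ⟨by simp only [List.length_cons]; omega, ?_⟩
        intro g hg
        obtain ⟨b', hb'⟩ := h2 g hg
        exact ⟨b', List.mem_cons_of_mem _ hb'⟩
      · exact hcons y hy

/-- the histories of a search leaf contain cumulative filters only -/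
theorem adp_step_cum (κ : ℕ) (st : LocSt) (h : ∀ l, ∀ x ∈ st.hist l, ∃ m, x.1 = LocFilt.cum m) :
    ∀ l, ∀ x ∈ (loc_step κ st).hist l, ∃ m, x.1 = LocFilt.cum m := by
  intro l x hx
  unfold loc_step at hx
  split_ifs at hx with h1 h2
  · simp only at hx
    by_cases hl : l = loc_third st.up st.low
    · subst hl
      rw [Function.update_self] at hx
      rcases List.mem_cons.mp hx with rfl | hx
      · exact ⟨_, rfl⟩
      · exact h _ x hx
    · rw [Function.update_of_ne hl] at hx
      exact h _ x hx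
  · simp only at hx
    by_cases hl : l = loc_third st.up st.low
    · subst hl
      rw [Function.update_self] at hx
      rcases List.mem_cons.mp hx with rfl | hx
      · exact ⟨_, rfl⟩
      · exact h _ x hx
    · rw [Function.update_of_ne hl] at hx
      exact h _ x hx
  · exact h _ x hx

theorem adp_leaf_cum (L : ℕ) (u0 : Fin 4) (κ : ℕ) (l : Fin 4) : ∀ x ∈ (loc_leaf L u0 κ).hist l, ∃ m, x.1 = LocFilt.cum m := by
  have key : ∀ n : ℕ, ∀ l, ∀ x ∈ ((loc_step κ)^[n] ⟨1, L, u0, none, fun _ => []⟩).hist l, ∃ m, x.1 = LocFilt.cum m := by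
    intro n
    induction n with
    | zero =>
      intro l x hx
      simp at hx
    | succ n ih =>
      rw [Function.iterate_succ_apply']
      exact adp_step_cum κ _ ih
  exact key L l

theorem adp_jb_aux : ∀ t l : Fin 4, 1 ≤ (if l = t then 1
      else 2 + ((Finset.univ : Finset (Fin 4)).filter fun l' => l' < l ∧ l' ≠ t).card) ∧
    (if l = t then 1 else 2 + ((Finset.univ : Finset (Fin 4)).filter fun l' => l' < l ∧ l' ≠ t).card) ≤ 4 := by
  decide

theorem adp_jb_range (st : LocSt) (l : Fin 4) : 1 ≤ loc_jb st l ∧ loc_jb st l ≤ 4 := by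
  have := adp_jb_aux (loc_third st.up st.low) l
  unfold loc_jb
  convert this

/-! ### L3: the lists of terms -/

theorem adp_length_flatMap_le {α β : Type*} (l : List α) (g : α → List β) (n : ℕ) (h : ∀ x ∈ l, (g x).length ≤ n) :
    (l.flatMap g).length ≤ l.length * n := by
  induction l with
  | nil => simp
  | cons a t ih =>
    rw [List.flatMap_cons, List.length_append, List.length_cons, Nat.succ_mul]
    have h1 := h a List.mem_cons_self
    have h2 := ih (fun x hx => h x (List.mem_cons_of_mem _ hx))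
    omega

section lists

variable {Tag : Type} (Y : LocSys Tag) (κ : ℕ)

theorem adp_hist_expand_cum (l : Fin 4) : ∀ x ∈ loc_expand (Y.hist κ l), AdpCum x.2 := by
  intro x hx f hf
  obtain ⟨b, hb⟩ := (adp_expand_sub _ x hx).2 f hf
  exact adp_leaf_cum _ _ _ _ _ hb

theorem adp_posHist_sub (l : Fin 4) (G : ℕ) :
    Y.posHist κ l G = (Y.posHist κ l 0).map fun x => (x.1, x.2.map (adpSub G)) := by
  unfold LocSys.posHist
  rw [List.map_map]
  apply List.map_congr_left
  intro x hx
  have hcum : AdpCum x.2 := adp_hist_expand_cum Y κ l x hx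
  simp only [Function.comp, List.map_cons, adp_map_sub_cum hcum]
  rfl

theorem adp_posHist_length {m0 : ℕ} (hlen : ∀ l, (Y.hist κ l).length ≤ m0) (l : Fin 4) (G : ℕ) : (Y.posHist κ l G).length ≤ 2 ^ m0 := by
  unfold LocSys.posHist
  rw [List.length_map]
  exact (adp_expand_length _).trans (Nat.pow_le_pow_right (by norm_num) (hlen l))

theorem adp_posHist_ok {m0 : ℕ} (hlen : ∀ l, (Y.hist κ l).length ≤ m0) (l : Fin 4) (G : ℕ) :
    ∀ x ∈ Y.posHist κ l G, (x.1 = 1 ∨ x.1 = -1) ∧ AdpShape m0 x.2 ∧ x.2.length ≤ m0 + 1 := by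
  intro x hx
  unfold LocSys.posHist at hx
  obtain ⟨y, hy, rfl⟩ := List.mem_map.mp hx
  have hl : y.2.length ≤ m0 := ((adp_expand_sub _ y hy).1).trans (hlen l)
  obtain ⟨j1, j4⟩ := adp_jb_range (Y.leaf κ) l
  refine ⟨adp_expand_sign _ y hy, ⟨y.2, adp_hist_expand_cum Y κ l y hy, hl, Or.inr ⟨_, G, j1, j4, rfl⟩⟩, ?_⟩
  simp only [List.length_cons]
  omega

theorem adp_sign_mul {a b : ℤ} (ha : a = 1 ∨ a = -1) (hb : b = 1 ∨ b = -1) : a * b = 1 ∨ a * b = -1 := by
  rcases ha with rfl | rfl <;> rcases hb with rfl | rfl <;> simp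

theorem adp_posHist_sign (l : Fin 4) (G : ℕ) : ∀ x ∈ Y.posHist κ l G, x.1 = 1 ∨ x.1 = -1 := by
  intro x hx
  unfold LocSys.posHist at hx
  obtain ⟨y, hy, rfl⟩ := List.mem_map.mp hx
  exact adp_expand_sign _ y hy

theorem adp_mainL_sign (c e : Fin 4) : ∀ x ∈ adpMainL Y κ c e, x.1 = 1 ∨ x.1 = -1 := by
  intro x hx
  unfold adpMainL at hx
  obtain ⟨y, hy, hx⟩ := List.mem_flatMap.mp hx
  obtain ⟨y', hy', rfl⟩ := List.mem_map.mp hx
  exact adp_sign_mul (adp_posHist_sign Y κ c 0 y hy) (adp_posHist_sign Y κ e 0 y' hy')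

theorem adp_mainL_length {m0 : ℕ} (hlen : ∀ l, (Y.hist κ l).length ≤ m0) (c e : Fin 4) : (adpMainL Y κ c e).length ≤ adpNtr m0 := by
  unfold adpMainL
  have h1 := adp_length_flatMap_le (Y.posHist κ c 0)
    (fun x => (Y.posHist κ e 0).map fun x' => (x.1 * x'.1, loc_tfinal Y.p [] x.2 x'.2)) (2 ^ m0) (by
      intro x _
      rw [List.length_map]
      exact adp_posHist_length Y κ hlen e 0)
  have h2 := adp_posHist_length Y κ hlen c 0
  have h3 : (4 : ℕ) ^ m0 = 2 ^ m0 * 2 ^ m0 := by rw [← mul_pow]; norm_num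
  unfold adpNtr
  calc _ ≤ (Y.posHist κ c 0).length * 2 ^ m0 := h1
    _ ≤ 2 ^ m0 * 2 ^ m0 := Nat.mul_le_mul_right _ h2
    _ = 4 ^ m0 := h3.symm
    _ ≤ 4 ^ m0 * (2 * m0 + 2) * 5 := by
        have : 0 < 4 ^ m0 := by positivity
        nlinarith

theorem adp_stepL_ok {m0 : ℕ} (hlen : ∀ l, (Y.hist κ l).length ≤ m0) (c e : Fin 4) :
    ∀ x ∈ adpStepL Y κ c e, (x.1 = 1 ∨ x.1 = -1) ∧ AdpStepOk m0 x.2 := by
  intro x hx
  unfold adpStepL at hx
  obtain ⟨y, hy, hx⟩ := List.mem_flatMap.mp hx
  obtain ⟨y', hy', hx⟩ := List.mem_flatMap.mp hx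
  obtain ⟨t, ht, rfl⟩ := List.mem_map.mp hx
  obtain ⟨s1, sh1, l1⟩ := adp_posHist_ok Y κ hlen c 0 y hy
  obtain ⟨s2, sh2, l2⟩ := adp_posHist_ok Y κ hlen e 0 y' hy'
  refine ⟨adp_sign_mul s1 s2, ?_⟩
  obtain ⟨hs, hl⟩ := adp_tsteps_struct Y.p [] y.2 y'.2 t ht
  have hl' : t.ha.length ≤ 2 * m0 + 1 := by
    simp only [List.length_nil] at hl
    omega
  rcases hs with ⟨a, b, c'⟩ | ⟨a, b, c'⟩
  · exact ⟨by rw [a, if_pos rfl]; exact sh1.suffix b, by rw [a, if_pos rfl]; exact sh2.suffix c', hl'⟩
  · exact ⟨by rw [a, if_neg (by simp)]; exact sh2.suffix c', by rw [a, if_neg (by simp)]; exact sh1.suffix b, hl'⟩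

theorem adp_nearL_ok {m0 : ℕ} (hlen : ∀ l, (Y.hist κ l).length ≤ m0) (c e : Fin 4) :
    ∀ x ∈ adpNearL Y κ c e, (x.1 = 1 ∨ x.1 = -1) ∧ AdpStepOk m0 x.2.1 ∧ -2 ≤ x.2.2 ∧ x.2.2 ≤ 2 := by
  intro x hx
  unfold adpNearL at hx
  obtain ⟨y, hy, hx⟩ := List.mem_flatMap.mp hx
  obtain ⟨dl, hdl, rfl⟩ := List.mem_map.mp hx
  obtain ⟨h1, h2⟩ := adp_stepL_ok Y κ hlen c e y hy
  refine ⟨h1, h2, ?_⟩
  simp only [List.mem_cons, List.not_mem_nil, or_false] at hdl
  rcases hdl with rfl | rfl | rfl | rfl | rfl <;> simp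

theorem adp_stepL_length {m0 : ℕ} (hlen : ∀ l, (Y.hist κ l).length ≤ m0) (c e : Fin 4) :
    (adpStepL Y κ c e).length ≤ 4 ^ m0 * (2 * m0 + 2) := by
  unfold adpStepL
  have h1 := adp_length_flatMap_le (Y.posHist κ c 0)
    (fun x => (Y.posHist κ e 0).flatMap fun x' => (loc_tsteps Y.p [] x.2 x'.2).map fun t => (x.1 * x'.1, t))
    (2 ^ m0 * (2 * m0 + 2)) (by
      intro x hx
      refine (adp_length_flatMap_le (Y.posHist κ e 0) _ (2 * m0 + 2) ?_).trans
        (Nat.mul_le_mul_right _ (adp_posHist_length Y κ hlen e 0))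
      intro x' hx'
      rw [List.length_map, adp_tsteps_length]
      have := (adp_posHist_ok Y κ hlen c 0 x hx).2.2
      have := (adp_posHist_ok Y κ hlen e 0 x' hx').2.2
      omega)
  have h2 := adp_posHist_length Y κ hlen c 0
  have h3 : (4 : ℕ) ^ m0 = 2 ^ m0 * 2 ^ m0 := by rw [← mul_pow]; norm_num
  calc _ ≤ (Y.posHist κ c 0).length * (2 ^ m0 * (2 * m0 + 2)) := h1
    _ ≤ 2 ^ m0 * (2 ^ m0 * (2 * m0 + 2)) := Nat.mul_le_mul_right _ h2
    _ = 4 ^ m0 * (2 * m0 + 2) := by rw [h3]; ring

theorem adp_nearL_length {m0 : ℕ} (hlen : ∀ l, (Y.hist κ l).length ≤ m0) (c e : Fin 4) : (adpNearL Y κ c e).length ≤ adpNtr m0 := by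
  unfold adpNearL adpNtr
  refine (adp_length_flatMap_le (adpStepL Y κ c e) _ 5 ?_).trans
    (Nat.mul_le_mul_right _ (adp_stepL_length Y κ hlen c e))
  intro x _
  simp

end lists

/-! ### sums over lists -/

/-- a sum over `Fin l.length` is the sum of the mapped list -/
theorem adp_sum_fin_list {α M : Type*} [AddCommMonoid M] (l : List α) (F : α → M) : ∑ i : Fin l.length, F l[i] = (l.map F).sum :=
  Fin.sum_univ_fun_getElem l F

theorem adp_sum_flatMap {α β M : Type*} [AddCommMonoid M] (l : List α) (g : α → List β) (F : β → M) :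
    ((l.flatMap g).map F).sum = (l.map fun x => ((g x).map F).sum).sum := by
  induction l with
  | nil => simp
  | cons a t ih =>
    rw [List.flatMap_cons, List.map_append, List.sum_append, ih, List.map_cons, List.sum_cons]

end Claimed.Agent.R258
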