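/-
Row 258, block [S7-ADP] (architect helper52).  FILE AdpSum: ALGEBRA of the sum `transferSum` of Lemma 6.9 (Loc/Iface.lean): rewriting as sums over the
lists `adpMainL`, `adpStepL` computed for the dummy group `0`, and reindexing of the retained near bands by the offset `dl = pc - pa ∈ {-2,…,2}`.
No analysis, no paper.   Leaves P-ADP-T1 (`adp_transferSum_eq`), P-ADP-T2 (`adp_band_reindex`).

PLANS.
T1.  `unfold LocSys.transferSum LocSys.mainTerm adpMainL adpStepL`; rewrite `Y.posHist κ c G`, `Y.posHist κ e G` by `adp_posHist_sub`, `List.map_map`;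
     `loc_tfinal Y.p [] (x.2.map s) (x'.2.map s) = (loc_tfinal Y.p [] x.2 x'.2).map s` and the same for `loc_tsteps` (`adp_tfinal_map`, `adp_tsteps_map` with
     `ha = []`);  then `mul_add`, `List.sum_map_add`, `List.sum_map_mul_left`, `adp_sum_flatMap`.  An induction on the two lists is an alternative.
T2.  For fixed `pa` the filter set is the image of `{dl ∈ {-2..2} | 1 ≤ pa + dl ≤ P + 1}` under `dl ↦ (pa + dl).toNat`.  Suggested route: write the list sum as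
     `∑ dl ∈ Finset.Icc (-2 : ℤ) 2`, exchange the sums, `Fin.sum_univ_eq_sum_range`-type conversion `∑ pa : Fin (P+2) = ∑ pa ∈ range (P+2)`, drop `pa = 0`,
     and for fixed `pa` use `Finset.sum_bij` / `Finset.sum_nbij'` between `pc` and `dl = pc - pa`.
-/
import Claimed.Agent.R258.S7.AdpList

set_option autoImplicit false
open MeasureTheory

namespace Claimed.Agent.R258

open Classical

theorem adp_transferSum_eq {Tag : Type} (Y : LocSys Tag) (hc : LocCat) (κ : ℕ) (a b c e : Fin 4) (G : ℕ) (Sa Sb : XV) (I : Cell) :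
    Y.transferSum hc κ a b c e G Sa Sb I =
      ((adpMainL Y κ c e).map fun x => ((x.1 : ℤ) : ℂ) *
        formV I (Y.X.w I) (put4 a b c (Y.evalD hc a I (x.2.map (adpSub G)) Sa) Sb (Y.X.B c I) (Y.X.B e I))).sum
      + ((adpStepL Y κ c e).map fun x => ((x.1 : ℤ) : ℂ) * Y.nearBand hc a b c e Sa Sb I (adpSubT G x.2)).sum := by
  unfold LocSys.transferSum adpMainL adpStepL
  rw [adp_posHist_sub Y κ c G, adp_posHist_sub Y κ e G]
  rw [adp_sum_flatMap, adp_sum_flatMap, List.map_map, ← List.sum_map_add]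
  congr 1
  apply List.map_congr_left
  intro x hx
  simp only [Function.comp]
  rw [List.map_map, List.map_map, adp_sum_flatMap, ← List.sum_map_add]
  congr 1
  apply List.map_congr_left
  intro x' hx'
  simp only [Function.comp]
  have h1 := adp_tfinal_map Y.p G [] x.2 x'.2
  have h2 := adp_tsteps_map Y.p G [] x.2 x'.2
  simp only [List.map_nil] at h1 h2
  rw [h2, mul_add, List.map_map, List.map_map]
  unfold LocSys.mainTerm
  rw [h1]
  congr 1
  rw [← List.sum_map_mul_left]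
  rfl

theorem adp_band_inner (P : ℕ) (F : ℕ → ℕ → ℂ) (dl : ℤ) :
    (∑ pa : Fin (P + 2), if 1 ≤ (pa : ℕ) ∧ 1 ≤ (pa : ℤ) + dl ∧ (pa : ℤ) + dl ≤ (P : ℤ) + 1
        then F pa ((pa : ℤ) + dl).toNat else 0)
      = ∑ pa ∈ Finset.Icc 1 (P + 1), if 1 ≤ (pa : ℤ) + dl ∧ (pa : ℤ) + dl ≤ (P : ℤ) + 1
        then F pa ((pa : ℤ) + dl).toNat else 0 := by
  rw [Fin.sum_univ_eq_sum_range (fun pa : ℕ => if 1 ≤ pa ∧ 1 ≤ (pa : ℤ) + dl ∧ (pa : ℤ) + dl ≤ (P : ℤ) + 1
        then F pa ((pa : ℤ) + dl).toNat else 0) (P + 2)]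
  symm
  have hsub : Finset.Icc 1 (P + 1) ⊆ Finset.range (P + 2) := by
    intro x hx
    rw [Finset.mem_Icc] at hx
    rw [Finset.mem_range]
    omega
  rw [← Finset.sum_subset hsub]
  · apply Finset.sum_congr rfl
    intro pa hpa
    rw [Finset.mem_Icc] at hpa
    by_cases h : 1 ≤ (pa : ℤ) + dl ∧ (pa : ℤ) + dl ≤ (P : ℤ) + 1
    · rw [if_pos h, if_pos ⟨hpa.1, h⟩]
    · rw [if_neg h, if_neg (fun h' => h h'.2)]
  · intro pa hpa hn
    rw [Finset.mem_range] at hpa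
    rw [Finset.mem_Icc] at hn
    rw [if_neg]
    intro h
    exact hn ⟨h.1, by omega⟩

theorem adp_band_one (P : ℕ) (F : ℕ → ℕ → ℂ) (pa : ℕ) (hpa : pa ∈ Finset.Icc 1 (P + 1)) :
    ∑ pc ∈ (Finset.Icc 1 (P + 1)).filter (fun pc => pa ≤ pc + 2 ∧ pc ≤ pa + 2),
        ((((pa : ℤ) - (pc : ℤ) : ℤ) : ℂ) / (P : ℂ)) * F pa pc
      = ∑ dl ∈ ([-2, -1, 0, 1, 2] : List ℤ).toFinset, (((-dl : ℤ) : ℂ) / (P : ℂ)) *
          (if 1 ≤ (pa : ℤ) + dl ∧ (pa : ℤ) + dl ≤ (P : ℤ) + 1 then F pa ((pa : ℤ) + dl).toNat else 0) := by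
  have hS : ∀ dl : ℤ, dl ∈ ([-2, -1, 0, 1, 2] : List ℤ).toFinset ↔ -2 ≤ dl ∧ dl ≤ 2 := by
    intro dl
    simp only [List.mem_toFinset, List.mem_cons, List.not_mem_nil, or_false]
    omega
  simp only [mul_ite, mul_zero]
  rw [← Finset.sum_filter]
  apply Finset.sum_nbij' (fun pc : ℕ => (pc : ℤ) - (pa : ℤ)) (fun dl : ℤ => ((pa : ℤ) + dl).toNat)
  · intro pc hpc
    simp only [Finset.mem_filter, Finset.mem_Icc] at hpc
    rw [Finset.mem_filter, hS]
    omega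
  · intro dl hdl
    rw [Finset.mem_filter, hS] at hdl
    simp only [Finset.mem_filter, Finset.mem_Icc]
    omega
  · intro pc _
    simp
  · intro dl hdl
    rw [Finset.mem_filter, hS] at hdl
    have : (0 : ℤ) ≤ (pa : ℤ) + dl := by omega
    rw [Int.toNat_of_nonneg this]
    ring
  · intro pc _
    have h1 : ((pa : ℤ) + ((pc : ℤ) - (pa : ℤ))).toNat = pc := by simp
    have h2 : -((pc : ℤ) - (pa : ℤ)) = (pa : ℤ) - (pc : ℤ) := by ring
    rw [h1, h2]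

theorem adp_band_reindex (P : ℕ) (F : ℕ → ℕ → ℂ) :
    ∑ pa ∈ Finset.Icc 1 (P + 1), ∑ pc ∈ (Finset.Icc 1 (P + 1)).filter (fun pc => pa ≤ pc + 2 ∧ pc ≤ pa + 2),
        ((((pa : ℤ) - (pc : ℤ) : ℤ) : ℂ) / (P : ℂ)) * F pa pc
      = (([-2, -1, 0, 1, 2] : List ℤ).map fun dl => (((-dl : ℤ) : ℂ) / (P : ℂ)) *
          ∑ pa : Fin (P + 2), if 1 ≤ (pa : ℕ) ∧ 1 ≤ (pa : ℤ) + dl ∧ (pa : ℤ) + dl ≤ (P : ℤ) + 1 then F pa ((pa : ℤ) + dl).toNat else 0).sum := by
  rw [← List.sum_toFinset _ (by decide)]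
  have hin : ∀ dl : ℤ, (∑ pa : Fin (P + 2), if 1 ≤ (pa : ℕ) ∧ 1 ≤ (pa : ℤ) + dl ∧ (pa : ℤ) + dl ≤ (P : ℤ) + 1
        then F pa ((pa : ℤ) + dl).toNat else 0)
      = ∑ pa ∈ Finset.Icc 1 (P + 1), if 1 ≤ (pa : ℤ) + dl ∧ (pa : ℤ) + dl ≤ (P : ℤ) + 1
        then F pa ((pa : ℤ) + dl).toNat else 0 := adp_band_inner P F
  simp only [hin]
  simp only [Finset.mul_sum]
  rw [Finset.sum_comm]
  apply Finset.sum_congr rfl
  intro pa hpa
  exact adp_band_one P F pa hpa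

end Claimed.Agent.R258
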