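/-
Row 258, block [S7-ADP] (architect helper52).  FILE AdpIdent: the exact identity of Lemma 6.9 in the form of `Transfer.Ok.ident`:
`transferSum` (Loc/Iface.lean) = main terms + near terms of `adpTransfer`.
-/
import Claimed.Agent.R258.S7.AdpStack
import Claimed.Agent.R258.S7.AdpSum

set_option autoImplicit false
open MeasureTheory

namespace Claimed.Agent.R258

open Classical

theorem adp_put4_congr {α β : Type*} (f : α → β) (i j a : Fin 4) {x1 x2 x3 x4 y1 y2 y3 y4 : α} (h1 : f x1 = f y1) (h2 : f x2 = f y2)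
    (h3 : f x3 = f y3) (h4 : f x4 = f y4) (l : Fin 4) : f (put4 i j a x1 x2 x3 x4 l) = f (put4 i j a y1 y2 y3 y4 l) := by
  unfold put4
  split_ifs <;> assumption

theorem adp_placeV_role (E : Fin 4 ≃ Fin 4) (xa xb xc xd : XV) (r : Fin 4) : placeV E xa xb xc xd (E.symm r) = ![xa, xb, xc, xd] r := by
  unfold placeV
  rw [Equiv.apply_symm_apply]

section

variable {Tag : Type} {Y : LocSys Tag} {κ : ℕ} {cells : Finset Cell} {d : ℕ} {M : ModeSys d} {p : S8Par} {hc : LocCat}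
  {c0 C0 q η D Mm LU Dm Kap CR small X17 far G0 : ℝ} {m0 : ℕ}

namespace AdpHyp

variable (H : AdpHyp Y κ cells M p hc c0 C0 q η D Mm LU Dm Kap CR small X17 far G0 m0)
include H

theorem adm {I : Cell} (hI : I ∈ cells) : Admissible c0 C0 I (Y.X.w I) := H.hX.adm I (H.cells_S hI)

/-- one band term of a near term -/
theorem near_term_eq (e : Fin 4 ≃ Fin 4) (t : LocTStep) (dl : ℤ) (G : ℕ) {I : Cell} (hI : I ∈ cells) (Sa : ℕ → Cell → XV) (Sb : XV)
    (pa : Fin (Y.p.P + 2)) :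
    formV I (Y.X.w I) (placeV (adpEN e t) (adpXa Y hc (e.symm 0) Sa t G I pa) Sb
        (adpCg Y (e.symm 2) (e.symm 3) t dl G (s7Rel Y.X.root I) pa) (adpDg Y (e.symm 2) (e.symm 3) t G (s7Rel Y.X.root I)))
      = if 1 ≤ (pa : ℕ) ∧ 1 ≤ (pa : ℤ) + dl ∧ (pa : ℤ) + dl ≤ (Y.p.P : ℤ) + 1 then
          formV I (Y.X.w I) (Y.stepArgs hc (e.symm 0) (e.symm 1) (e.symm 2) (e.symm 3) (Sa G I) Sb I (adpSubT G t) pa
            ((pa : ℤ) + dl).toNat) else 0 := by
  have hadm := H.adm hI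
  have hIR := H.cells_le hI
  by_cases h1 : 1 ≤ (pa : ℕ)
  swap
  · rw [if_neg (fun h => h1 h.1)]
    refine adp_form_zero H.c0_pos hadm ((adpEN e t).symm 0) ?_
    rw [adp_placeV_role]
    have : (pa : ℕ) = 0 := by omega
    show adpXa Y hc (e.symm 0) Sa t G I pa = 0
    unfold adpXa
    rw [this, adp_bandH_zero]
    rfl
  by_cases hcond : 1 ≤ (pa : ℤ) + dl ∧ (pa : ℤ) + dl ≤ (Y.p.P : ℤ) + 1
  swap
  · rw [if_neg (fun h => hcond h.2)]
    refine adp_form_zero H.c0_pos hadm ((adpEN e t).symm 2) ?_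
    rw [adp_placeV_role]
    show adpCg Y (e.symm 2) (e.symm 3) t dl G (s7Rel Y.X.root I) pa = 0
    unfold adpCg
    rw [if_neg hcond]
  rw [if_pos ⟨h1, hcond⟩]
  refine adp_form_congr H.c0_pos hadm fun l => ?_
  unfold LocSys.stepArgs adpEN adpCg adpDg adpCl adpCh adpDl adpDh adpXa adpSubT
  rw [if_pos hcond]
  cases hfc : t.fromC
  · simp only [Bool.false_eq_true, if_false]
    rw [adp_placeV_swap, adp_placeV]
    refine adp_put4_congr (restr I.set) _ _ _ rfl rfl ?_ ?_ l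
    · rw [H.restr_outP _ _ _ hIR, H.restr_evalP]
    · rw [adp_restr_outB _ _ _ _ _ hIR, adp_comb_restr_apply (adp_comb_bandM _ _ _)]
  · simp only [if_true]
    rw [adp_placeV]
    refine adp_put4_congr (restr I.set) _ _ _ rfl rfl ?_ ?_ l
    · rw [adp_restr_outB _ _ _ _ _ hIR, adp_comb_restr_apply (adp_comb_bandM _ _ _)]
    · rw [H.restr_outP _ _ _ hIR, H.restr_evalP]

/-- the retained near bands of one step -/
theorem nearBand_eq (e : Fin 4 ≃ Fin 4) (t : LocTStep) (G : ℕ) {I : Cell} (hI : I ∈ cells) (Sa : ℕ → Cell → XV) (Sb : XV) :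
    Y.nearBand hc (e.symm 0) (e.symm 1) (e.symm 2) (e.symm 3) (Sa G I) Sb I (adpSubT G t)
      = (([-2, -1, 0, 1, 2] : List ℤ).map fun dl => (((-dl : ℤ) : ℂ) / (Y.p.P : ℂ)) *
          ∑ pa : Fin (Y.p.P + 2), formV I (Y.X.w I) (placeV (adpEN e t) (adpXa Y hc (e.symm 0) Sa t G I pa) Sb
            (adpCg Y (e.symm 2) (e.symm 3) t dl G (s7Rel Y.X.root I) pa)
            (adpDg Y (e.symm 2) (e.symm 3) t G (s7Rel Y.X.root I)))).sum := by
  unfold LocSys.nearBand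
  rw [adp_band_reindex Y.p.P (fun pa pc => formV I (Y.X.w I)
    (Y.stepArgs hc (e.symm 0) (e.symm 1) (e.symm 2) (e.symm 3) (Sa G I) Sb I (adpSubT G t) pa pc))]
  congr 1
  refine List.map_congr_left fun dl _ => ?_
  congr 1
  exact Finset.sum_congr rfl fun pa _ => (H.near_term_eq e t dl G hI Sa Sb pa).symm

/-- `transferSum` = main terms + near terms -/
theorem transferSum_eq (e : Fin 4 ≃ Fin 4) (G : ℕ) {I : Cell} (hI : I ∈ cells) (Sa : ℕ → Cell → XV) (Sb : XV) :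
    Y.transferSum hc κ (e.symm 0) (e.symm 1) (e.symm 2) (e.symm 3) G (Sa G I) Sb I
      = ∑ σ : Fin (adpMainL Y κ (e.symm 2) (e.symm 3)).length, (((adpMainL Y κ (e.symm 2) (e.symm 3))[σ].1 : ℤ) : ℂ) *
          formV I (Y.X.w I) (placeV e (Y.evalD hc (e.symm 0) I ((adpMainL Y κ (e.symm 2) (e.symm 3))[σ].2.map (adpSub G)) (Sa G I)) Sb
            (Y.X.B (e.symm 2) I) (Y.X.B (e.symm 3) I))
        + ∑ t : Fin (adpNearL Y κ (e.symm 2) (e.symm 3)).length,
          ((((adpNearL Y κ (e.symm 2) (e.symm 3))[t].1 : ℤ) : ℂ) *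
            (((-(adpNearL Y κ (e.symm 2) (e.symm 3))[t].2.2 : ℤ) : ℂ) / (Y.p.P : ℂ))) *
          ∑ pa : Fin (Y.p.P + 2), formV I (Y.X.w I)
            (placeV (adpEN e (adpNearL Y κ (e.symm 2) (e.symm 3))[t].2.1)
              (adpXa Y hc (e.symm 0) Sa (adpNearL Y κ (e.symm 2) (e.symm 3))[t].2.1 G I pa) Sb
              (adpCg Y (e.symm 2) (e.symm 3) (adpNearL Y κ (e.symm 2) (e.symm 3))[t].2.1
                (adpNearL Y κ (e.symm 2) (e.symm 3))[t].2.2 G (s7Rel Y.X.root I) pa)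
              (adpDg Y (e.symm 2) (e.symm 3) (adpNearL Y κ (e.symm 2) (e.symm 3))[t].2.1 G (s7Rel Y.X.root I))) := by
  rw [adp_transferSum_eq]
  congr 1
  · rw [adp_sum_fin_list (adpMainL Y κ (e.symm 2) (e.symm 3)) (fun x => ((x.1 : ℤ) : ℂ) *
      formV I (Y.X.w I) (placeV e (Y.evalD hc (e.symm 0) I (x.2.map (adpSub G)) (Sa G I)) Sb
        (Y.X.B (e.symm 2) I) (Y.X.B (e.symm 3) I)))]
    congr 1
    refine List.map_congr_left fun x _ => ?_
    rw [adp_placeV]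
  · rw [adp_sum_fin_list (adpNearL Y κ (e.symm 2) (e.symm 3)) (fun x => (((x.1 : ℤ) : ℂ) * (((-x.2.2 : ℤ) : ℂ) / (Y.p.P : ℂ))) *
      ∑ pa : Fin (Y.p.P + 2), formV I (Y.X.w I) (placeV (adpEN e x.2.1) (adpXa Y hc (e.symm 0) Sa x.2.1 G I pa) Sb
        (adpCg Y (e.symm 2) (e.symm 3) x.2.1 x.2.2 G (s7Rel Y.X.root I) pa)
        (adpDg Y (e.symm 2) (e.symm 3) x.2.1 G (s7Rel Y.X.root I))))]
    unfold adpNearL
    rw [adp_sum_flatMap]
    congr 1
    refine List.map_congr_left fun x _ => ?_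
    rw [H.nearBand_eq e x.2 G hI Sa Sb, ← List.sum_map_mul_left, List.map_map]
    congr 1
    refine List.map_congr_left fun dl _ => ?_
    simp only [Function.comp]
    ring

end AdpHyp

end

end Claimed.Agent.R258
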