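/-
Row 258, block [S7-ADP] (architect helper52).  FILE AdpOut: variation budgets (Lemma 7.3) and freeze budgets of the global outputs
`adpZg`, `adpOutP`, `adpOutQ`, `adpOutB`, `adpCg`, `adpDg`; locality of the global outputs; current sizes.
-/
import Claimed.Agent.R258.S7.AdpElem
import Claimed.Agent.R258.S7.AdpList

set_option autoImplicit false
open MeasureTheory

namespace Claimed.Agent.R258

open Classical

theorem adp_V0_nonneg (m0 : ℕ) (Kap : ℝ) : 0 ≤ adpV0 m0 Kap := by unfold adpV0; positivity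

theorem adp_cert_up {R : Cell} {uses : Finset (ℕ × Cell)} (G : ℕ) (J J' : Cell) (h : certU R uses G J) (h1 : J ≤ J') (h2 : J' ≤ R) :
    certU R uses G J' := by
  obtain ⟨_, u, hu, hG, huJ⟩ := h
  exact ⟨h2, u, hu, hG, huJ.trans h1⟩

/-- restriction of a global sum of cell-local pieces -/
theorem adp_restr_glob {R : Cell} {n : ℕ} (y : Cell → XV) (hy : ∀ J, restr J.set (y J) = y J) {I J : Cell} (hJ : J ∈ cellsAt R n)
    (hI : I ≤ J) : restr I.set (∑ J' ∈ cellsAt R n, y J') = restr I.set (y J) := by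
  have := stk_restr_sum_cells (R := R) (m := n) (A := cellsAt R n) (Finset.Subset.refl _) y hJ hI
  simpa only [hy] using this

theorem adp_restr_glob_self {R : Cell} (y : Cell → XV) (hy : ∀ J, restr J.set (y J) = y J) {I : Cell} (hI : I ≤ R) :
    restr I.set (∑ J' ∈ cellsAt R (s7Rel R I), y J') = y I := by
  rw [adp_restr_glob y hy (stk_mem_cellsAt hI) le_rfl, hy]

section

variable {Tag : Type} {Y : LocSys Tag} {κ : ℕ} {cells : Finset Cell} {d : ℕ} {M : ModeSys d} {p : S8Par} {hc : LocCat}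
  {c0 C0 q η D Mm LU Dm Kap CR small X17 far G0 : ℝ} {m0 : ℕ}

namespace AdpHyp

variable (H : AdpHyp Y κ cells M p hc c0 C0 q η D Mm LU Dm Kap CR small X17 far G0 m0) (Gs : AdpGoals)
include H

theorem normF_le (l : Fin 4) : ‖restr Y.X.root.set (Y.X.F l)‖ ^ 2 ≤ 1 * Y.X.root.len := by
  rw [← s5f_len_n2_sq, one_mul]
  have h1 := H.n2_F_le H.root_T l
  have h0 := s5f_n2_nonneg Y.X.root (Y.X.F l)
  have h2 : n2 Y.X.root (Y.X.F l) ^ 2 ≤ 1 := by nlinarith
  nlinarith [cell_len_nonneg Y.X.root]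

include Gs

/-- **Lemma 7.3** for an individual / averaged outer ball projection in front of a combined history of `F_l` -/
theorem varBud_ball (l : Fin 4) {j : ℕ} (hj : 1 ≤ j ∧ j ≤ 4) {T : Cell → XV →L[ℂ] XV} {m : ℕ} {Ct : ℝ}
    (hT : IsComb (Y.famM l) False m Ct T) (hm : m ≤ m0 + 3) (hCt : Ct ≤ 2) (s : Finset ℕ) (hs : s ⊆ Finset.Icc 1 Y.p.P) (a : ℕ → ℂ)
    (ha : ∑ pd ∈ s, ‖a pd‖ ≤ 1) :
    VarBud Y.X.root (Y.grps7 κ cells) (certU Y.X.root (Y.uses7 κ cells))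
      (fun G n => ∑ J ∈ cellsAt Y.X.root n, ∑ pd ∈ s, a pd • cproj (Y.lmM l (.ball j G) pd J) J (T J (Y.X.F l))) (adpV0 m0 Kap) := by
  have h := (hT.mono hm hCt).varBud_ball Gs.var Gs.var1 (R := Y.X.root) (Kap := Kap) (cF := 1) (Y.hst_inh_M H.hY H.hX l)
    (fun W hW hlen => H.hcompr l W hW hlen) H.hKap (by norm_num) (restr Y.X.root.set (Y.X.F l)) (H.normF_le l)
    (Y.grps7 κ cells) (certU Y.X.root (Y.uses7 κ cells)) adp_cert_up (κ := ↥s) (fun i => a i)
    (fun i G => Y.lmM l (.ball j G) i) (Ct' := 1) (by rw [Finset.sum_coe_sort s (fun i => ‖a i‖)]; exact ha)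
    (fun i G _ => Y.hst_inh_M H.hY H.hX l _ (Or.inl ⟨_, _, rfl⟩))
    (fun i => Y.hst_usableBessel H.hY H.hBes κ cells (fun I hI => H.cells_le hI) l j i hj (Finset.mem_Icc.1 (hs i.2)))
  have e : (fun G n => ∑ J ∈ cellsAt Y.X.root n, ∑ pd ∈ s, a pd • cproj (Y.lmM l (.ball j G) pd J) J (T J (Y.X.F l)))
      = fun G n => ∑ J ∈ cellsAt Y.X.root n, ∑ i : ↥s, a i • cproj (Y.lmM l (.ball j G) i J) J
          (T J (restr Y.X.root.set (Y.X.F l))) := by
    funext G n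
    refine Finset.sum_congr rfl fun J hJ => ?_
    rw [adp_comb_apply_restr_le hT (cell_mem_cellsAt'.1 hJ).1,
      Finset.sum_coe_sort s (fun i => a i • cproj (Y.lmM l (.ball j G) i J) J (T J (Y.X.F l)))]
  rw [e]
  refine h.mono (le_of_eq ?_)
  unfold adpV0
  push_cast
  ring

/-- **Lemma 7.3**, shared histories -/
theorem varBud_sh (l : Fin 4) {T : Cell → XV →L[ℂ] XV} {m : ℕ} {Ct : ℝ}
    (hT : IsComb (Y.famM l) False m Ct T) (hm : m ≤ m0 + 3) (hCt : Ct ≤ 2) :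
    VarBud Y.X.root {0} (fun _ J => J ≤ Y.X.root) (fun _ n => ∑ J ∈ cellsAt Y.X.root n, T J (Y.X.F l)) (adpV0 m0 Kap) := by
  have h := (hT.mono hm hCt).varBud_sh Gs.varSh (R := Y.X.root) (Kap := Kap) (cF := 1) (Y.hst_inh_M H.hY H.hX l)
    (fun W hW hlen => H.hcompr l W hW hlen) H.hKap (by norm_num) (restr Y.X.root.set (Y.X.F l)) (H.normF_le l)
  have e : (fun (_ : ℕ) n => ∑ J ∈ cellsAt Y.X.root n, T J (Y.X.F l))
      = fun _ n => ∑ J ∈ cellsAt Y.X.root n, T J (restr Y.X.root.set (Y.X.F l)) := by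
    funext _ n
    exact Finset.sum_congr rfl fun J hJ => by rw [adp_comb_apply_restr_le hT (cell_mem_cellsAt'.1 hJ).1]
  rw [e]
  refine h.mono ?_
  unfold adpV0
  push_cast
  nlinarith [sq_nonneg (2 * ((m0 : ℝ) + 3 + 1) * Kap)]

theorem frz_ball (l : Fin 4) {j : ℕ} (hj : 1 ≤ j ∧ j ≤ 4) {T : Cell → XV →L[ℂ] XV} {m : ℕ} {Ct : ℝ}
    (hT : IsComb (Y.famM l) False m Ct T) (hm : m ≤ m0 + 3) (hCt : Ct ≤ 2) (s : Finset ℕ) (hs : s ⊆ Finset.Icc 1 Y.p.P) (a : ℕ → ℂ)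
    (ha : ∑ pd ∈ s, ‖a pd‖ ≤ 1) :
    FrzBud Y.X.root p.K (Y.uses7 κ cells)
      (fun G n => ∑ J ∈ cellsAt Y.X.root n, ∑ pd ∈ s, a pd • cproj (Y.lmM l (.ball j G) pd J) J (T J (Y.X.F l)))
      (p.K * adpV0 m0 Kap) :=
  FrzBud.of_varBud Gs.frz H.hK H.uses_sub' (adp_V0_nonneg _ _) (H.varBud_ball Gs l hj hT hm hCt s hs a ha)

theorem frz_sh (l : Fin 4) {T : Cell → XV →L[ℂ] XV} {m : ℕ} {Ct : ℝ}
    (hT : IsComb (Y.famM l) False m Ct T) (hm : m ≤ m0 + 3) (hCt : Ct ≤ 2) :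
    FrzBud Y.X.root p.K (Y.uses7 κ cells) (fun _ n => ∑ J ∈ cellsAt Y.X.root n, T J (Y.X.F l)) (p.K * adpV0 m0 Kap) :=
  FrzBud.of_shared Gs.frz H.hK (fun _ hu => H.use_le hu) (adp_V0_nonneg _ _) (H.varBud_sh Gs l hT hm hCt)

omit Gs in
theorem comb_T0 (l : Fin 4) (h : List LocFilt) :
    IsComb (Y.famM l) True (h.length + 1) 2 (fun J => (Y.evalP l J h).comp (Y.opB l J)) := by
  have := (Y.hst_comb_evalP H.P_pos l h).comp (Y.hst_comb_opB l) zero_le_one zero_le_two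
  rwa [one_mul] at this

omit Gs in
theorem avg_norm : ∑ _pd ∈ Finset.Icc 1 Y.p.P, ‖((Y.p.P : ℂ)⁻¹)‖ ≤ 1 := by
  have hP : (0 : ℝ) < Y.p.P := by exact_mod_cast H.P_pos
  rw [Finset.sum_const, Nat.card_Icc, norm_inv, Complex.norm_natCast, nsmul_eq_mul, Nat.add_sub_cancel,
    mul_inv_cancel₀ hP.ne']

omit H Gs in
theorem _root_.Claimed.Agent.R258.adp_Qbar_apply (l : Fin 4) (f : LocFilt) (J : Cell) (x : XV) :
    Y.Qbar l f J x = ∑ pd ∈ Finset.Icc 1 Y.p.P, ((Y.p.P : ℂ)⁻¹) • cproj (Y.lmM l f pd J) J x := by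
  unfold LocSys.Qbar LocSys.Qm
  rw [_root_.smul_apply, _root_.sum_apply, Finset.smul_sum]

/-- the localized arguments of a basic-`B` slot -/
theorem varBud_Z {l : Fin 4} (hl : Y.pat l = false) :
    VarBud Y.X.root (Y.grps7 κ cells) (certU Y.X.root (Y.uses7 κ cells)) (adpZg Y κ l) (adpV0 m0 Kap) := by
  have hT : IsComb (Y.famM l) False ((Y.hist κ l).length + 1) 2 (fun J => (Y.evalH l J (Y.hist κ l)).comp (Y.opB l J)) := by
    have := (Y.hst_comb_evalH H.P_pos l (Y.hist κ l)).comp (Y.hst_comb_opB l).of_pos zero_le_one zero_le_two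
    rwa [one_mul] at this
  have h := H.varBud_ball Gs l (adp_jb_range (Y.leaf κ) l) hT (by have := H.hY.hist_len κ l; omega) le_rfl
    (Finset.Icc 1 Y.p.P) (Finset.Subset.refl _) (fun _ => (Y.p.P : ℂ)⁻¹) H.avg_norm
  have e : adpZg Y κ l = fun G n => ∑ J ∈ cellsAt Y.X.root n, ∑ pd ∈ Finset.Icc 1 Y.p.P,
      ((Y.p.P : ℂ)⁻¹) • cproj (Y.lmM l (.ball (loc_jb (Y.leaf κ) l) G) pd J) J
        (((Y.evalH l J (Y.hist κ l)).comp (Y.opB l J)) (Y.X.F l)) := by
    funext G n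
    unfold adpZg
    refine Finset.sum_congr rfl fun J _ => ?_
    rw [← adp_Qbar_apply, ContinuousLinearMap.comp_apply, Y.hst_opB l J]
    unfold LocSys.Z LocSys.Zsh LocSys.z BaseSeg.arg LocSys.outer
    rw [hl]
    rfl
  rw [e]
  exact h

theorem frz_outP (l : Fin 4) {h : List LocFilt} (hs : AdpShape m0 h) :
    FrzBud Y.X.root p.K (Y.uses7 κ cells) (adpOutP Y l h) (p.K * adpV0 m0 Kap) := by
  obtain ⟨h', hcum, hlen, heq | ⟨j, G0, hj1, hj4, heq⟩⟩ := hs
  · subst heq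
    have e : adpOutP Y l h = fun _ n => ∑ J ∈ cellsAt Y.X.root n, ((Y.evalP l J h).comp (Y.opB l J)) (Y.X.F l) := by
      funext G n
      unfold adpOutP
      refine Finset.sum_congr rfl fun J _ => ?_
      rw [adp_map_sub_cum hcum, ContinuousLinearMap.comp_apply, Y.hst_opB l J]
    rw [e]
    exact H.frz_sh Gs l (H.comb_T0 l h).of_pos (by omega) le_rfl
  · subst heq
    have e : adpOutP Y l (LocFilt.ball j G0 :: h') = fun G n => ∑ J ∈ cellsAt Y.X.root n, ∑ pd ∈ Finset.Icc 1 Y.p.P,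
        ((Y.p.P : ℂ)⁻¹) • cproj (Y.lmM l (.ball j G) pd J) J (((Y.evalP l J h').comp (Y.opB l J)) (Y.X.F l)) := by
      funext G n
      unfold adpOutP
      refine Finset.sum_congr rfl fun J _ => ?_
      rw [← adp_Qbar_apply, ContinuousLinearMap.comp_apply, Y.hst_opB l J, List.map_cons, adp_map_sub_cum hcum]
      rfl
    rw [e]
    exact H.frz_ball Gs l ⟨hj1, hj4⟩ (H.comb_T0 l h').of_pos (by omega) le_rfl _ (Finset.Subset.refl _) _ H.avg_norm

theorem frz_outQ (l : Fin 4) {f : LocFilt} {h : List LocFilt} (hs : AdpShape m0 (f :: h)) (pd : ℕ) :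
    FrzBud Y.X.root p.K (Y.uses7 κ cells) (adpOutQ Y l f h pd) (p.K * adpV0 m0 Kap) := by
  obtain ⟨h', hcum, hlen, heq | ⟨j, G0, hj1, hj4, heq⟩⟩ := hs
  · subst heq
    have hf : ∀ G, adpSub G f = f := by
      obtain ⟨m, rfl⟩ := hcum f (by simp)
      intro G; rfl
    have hh : AdpCum h := fun g hg => hcum g (List.mem_cons_of_mem _ hg)
    have e : adpOutQ Y l f h pd = fun _ n => ∑ J ∈ cellsAt Y.X.root n,
        ((Y.Qm' l f pd J).comp ((Y.evalP l J h).comp (Y.opB l J))) (Y.X.F l) := by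
      funext G n
      unfold adpOutQ
      refine Finset.sum_congr rfl fun J _ => ?_
      rw [hf, adp_map_sub_cum hh, ContinuousLinearMap.comp_apply, ContinuousLinearMap.comp_apply, Y.hst_opB l J]
    rw [e]
    have hT := ((Y.hst_comb_Qm' l f pd).comp (H.comb_T0 l h) zero_le_one zero_le_two).of_pos (pos := False)
    rw [List.length_cons] at hlen
    exact H.frz_sh Gs l hT (by omega) (by norm_num)
  · obtain ⟨rfl, rfl⟩ := List.cons.inj heq
    by_cases h0 : pd = 0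
    · have e : adpOutQ Y l (LocFilt.ball j G0) h pd = fun _ _ => 0 := by
        funext G n
        unfold adpOutQ LocSys.Qm'
        simp [h0]
      rw [e]
      exact FrzBud.zero (mul_nonneg (Nat.cast_nonneg _) (adp_V0_nonneg _ _))
    by_cases h1 : pd ≤ Y.p.P
    · have e : adpOutQ Y l (LocFilt.ball j G0) h pd = fun G n => ∑ J ∈ cellsAt Y.X.root n, ∑ pd' ∈ ({pd} : Finset ℕ),
          (1 : ℂ) • cproj (Y.lmM l (.ball j G) pd' J) J (((Y.evalP l J h).comp (Y.opB l J)) (Y.X.F l)) := by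
        funext G n
        unfold adpOutQ LocSys.Qm'
        refine Finset.sum_congr rfl fun J _ => ?_
        rw [if_neg h0, if_pos h1, Finset.sum_singleton, one_smul, ContinuousLinearMap.comp_apply, Y.hst_opB l J,
          adp_map_sub_cum hcum]
        rfl
      rw [e]
      refine H.frz_ball Gs l ⟨hj1, hj4⟩ (H.comb_T0 l h).of_pos (by omega) le_rfl _ ?_ _ (by simp)
      intro x hx
      rw [Finset.mem_singleton] at hx
      subst hx
      exact Finset.mem_Icc.2 ⟨by omega, h1⟩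
    · have e : adpOutQ Y l (LocFilt.ball j G0) h pd = fun _ n => ∑ J ∈ cellsAt Y.X.root n,
          ((restr J.set).comp ((Y.evalP l J h).comp (Y.opB l J))) (Y.X.F l) := by
        funext G n
        unfold adpOutQ LocSys.Qm'
        refine Finset.sum_congr rfl fun J _ => ?_
        rw [if_neg h0, if_neg h1, ContinuousLinearMap.comp_apply, ContinuousLinearMap.comp_apply, Y.hst_opB l J,
          adp_map_sub_cum hcum]
      rw [e]
      have hT := ((IsComb.restr (𝓕 := Y.famM l) (pos := True)).comp (H.comb_T0 l h) zero_le_one zero_le_two).of_pos (pos := False)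
      exact H.frz_sh Gs l hT (by omega) (by norm_num)

theorem frz_outB (l : Fin 4) {f : LocFilt} {h : List LocFilt} (hs : AdpShape m0 (f :: h)) (pd : ℕ) :
    FrzBud Y.X.root p.K (Y.uses7 κ cells) (adpOutB Y l f h pd) (4 * (p.K * adpV0 m0 Kap)) := by
  have e : adpOutB Y l f h pd = fun G n => adpOutQ Y l f h pd G n - adpOutQ Y l f h (pd - 1) G n := by
    funext G n
    unfold adpOutB adpOutQ LocSys.bandM
    rw [← Finset.sum_sub_distrib]
    rfl
  rw [e]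
  exact ((H.frz_outQ Gs l hs pd).sub (H.frz_outQ Gs l hs (pd - 1))).mono (le_of_eq (by ring))

theorem frz_Cg (c e : Fin 4) {t : LocTStep} (ht : AdpStepOk m0 t) (dl : ℤ) (pa : Fin (Y.p.P + 2)) :
    FrzBud Y.X.root p.K (Y.uses7 κ cells) (fun G n => adpCg Y c e t dl G n pa) (4 * (p.K * adpV0 m0 Kap)) := by
  by_cases hcond : 1 ≤ (pa : ℤ) + dl ∧ (pa : ℤ) + dl ≤ (Y.p.P : ℤ) + 1
  · simp only [adpCg, if_pos hcond]
    exact H.frz_outB Gs _ ht.shC _
  · simp only [adpCg, if_neg hcond]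
    exact FrzBud.zero (mul_nonneg (by norm_num) (mul_nonneg (Nat.cast_nonneg _) (adp_V0_nonneg _ _)))

theorem frz_Dg (c e : Fin 4) {t : LocTStep} (ht : AdpStepOk m0 t) :
    FrzBud Y.X.root p.K (Y.uses7 κ cells) (adpDg Y c e t) (p.K * adpV0 m0 Kap) :=
  H.frz_outP Gs _ ht.shD

/-! ### local values, current sizes -/

omit H Gs in
theorem _root_.Claimed.Agent.R258.adp_comb_bandM (l : Fin 4) (f : LocFilt) (pd : ℕ) :
    IsComb (Y.famM l) True 1 2 (fun J => Y.bandM l f pd J) := by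
  have := (Y.hst_comb_Qm' l f pd).sub (Y.hst_comb_Qm' l f (pd - 1))
  norm_num at this
  exact this

omit H Gs in
theorem _root_.Claimed.Agent.R258.adp_comb_bandH (hc : LocCat) (l : Fin 4) (f : LocFilt) (pd : ℕ) :
    IsComb (Y.famH hc l) True 1 2 (fun J => Y.bandH hc l f pd J) := by
  have := (Y.hst_comb_Qh' hc l f pd).sub (Y.hst_comb_Qh' hc l f (pd - 1))
  norm_num at this
  exact this

omit Gs in
theorem restr_evalP (l : Fin 4) (J : Cell) (h : List LocFilt) (x : XV) : restr J.set (Y.evalP l J h x) = Y.evalP l J h x :=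
  adp_comb_restr_apply (Y.hst_comb_evalP H.P_pos l h) J x

omit Gs in
theorem restr_outP (l : Fin 4) (h : List LocFilt) (G : ℕ) {I : Cell} (hI : I ≤ Y.X.root) :
    restr I.set (adpOutP Y l h G (s7Rel Y.X.root I)) = Y.evalP l I (h.map (adpSub G)) (Y.X.B l I) :=
  adp_restr_glob_self (fun J => Y.evalP l J (h.map (adpSub G)) (Y.X.B l J)) (fun J => H.restr_evalP l J _ _) hI

omit H Gs in
theorem _root_.Claimed.Agent.R258.adp_restr_outB (l : Fin 4) (f : LocFilt) (h : List LocFilt) (pd G : ℕ) {I : Cell} (hI : I ≤ Y.X.root) :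
    restr I.set (adpOutB Y l f h pd G (s7Rel Y.X.root I)) = Y.bandM l (adpSub G f) pd I (Y.evalP l I (h.map (adpSub G)) (Y.X.B l I)) :=
  adp_restr_glob_self (fun J => Y.bandM l (adpSub G f) pd J (Y.evalP l J (h.map (adpSub G)) (Y.X.B l J)))
    (fun J => adp_comb_restr_apply (adp_comb_bandM l (adpSub G f) pd) J _) hI

omit Gs in
theorem normsq_evalP_le (l : Fin 4) (h : List LocFilt) {J : Cell} (hJ : J ∈ Y.X.T) :
    ‖Y.evalP l J h (Y.X.B l J)‖ ^ 2 ≤ 2 ^ 2 * J.len := by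
  have h1 : n2 J (Y.evalP l J h (Y.X.B l J)) ≤ 2 := by
    have := (Y.hst_comb_evalP H.P_pos l h).n2_le J (Y.X.B l J)
    rw [one_mul] at this
    exact this.trans (H.n2_B_le hJ l)
  rw [xv_n2_le_iff _ _ zero_le_two, H.restr_evalP] at h1
  exact h1

omit Gs in
theorem curD (c e : Fin 4) (t : LocTStep) (G : ℕ) (J : Cell) (hJ : certU Y.X.root (Y.uses7 κ cells) G J) :
    ‖restr J.set (adpDg Y c e t G (s7Rel Y.X.root J))‖ ^ 2 ≤ 2 ^ 2 * J.len := by
  unfold adpDg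
  rw [H.restr_outP _ _ _ hJ.1]
  exact H.normsq_evalP_le _ _ (H.cert_T hJ)

omit H Gs in
theorem _root_.Claimed.Agent.R258.adp_shift_sum_le (P : ℕ) (dl : ℤ) (g : ℕ → ℝ) (hg : ∀ n, 0 ≤ g n) :
    ∑ pa : Fin (P + 2), (if 1 ≤ (pa : ℤ) + dl ∧ (pa : ℤ) + dl ≤ (P : ℤ) + 1 then g ((pa : ℤ) + dl).toNat else 0)
      ≤ ∑ pd ∈ Finset.Icc 1 (P + 1), g pd := by
  rw [← Finset.sum_filter]
  calc ∑ pa ∈ Finset.univ.filter (fun pa : Fin (P + 2) => 1 ≤ (pa : ℤ) + dl ∧ (pa : ℤ) + dl ≤ (P : ℤ) + 1), g ((pa : ℤ) + dl).toNat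
      = ∑ pd ∈ (Finset.univ.filter (fun pa : Fin (P + 2) => 1 ≤ (pa : ℤ) + dl ∧ (pa : ℤ) + dl ≤ (P : ℤ) + 1)).image
          (fun pa : Fin (P + 2) => ((pa : ℤ) + dl).toNat), g pd := by
        rw [Finset.sum_image]
        intro a ha b hb hab
        simp only [Finset.coe_filter, Finset.mem_univ, true_and, Set.mem_ofPred_eq] at ha hb
        apply Fin.ext
        beta_reduce at hab
        omega
    _ ≤ ∑ pd ∈ Finset.Icc 1 (P + 1), g pd := by
        refine Finset.sum_le_sum_of_subset_of_nonneg ?_ fun _ _ _ => hg _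
        intro x hx
        obtain ⟨a, ha, rfl⟩ := Finset.mem_image.1 hx
        simp only [Finset.mem_filter, Finset.mem_univ, true_and] at ha
        rw [Finset.mem_Icc]
        omega

omit Gs in
theorem curC (c e : Fin 4) (t : LocTStep) (dl : ℤ) (G : ℕ) (J : Cell) (hJ : certU Y.X.root (Y.uses7 κ cells) G J) :
    ∑ pa, ‖restr J.set (adpCg Y c e t dl G (s7Rel Y.X.root J) pa)‖ ^ 2 ≤ 2 ^ 2 * J.len := by
  have he : ∀ pa : Fin (Y.p.P + 2), ‖restr J.set (adpCg Y c e t dl G (s7Rel Y.X.root J) pa)‖ ^ 2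
      = if 1 ≤ (pa : ℤ) + dl ∧ (pa : ℤ) + dl ≤ (Y.p.P : ℤ) + 1 then
          (fun pd => ‖Y.bandM (adpCl c e t) (adpSub G t.f) pd J
            (Y.evalP (adpCl c e t) J ((adpCh t).map (adpSub G)) (Y.X.B (adpCl c e t) J))‖ ^ 2) ((pa : ℤ) + dl).toNat else 0 := by
    intro pa
    unfold adpCg
    split_ifs with hcond
    · rw [adp_restr_outB _ _ _ _ _ hJ.1]
    · simp
  rw [Finset.sum_congr rfl fun pa _ => he pa]
  refine (adp_shift_sum_le Y.p.P dl (fun pd => ‖Y.bandM (adpCl c e t) (adpSub G t.f) pd J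
    (Y.evalP (adpCl c e t) J ((adpCh t).map (adpSub G)) (Y.X.B (adpCl c e t) J))‖ ^ 2) fun _ => sq_nonneg _).trans ?_
  rw [Y.hst_band_sum_M H.hY, H.restr_evalP]
  exact H.normsq_evalP_le _ _ (H.cert_T hJ)

end AdpHyp

end

end Claimed.Agent.R258
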