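/-
Row 258, block [S7-NB2], LEAF P-NB2-FLAG (architect helper82).  Flags of large frozen complements.  No paper reading.

Setting: `Y : NearData γ`, `hY : Y.Hyp ..`, and the freeze majorant `cF` obtained from `hY.frz` (passed explicitly: `hcF0`, `hbud`, `hfrz`).
(1) depth arithmetic: for `I ≤ R`, `o ≤ s7Off K R I = s7Rel R I % K`: `I.anc o ≤ R`, `s7Rel R (I.anc o) = s7Rel R I - o`, `s7Blk K R (I.anc o) = s7Blk K R I`
    (`(n - o) / K = n / K` for `o ≤ n % K`: write `n = K * (n / K) + n % K`, `Nat.div_add_mod`).  `(I.anc o).depth = I.depth - o` by `rfl`.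
(2) `nb2_flag_cF`: let `J = I.anc o` be the cell of the flag.  `certU Y.R Y.uses G J` (the use `(G, I)`, `I ≤ J ≤ R`), `Y.bs I = s7Blk K R J * K`.
    With `a_p = restr J (Cg G (bs I) p)`, `b_p = restr J (Cg G (s7Rel R J) p)`:  `‖a_p‖² ≤ 2 ‖b_p‖² + 2 ‖b_p - a_p‖²`, sum over `p`, `curC`, `hfrz`:
    `4 cc² |J| < 2 cc² |J| + 2 cF(J)² |J|`, so `cc² < cF(J)²`, so `cc < cF J` (`abs_lt_of_sq_lt_sq` / `pow_lt_pow_left₀` contrapositive).  Same for `Dg`.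
(3) `nb2_fl_sq_le`: if some `G` used at `I` is flagged then `1 ≤ cF(I.anc o)² / cc²` for one `o ≤ s7Off`; all other terms are `≥ 0`.
(4) `nb2_sum_anc_le`: fibres of `I ↦ I.anc o` : `{I ∈ A | I.anc o = J} ⊆ cellsAt J o` (`cell_mem_cellsAt`), `cell_sum_len_cellsAt`.
(5) `nb2_fl_budget`: `s7Off K R I < K`, so `∑_{o ≤ s7Off} ≤ ∑_{o ∈ range K} [o ≤ s7Off K R I]`; exchange the sums; for fixed `o` apply (4) to `A = {I ∈ cells | o ≤ s7Off K R I}`
    and `hbud` to the image (its cells are `≤ R` by (1)).  Result `K * Ef / cc²`.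
DONE (helper82); auxiliary lemmas have the prefix `nb2g_`.
-/
import Claimed.Agent.R258.Pack023

set_option autoImplicit false
open MeasureTheory

namespace Claimed.Agent.R258

open Classical

/-! ### depth arithmetic -/

theorem nb2_off_le_rel (K : ℕ) (R I : Cell) : s7Off K R I ≤ s7Rel R I := Nat.mod_le _ _

theorem nb2_off_lt {K : ℕ} (hK : 1 ≤ K) (R I : Cell) : s7Off K R I < K := Nat.mod_lt _ hK

theorem nb2_depth_eq {R I : Cell} (h : I ≤ R) : I.depth = R.depth + s7Rel R I := by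
  have := cell_depth_le_of_le h
  unfold s7Rel
  omega

theorem nb2_anc_rel {R I : Cell} (h : I ≤ R) : I.anc (s7Rel R I) = R := (cell_le_iff_toNat.1 h).2

theorem nb2_anc_le_root {R I : Cell} (h : I ≤ R) {o : ℕ} (ho : o ≤ s7Rel R I) : I.anc o ≤ R :=
  ⟨s7Rel R I - o, by rw [cell_anc_anc, Nat.add_sub_cancel' ho, nb2_anc_rel h]⟩

theorem nb2_rel_anc {R I : Cell} (h : I ≤ R) {o : ℕ} (ho : o ≤ s7Rel R I) : s7Rel R (I.anc o) = s7Rel R I - o := by
  have h1 := nb2_depth_eq h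
  have h2 : (I.anc o).depth = I.depth - o := rfl
  have h3 : s7Rel R (I.anc o) = ((I.anc o).depth - R.depth).toNat := rfl
  omega

theorem nb2g_div (n o K : ℕ) (ho : o ≤ n % K) : (n - o) / K = n / K := by
  rcases Nat.eq_zero_or_pos K with rfl | hK
  · simp
  have h1 := Nat.div_add_mod n K
  have h2 := Nat.mod_lt n hK
  apply Nat.div_eq_of_lt_le
  · rw [mul_comm]
    omega
  · have : (n / K + 1) * K = K * (n / K) + K := by ring
    rw [this]
    omega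

theorem nb2_blk_anc {K : ℕ} {R I : Cell} (h : I ≤ R) {o : ℕ} (ho : o ≤ s7Off K R I) : s7Blk K R (I.anc o) = s7Blk K R I := by
  unfold s7Blk
  rw [nb2_rel_anc h (ho.trans (nb2_off_le_rel K R I))]
  exact nb2g_div _ _ _ ho

/-- a cell between two cells of one block is an ancestor inside the block -/
theorem nb2_between {K : ℕ} {R I J I' : Cell} (hI : I ≤ R) (hI' : I' ≤ R) (hb : s7Blk K R I' = s7Blk K R I) (h1 : I ≤ J) (h2 : J ≤ I') :
    ∃ o, o ≤ s7Off K R I ∧ I.anc o = J := by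
  obtain ⟨hd, ha⟩ := cell_le_iff_toNat.1 h1
  refine ⟨_, ?_, ha⟩
  have e1 := nb2_depth_eq hI
  have e2 := nb2_depth_eq hI'
  have e3 := cell_depth_le_of_le h2
  unfold s7Blk at hb
  unfold s7Off
  have e4 := Nat.div_add_mod (s7Rel R I) K
  have e5 := Nat.div_add_mod (s7Rel R I') K
  rw [hb] at e5
  omega

/-- depth window of a block -/
theorem nb2_blk_window {K : ℕ} (hK : 1 ≤ K) {R I : Cell} (h : I ≤ R) :
    R.depth + ((s7Blk K R I * K : ℕ) : ℤ) ≤ I.depth ∧ I.depth < R.depth + ((s7Blk K R I * K : ℕ) : ℤ) + K := by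
  have e1 := nb2_depth_eq h
  unfold s7Blk
  have e4 := Nat.div_add_mod (s7Rel R I) K
  have e5 := Nat.mod_lt (s7Rel R I) hK
  rw [mul_comm (s7Rel R I / K) K]
  omega

/-! ### unflagged uses -/

section
variable {γ : Type} [Fintype γ] (Y : NearData γ)

theorem nb2_unflag_C {cc : ℝ} {G : ℕ} {I : Cell} (h : ¬ Y.flag cc G I) {o : ℕ} (ho : o ≤ s7Off Y.K Y.R I) :
    ∑ p, ‖restr (I.anc o).set (Y.Cg G (Y.bs I) p)‖ ^ 2 ≤ (2 * cc) ^ 2 * (I.anc o).len := by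
  by_contra hc
  exact h ⟨o, ho, Or.inl (not_le.1 hc)⟩

theorem nb2_unflag_D {cc : ℝ} {G : ℕ} {I : Cell} (h : ¬ Y.flag cc G I) {o : ℕ} (ho : o ≤ s7Off Y.K Y.R I) :
    ‖restr (I.anc o).set (Y.Dg G (Y.bs I))‖ ^ 2 ≤ (2 * cc) ^ 2 * (I.anc o).len := by
  by_contra hc
  exact h ⟨o, ho, Or.inr (not_le.1 hc)⟩

/-! ### flagged uses -/

omit [Fintype γ] in
theorem nb2g_par (E : Set ℝ) (x y : XV) : ‖restr E y‖ ^ 2 ≤ 2 * ‖restr E x‖ ^ 2 + 2 * ‖restr E (x - y)‖ ^ 2 := by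
  have e : restr E y = restr E x - restr E (x - y) := by
    rw [map_sub]
    abel
  have h1 : ‖restr E y‖ ≤ ‖restr E x‖ + ‖restr E (x - y)‖ := by
    rw [e]
    exact norm_sub_le _ _
  have h0 := norm_nonneg (restr E y)
  nlinarith [sq_nonneg (‖restr E x‖ - ‖restr E (x - y)‖)]

theorem nb2g_lt {cc f L X A B : ℝ} (hf : 0 ≤ f) (hL : 0 < L) (h1 : (2 * cc) ^ 2 * L < X) (h2 : X ≤ 2 * A + 2 * B)
    (hA : A ≤ cc ^ 2 * L) (hB : B ≤ f ^ 2 * L) : cc < f := by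
  have h3 : cc ^ 2 * L < f ^ 2 * L := by nlinarith
  have h4 : cc ^ 2 < f ^ 2 := lt_of_mul_lt_mul_right h3 hL.le
  exact lt_of_pow_lt_pow_left₀ 2 hf h4

/-- a flag forces a large freeze majorant somewhere in the block above -/
theorem nb2_flag_cF {c0 C0 : ℝ} {Na Nb : ℕ} {Ea Eb Sa Sb cc Ef M0 : ℝ} (hY : Y.Hyp c0 C0 Na Nb Ea Eb Sa Sb cc Ef M0)
    (cF : Cell → ℝ) (hcF0 : ∀ J, 0 ≤ cF J)
    (hfrz : ∀ G J, certU Y.R Y.uses G J →
      ∑ p, ‖restr J.set (Y.Cg G (s7Rel Y.R J) p - Y.Cg G (s7Blk Y.K Y.R J * Y.K) p)‖ ^ 2 ≤ cF J ^ 2 * J.len ∧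
      ‖restr J.set (Y.Dg G (s7Rel Y.R J) - Y.Dg G (s7Blk Y.K Y.R J * Y.K))‖ ^ 2 ≤ cF J ^ 2 * J.len)
    {G : ℕ} {I : Cell} (hu : (G, I) ∈ Y.uses) (hf : Y.flag cc G I) :
    ∃ o, o ≤ s7Off Y.K Y.R I ∧ cc < cF (I.anc o) := by
  obtain ⟨o, ho, hor⟩ := hf
  have hIc := (hY.uses_sub _ hu).2
  have hIR : I ≤ Y.R := hY.cells_le I hIc
  have hJR : I.anc o ≤ Y.R := nb2_anc_le_root hIR (ho.trans (nb2_off_le_rel _ _ _))
  have hcert : certU Y.R Y.uses G (I.anc o) := ⟨hJR, (G, I), hu, rfl, cell_le_anc I o⟩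
  have hblk : s7Blk Y.K Y.R (I.anc o) * Y.K = Y.bs I := by
    unfold NearData.bs
    rw [nb2_blk_anc hIR ho]
  obtain ⟨hfC, hfD⟩ := hfrz G _ hcert
  rw [hblk] at hfC hfD
  have hcC := hY.curC G _ hcert
  have hcD := hY.curD G _ hcert
  refine ⟨o, ho, ?_⟩
  have hlen := cell_len_pos (I.anc o)
  rcases hor with h | h
  · refine nb2g_lt (hcF0 _) hlen h ?_ hcC hfC
    rw [Finset.mul_sum, Finset.mul_sum, ← Finset.sum_add_distrib]
    exact Finset.sum_le_sum fun p _ => nb2g_par _ _ _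
  · exact nb2g_lt (hcF0 _) hlen h (nb2g_par _ _ _) hcD hfD

theorem nb2_fl_nonneg (cc : ℝ) (I : Cell) : 0 ≤ Y.fl cc I := by
  unfold NearData.fl
  split_ifs <;> norm_num

theorem nb2_fl_sq_le {c0 C0 : ℝ} {Na Nb : ℕ} {Ea Eb Sa Sb cc Ef M0 : ℝ} (hY : Y.Hyp c0 C0 Na Nb Ea Eb Sa Sb cc Ef M0)
    (cF : Cell → ℝ) (hcF0 : ∀ J, 0 ≤ cF J)
    (hfrz : ∀ G J, certU Y.R Y.uses G J →
      ∑ p, ‖restr J.set (Y.Cg G (s7Rel Y.R J) p - Y.Cg G (s7Blk Y.K Y.R J * Y.K) p)‖ ^ 2 ≤ cF J ^ 2 * J.len ∧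
      ‖restr J.set (Y.Dg G (s7Rel Y.R J) - Y.Dg G (s7Blk Y.K Y.R J * Y.K))‖ ^ 2 ≤ cF J ^ 2 * J.len)
    (I : Cell) :
    Y.fl cc I ^ 2 ≤ (cc ^ 2)⁻¹ * ∑ o ∈ Finset.range (s7Off Y.K Y.R I + 1), cF (I.anc o) ^ 2 := by
  have hcc : 0 < cc := hY.pos.1
  have hsum : 0 ≤ ∑ o ∈ Finset.range (s7Off Y.K Y.R I + 1), cF (I.anc o) ^ 2 := Finset.sum_nonneg fun _ _ => by positivity
  unfold NearData.fl
  split_ifs with h
  · obtain ⟨G, hG, hf⟩ := h
    obtain ⟨o, ho, hlt⟩ := nb2_flag_cF Y hY cF hcF0 hfrz (nb2_mem_usesAt.1 hG) hf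
    have h1 : cc ^ 2 ≤ cF (I.anc o) ^ 2 := pow_le_pow_left₀ hcc.le hlt.le 2
    have h2 : cF (I.anc o) ^ 2 ≤ ∑ o ∈ Finset.range (s7Off Y.K Y.R I + 1), cF (I.anc o) ^ 2 :=
      Finset.single_le_sum (f := fun o => cF (I.anc o) ^ 2) (fun _ _ => by positivity)
        (Finset.mem_range.2 (Nat.lt_succ_of_le ho))
    rw [one_pow, ← div_eq_inv_mul, le_div_iff₀ (by positivity), one_mul]
    exact h1.trans h2
  · rw [zero_pow (by norm_num)]
    positivity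

end

/-- cells with a common `o`-th ancestor have total length at most the length of the ancestor -/
theorem nb2_sum_anc_le (A : Finset Cell) (o : ℕ) (g : Cell → ℝ) (hg : ∀ J, 0 ≤ g J) :
    ∑ I ∈ A, I.len * g (I.anc o) ≤ ∑ J ∈ A.image (fun I => I.anc o), J.len * g J := by
  rw [← Finset.sum_fiberwise_of_maps_to (s := A) (t := A.image (fun I => I.anc o)) (g := fun I => I.anc o)
    (fun I hI => Finset.mem_image_of_mem _ hI)]
  refine Finset.sum_le_sum fun J _ => ?_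
  have h1 : ∑ I ∈ A.filter (fun I => I.anc o = J), I.len * g (I.anc o)
      = (∑ I ∈ A.filter (fun I => I.anc o = J), I.len) * g J := by
    rw [Finset.sum_mul]
    refine Finset.sum_congr rfl fun I hI => ?_
    rw [(Finset.mem_filter.1 hI).2]
  rw [h1]
  refine mul_le_mul_of_nonneg_right ?_ (hg J)
  rw [← cell_sum_len_cellsAt J o]
  refine Finset.sum_le_sum_of_subset_of_nonneg ?_ fun I _ _ => cell_len_nonneg I
  intro I hI
  exact cell_mem_cellsAt.2 (Finset.mem_filter.1 hI).2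

/-- the square budget of the flag indicator -/
theorem nb2_fl_budget {γ : Type} [Fintype γ] (Y : NearData γ)
    {c0 C0 : ℝ} {Na Nb : ℕ} {Ea Eb Sa Sb cc Ef M0 : ℝ} (hY : Y.Hyp c0 C0 Na Nb Ea Eb Sa Sb cc Ef M0) :
    ∑ I ∈ Y.cells, I.len * Y.fl cc I ^ 2 ≤ (Y.K * Ef / cc ^ 2) * Y.R.len := by
  obtain ⟨cF, hcF0, hbud, hfrz⟩ := hY.frz
  have hcc : 0 < cc := hY.pos.1
  have h1 : ∀ I ∈ Y.cells, I.len * Y.fl cc I ^ 2
      ≤ (cc ^ 2)⁻¹ * ∑ o ∈ Finset.range Y.K, if o ≤ s7Off Y.K Y.R I then I.len * cF (I.anc o) ^ 2 else 0 := by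
    intro I _
    have h2 := nb2_fl_sq_le Y hY cF hcF0 hfrz I
    have e : Finset.range (s7Off Y.K Y.R I + 1) = (Finset.range Y.K).filter (fun o => o ≤ s7Off Y.K Y.R I) := by
      ext o
      have := nb2_off_lt hY.K_pos Y.R I
      simp only [Finset.mem_range, Finset.mem_filter]
      omega
    rw [e, Finset.sum_filter] at h2
    calc I.len * Y.fl cc I ^ 2
        ≤ I.len * ((cc ^ 2)⁻¹ * ∑ o ∈ Finset.range Y.K, if o ≤ s7Off Y.K Y.R I then cF (I.anc o) ^ 2 else 0) :=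
          mul_le_mul_of_nonneg_left h2 (cell_len_nonneg I)
      _ = _ := by
          rw [mul_left_comm, Finset.mul_sum]
          congr 1
          refine Finset.sum_congr rfl fun o _ => ?_
          split_ifs <;> simp
  refine (Finset.sum_le_sum h1).trans ?_
  rw [← Finset.mul_sum, Finset.sum_comm]
  have h3 : ∀ o ∈ Finset.range Y.K,
      ∑ I ∈ Y.cells, (if o ≤ s7Off Y.K Y.R I then I.len * cF (I.anc o) ^ 2 else 0) ≤ Ef * Y.R.len := by
    intro o _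
    rw [← Finset.sum_filter]
    refine (nb2_sum_anc_le _ o (fun J => cF J ^ 2) (fun J => by positivity)).trans ?_
    refine hbud _ ?_
    intro J hJ
    obtain ⟨I, hI, rfl⟩ := Finset.mem_image.1 hJ
    obtain ⟨hIc, ho⟩ := Finset.mem_filter.1 hI
    exact nb2_anc_le_root (hY.cells_le I hIc) (ho.trans (nb2_off_le_rel _ _ _))
  calc (cc ^ 2)⁻¹ * ∑ o ∈ Finset.range Y.K, ∑ I ∈ Y.cells, (if o ≤ s7Off Y.K Y.R I then I.len * cF (I.anc o) ^ 2 else 0)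
      ≤ (cc ^ 2)⁻¹ * ∑ _o ∈ Finset.range Y.K, Ef * Y.R.len :=
        mul_le_mul_of_nonneg_left (Finset.sum_le_sum h3) (by positivity)
    _ = _ := by
        rw [Finset.sum_const, Finset.card_range, nsmul_eq_mul]
        field_simp

end Claimed.Agent.R258
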