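/-
Row 258, block [S7-NB2], LEAF P-NB2-FORM (architect helper82).  Role-order calculus of `formV I w (placeV e xa xb xc xd)`.  No paper reading.

`placeV e xa xb xc xd = fun j => ![xa, xb, xc, xd] (e j)` (`e : slot ≃ role`).  TOOL: `s5f_multilinear` gives `M : MultilinearMap` with `M z = formV I w z`;
`M' := M.domDomCongr e` satisfies `M' ![xa, xb, xc, xd] = formV I w (placeV e xa xb xc xd)` (`MultilinearMap.domDomCongr_apply`), this is `nb2_place_multilinear`.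
Additivity in the role `r`: `![..]` with the entry `r` replaced is `Function.update ![..] r _` (prove by `funext i; fin_cases i <;> rfl` or `simp`), then
`MultilinearMap.map_update_add`, `MultilinearMap.map_update_sum`.
`nb2_place_restr`: `s5f_restr` + `(fun l => restr I.set (placeV e xa xb xc xd l)) = placeV e (restr ..) ..` (cases on `e l`).
`nb2_place_bound`: `∏ l, n2 I (placeV e .. l) = ∏ r, n2 I (![..] r)` by `Equiv.prod_comp e`, then `Fin.prod_univ_four`.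
`nb2_band_bound`: triangle inequality, `nb2_place_bound`, Cauchy-Schwarz in `p` (`Real.sum_mul_le_sqrt_mul_sqrt`).
DONE (helper82); auxiliary lemmas have the prefix `nb2f_`.
-/
import Claimed.Agent.R258.Pack023

set_option autoImplicit false
open MeasureTheory

namespace Claimed.Agent.R258

open Classical

theorem nb2_place_multilinear (c0 C0 : ℝ) (hc0 : 0 < c0) (I : Cell) (w : ℝ × ℝ → ℂ) (h : Admissible c0 C0 I w) (e : Fin 4 ≃ Fin 4) :
    ∃ M : MultilinearMap ℂ (fun _ : Fin 4 => XV) ℂ, ∀ xa xb xc xd : XV, M ![xa, xb, xc, xd] = formV I w (placeV e xa xb xc xd) := by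
  obtain ⟨M, hM⟩ := s5f_multilinear c0 C0 hc0 I w h
  refine ⟨M.domDomCongr e, fun xa xb xc xd => ?_⟩
  rw [MultilinearMap.domDomCongr_apply, hM]
  rfl

theorem nb2f_update_a (xa xb xc xd x : XV) : Function.update ![xa, xb, xc, xd] 0 x = ![x, xb, xc, xd] := by
  funext i
  fin_cases i <;> simp [Function.update]

theorem nb2f_update_b (xa xb xc xd x : XV) : Function.update ![xa, xb, xc, xd] 1 x = ![xa, x, xc, xd] := by
  funext i
  fin_cases i <;> simp [Function.update]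

theorem nb2f_update_c (xa xb xc xd x : XV) : Function.update ![xa, xb, xc, xd] 2 x = ![xa, xb, x, xd] := by
  funext i
  fin_cases i <;> simp [Function.update]

theorem nb2f_update_d (xa xb xc xd x : XV) : Function.update ![xa, xb, xc, xd] 3 x = ![xa, xb, xc, x] := by
  funext i
  fin_cases i <;> simp [Function.update]

theorem nb2_place_add_c (c0 C0 : ℝ) (hc0 : 0 < c0) (I : Cell) (w : ℝ × ℝ → ℂ) (h : Admissible c0 C0 I w) (e : Fin 4 ≃ Fin 4)
    (xa xb xc xc' xd : XV) :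
    formV I w (placeV e xa xb (xc + xc') xd) = formV I w (placeV e xa xb xc xd) + formV I w (placeV e xa xb xc' xd) := by
  obtain ⟨M, hM⟩ := nb2_place_multilinear c0 C0 hc0 I w h e
  have := M.map_update_add ![xa, xb, xc, xd] 2 xc xc'
  rw [nb2f_update_c, nb2f_update_c, nb2f_update_c, hM, hM, hM] at this
  exact this

theorem nb2_place_add_d (c0 C0 : ℝ) (hc0 : 0 < c0) (I : Cell) (w : ℝ × ℝ → ℂ) (h : Admissible c0 C0 I w) (e : Fin 4 ≃ Fin 4)
    (xa xb xc xd xd' : XV) :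
    formV I w (placeV e xa xb xc (xd + xd')) = formV I w (placeV e xa xb xc xd) + formV I w (placeV e xa xb xc xd') := by
  obtain ⟨M, hM⟩ := nb2_place_multilinear c0 C0 hc0 I w h e
  have := M.map_update_add ![xa, xb, xc, xd] 3 xd xd'
  rw [nb2f_update_d, nb2f_update_d, nb2f_update_d, hM, hM, hM] at this
  exact this

theorem nb2_place_sum_a (c0 C0 : ℝ) (hc0 : 0 < c0) (I : Cell) (w : ℝ × ℝ → ℂ) (h : Admissible c0 C0 I w) (e : Fin 4 ≃ Fin 4)
    {ι : Type*} (s : Finset ι) (xa : ι → XV) (xb xc xd : XV) :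
    formV I w (placeV e (∑ i ∈ s, xa i) xb xc xd) = ∑ i ∈ s, formV I w (placeV e (xa i) xb xc xd) := by
  obtain ⟨M, hM⟩ := nb2_place_multilinear c0 C0 hc0 I w h e
  have := M.map_update_sum s 0 xa ![0, xb, xc, xd]
  simp only [nb2f_update_a, hM] at this
  exact this

theorem nb2_place_sum_b (c0 C0 : ℝ) (hc0 : 0 < c0) (I : Cell) (w : ℝ × ℝ → ℂ) (h : Admissible c0 C0 I w) (e : Fin 4 ≃ Fin 4)
    {ι : Type*} (s : Finset ι) (xa : XV) (xb : ι → XV) (xc xd : XV) :
    formV I w (placeV e xa (∑ i ∈ s, xb i) xc xd) = ∑ i ∈ s, formV I w (placeV e xa (xb i) xc xd) := by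
  obtain ⟨M, hM⟩ := nb2_place_multilinear c0 C0 hc0 I w h e
  have := M.map_update_sum s 1 xb ![xa, 0, xc, xd]
  simp only [nb2f_update_b, hM] at this
  exact this

theorem nb2f_map_place {α β : Type*} (f : α → β) (a b c d : α) (r : Fin 4) : f (![a, b, c, d] r) = ![f a, f b, f c, f d] r := by
  fin_cases r <;> rfl

/-- locality -/
theorem nb2_place_restr (c0 C0 : ℝ) (hc0 : 0 < c0) (I : Cell) (w : ℝ × ℝ → ℂ) (h : Admissible c0 C0 I w) (e : Fin 4 ≃ Fin 4)
    (xa xb xc xd : XV) :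
    formV I w (placeV e (restr I.set xa) (restr I.set xb) (restr I.set xc) (restr I.set xd)) = formV I w (placeV e xa xb xc xd) := by
  rw [← s5f_restr c0 C0 hc0 I w h (placeV e xa xb xc xd)]
  congr 1
  funext l
  exact (nb2f_map_place (fun x => restr I.set x) xa xb xc xd (e l)).symm

/-- only the restrictions to `I` of the first two roles matter -/
theorem nb2_place_congr_ab (c0 C0 : ℝ) (hc0 : 0 < c0) (I : Cell) (w : ℝ × ℝ → ℂ) (h : Admissible c0 C0 I w) (e : Fin 4 ≃ Fin 4)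
    (xa xa' xb xb' xc xd : XV) (ha : restr I.set xa = restr I.set xa') (hb : restr I.set xb = restr I.set xb') :
    formV I w (placeV e xa xb xc xd) = formV I w (placeV e xa' xb' xc xd) := by
  rw [← nb2_place_restr c0 C0 hc0 I w h e xa, ← nb2_place_restr c0 C0 hc0 I w h e xa', ha, hb]

/-- passage to the scalar form of `NearBandGoal` -/
theorem nb2_place_phys (I : Cell) (w : ℝ × ℝ → ℂ) (e : Fin 4 ≃ Fin 4) (xa xb xc xd : XV) :
    formV I w (placeV e xa xb xc xd) = form I w (placeArgs e (physFn xa) (physFn xb) (physFn xc) (physFn xd)) := by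
  unfold formV
  congr 1
  funext l
  exact nb2f_map_place physFn xa xb xc xd (e l)

theorem nb2_place_bound {Cw : ℝ} (I : Cell) (w : ℝ × ℝ → ℂ) (hCw : ∀ z : Fin 4 → XV, ‖formV I w z‖ ≤ Cw * ∏ l, n2 I (z l))
    (e : Fin 4 ≃ Fin 4) (xa xb xc xd : XV) :
    ‖formV I w (placeV e xa xb xc xd)‖ ≤ Cw * (n2 I xa * n2 I xb * n2 I xc * n2 I xd) := by
  refine (hCw _).trans (le_of_eq ?_)
  congr 1
  have : ∏ l, n2 I (placeV e xa xb xc xd l) = ∏ r, n2 I (![xa, xb, xc, xd] r) :=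
    Equiv.prod_comp e (fun r => n2 I (![xa, xb, xc, xd] r))
  rw [this, Fin.prod_univ_four]
  rfl

/-- Cauchy-Schwarz in the band index -/
theorem nb2_band_bound {Cw : ℝ} (hCw0 : 0 ≤ Cw) (I : Cell) (w : ℝ × ℝ → ℂ) (hCw : ∀ z : Fin 4 → XV, ‖formV I w z‖ ≤ Cw * ∏ l, n2 I (z l))
    (e : Fin 4 ≃ Fin 4) {γ : Type} [Fintype γ] (xa : γ → XV) (xb : XV) (xc : γ → XV) (xd : XV) :
    ‖∑ p, formV I w (placeV e (xa p) xb (xc p) xd)‖
      ≤ Cw * (Real.sqrt (∑ p, n2 I (xa p) ^ 2) * n2 I xb * Real.sqrt (∑ p, n2 I (xc p) ^ 2) * n2 I xd) := by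
  have hb := xv_n2_nonneg I xb
  have hd := xv_n2_nonneg I xd
  calc ‖∑ p, formV I w (placeV e (xa p) xb (xc p) xd)‖
      ≤ ∑ p, ‖formV I w (placeV e (xa p) xb (xc p) xd)‖ := norm_sum_le _ _
    _ ≤ ∑ p, Cw * (n2 I (xa p) * n2 I xb * n2 I (xc p) * n2 I xd) :=
        Finset.sum_le_sum fun p _ => nb2_place_bound I w hCw e _ _ _ _
    _ = Cw * n2 I xb * n2 I xd * ∑ p, n2 I (xa p) * n2 I (xc p) := by
        rw [Finset.mul_sum]
        refine Finset.sum_congr rfl fun p _ => ?_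
        ring
    _ ≤ Cw * n2 I xb * n2 I xd * (Real.sqrt (∑ p, n2 I (xa p) ^ 2) * Real.sqrt (∑ p, n2 I (xc p) ^ 2)) :=
        mul_le_mul_of_nonneg_left (Real.sum_mul_le_sqrt_mul_sqrt _ _ _) (mul_nonneg (mul_nonneg hCw0 hb) hd)
    _ = _ := by ring

/-- the same with bounds for the two complements -/
theorem nb2_band_bound' {Cw : ℝ} (hCw0 : 0 ≤ Cw) (I : Cell) (w : ℝ × ℝ → ℂ) (hCw : ∀ z : Fin 4 → XV, ‖formV I w z‖ ≤ Cw * ∏ l, n2 I (z l))
    (e : Fin 4 ≃ Fin 4) {γ : Type} [Fintype γ] (xa : γ → XV) (xb : XV) (xc : γ → XV) (xd : XV) {bc bd : ℝ} (hbc : 0 ≤ bc) (hbd : 0 ≤ bd)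
    (hc : ∑ p, ‖restr I.set (xc p)‖ ^ 2 ≤ bc ^ 2 * I.len) (hd : ‖restr I.set xd‖ ^ 2 ≤ bd ^ 2 * I.len) :
    ‖∑ p, formV I w (placeV e (xa p) xb (xc p) xd)‖
      ≤ Cw * bc * bd * (Real.sqrt (∑ p, n2 I (xa p) ^ 2) * n2 I xb) := by
  have hb := xv_n2_nonneg I xb
  have h1 : n2 I xd ≤ bd := (xv_n2_le_iff I xd hbd).2 hd
  have h2 : Real.sqrt (∑ p, n2 I (xc p) ^ 2) ≤ bc := by
    rw [Real.sqrt_le_left hbc] 
    have e1 : ∑ p, ‖restr I.set (xc p)‖ ^ 2 = (∑ p, n2 I (xc p) ^ 2) * I.len := by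
      rw [Finset.sum_mul]
      exact Finset.sum_congr rfl fun p _ => xv_normsq_restr_eq I (xc p)
    rw [e1] at hc
    exact le_of_mul_le_mul_right hc (cell_len_pos I)
  have hs : 0 ≤ Real.sqrt (∑ p, n2 I (xa p) ^ 2) := Real.sqrt_nonneg _
  have hs' : 0 ≤ Real.sqrt (∑ p, n2 I (xc p) ^ 2) := Real.sqrt_nonneg _
  have hd0 := xv_n2_nonneg I xd
  refine (nb2_band_bound hCw0 I w hCw e xa xb xc xd).trans ?_
  calc Cw * (Real.sqrt (∑ p, n2 I (xa p) ^ 2) * n2 I xb * Real.sqrt (∑ p, n2 I (xc p) ^ 2) * n2 I xd)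
      = Cw * (Real.sqrt (∑ p, n2 I (xa p) ^ 2) * n2 I xb) * (Real.sqrt (∑ p, n2 I (xc p) ^ 2) * n2 I xd) := by ring
    _ ≤ Cw * (Real.sqrt (∑ p, n2 I (xa p) ^ 2) * n2 I xb) * (bc * bd) :=
        mul_le_mul_of_nonneg_left (mul_le_mul h2 h1 hd0 hbc) (mul_nonneg hCw0 (mul_nonneg hs hb))
    _ = _ := by ring

/-! ### physical components -/

theorem nb2_physFn_measurable (z : XV) : Measurable (physFn z) :=
  ((xv_continuous_coord 0).comp_stronglyMeasurable (Lp.stronglyMeasurable z)).measurable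

theorem nb2_physFn_integrableOn (z : XV) (E : Set ℝ) : IntegrableOn (fun y => ‖physFn z y‖ ^ 2) E := by
  have := (xv_physFn_memLp z).integrable_norm_rpow (by norm_num) (by norm_num)
  have h2 : Integrable (fun y => ‖physFn z y‖ ^ 2) volume := by simpa using this
  exact h2.integrableOn

theorem nb2_physFn_setIntegral_le (z : XV) {E : Set ℝ} (hE : MeasurableSet E) : ∫ y in E, ‖physFn z y‖ ^ 2 ≤ ‖restr E z‖ ^ 2 := by
  rw [xv_normsq_restr hE]
  refine integral_mono (nb2_physFn_integrableOn z E) (xv_integrable_normsq z).integrableOn fun y => ?_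
  exact pow_le_pow_left₀ (norm_nonneg _) (xv_physFn_norm_le z y) 2

theorem nb2_physFn_setIntegral_le' (z : XV) {E : Set ℝ} (hE : MeasurableSet E) : ∫ y in E, ‖physFn z y‖ ^ 2 ≤ ‖z‖ ^ 2 :=
  (nb2_physFn_setIntegral_le z hE).trans (pow_le_pow_left₀ (norm_nonneg _) (xv_norm_restr_le E z) 2)

end Claimed.Agent.R258
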