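/-
Row 258, block [S7-NB2], LEAF P-NB2-FRZ (architect helper82).  Adapter: `NearBandGoal` for ONE pair of configurations of fixed stacks.  No paper reading.

Given `Y : NearData γ` and fixed stacks `Xa G j i p`, `Xb G j i ()` with positions `sa G I, sb G I ≤ K`, apply `NearBandGoal` with
  `P  := Y.uses.image (fun u => (u.1, s7Blk Y.K Y.R u.2)) : Finset (ℕ × ℕ)`,   `ι := ↥P` (pairs `ν = (G, j)`),   `α = β := Fin (Y.K + 1)`,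
  `b ν := Y.R.depth + (j * K : ℕ)`,
  `U ν := (Y.uses.filter fun u => (u.1, s7Blk Y.K Y.R u.2) = ν ∧ ¬ Y.flag cc u.1 u.2).image Prod.snd`      (the unflagged uses of `G` in the block `j`),
  `X ν i p := physFn (Xa G j i p)`,  `Y ν i := physFn (Xb G j i ())`,  `Cc ν p := physFn (Y.Cg G (j * K) p)`,  `Dd ν := physFn (Y.Dg G (j * K))`,
  `ia ν I := ⟨sa G I, _⟩`,  `ib ν I := ⟨sb G I, _⟩`,   `cc ↦ 2 * cc`.
Hypotheses of `NearBandGoal`: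
 * cells of `U ν`: `hle`, `nb2_blk_window`, `hwin`, `hadm`;                      * measurability / integrability: `nb2_physFn_measurable`, `nb2_physFn_integrableOn`;
 * energies: `nb2_physFn_setIntegral_le'`; `∑_{ν : ↥P} f ν = ∑_{ν ∈ P} f ν` (`Finset.sum_coe_sort`), `P ⊆ grps ×ˢ B` with `B := P.image Prod.snd`,
   `Finset.sum_le_sum_of_subset_of_nonneg`, `Finset.sum_product`, `Fin.sum_univ_eq_sum_range` (positions), then `hEa` / `hEb`;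
 * multiplicity: `ν ↦ ν.1` is injective and maps `{ν | ∃ I ∈ U ν, y ∈ I.set}` into the image of `{u ∈ uses | y ∈ u.2.set}` under `u ↦ (u.1, s7Blk .. u.2)`; `Finset.card_image_le`, `hmult`;
 * hulls: `I ≤ J ≤ I'`, `I, I' ∈ U ν`: `nb2_between` gives `J = I.anc o`, `o ≤ s7Off`; `nb2_unflag_C`, `nb2_unflag_D` (`Y.bs I = j * K`), `nb2_physFn_setIntegral_le`.
Conclusion: `stops`; take `u := Y.t3 ..`, `v := 0` in `Ctrl` (`0 ^ pw = 0`, `Real.zero_rpow`).  Reindexing: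
  `∑_{I ∈ cells, retained} |I| t3(I) = ∑_{u ∈ uses} [retained u.2 ∧ ¬ flag u] |u.2| Φ(u)`  (`Finset.sum_filter`, `Finset.mul_sum`, `nb2_sum_usesAt`), and
  `∑_ν ∑_{I ∈ U ν, retained} |I| Ψ(ν, I)` is the same sum (`Finset.sum_image` : `Prod.snd` is injective on a fibre; `Finset.sum_fiberwise_of_maps_to`);
  `Φ = Ψ` by `nb2_place_phys`.
Fill the sorry IN PLACE; auxiliary lemmas with prefix `nb2z_`.
-/
import Claimed.Agent.R258.S7.Nb2Form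
import Claimed.Agent.R258.S7.Nb2Flag

set_option autoImplicit false
open MeasureTheory

namespace Claimed.Agent.R258

open Classical

section
variable {γ : Type} [Fintype γ] (Y : NearData γ)

/-- (group, block) of a use -/
def nb2zKey (u : ℕ × Cell) : ℕ × ℕ := (u.1, s7Blk Y.K Y.R u.2)

/-- the pairs (group, block) with a use -/
noncomputable def nb2zP : Finset (ℕ × ℕ) := Y.uses.image (nb2zKey Y)

/-- the unflagged uses of a pair (group, block) -/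
noncomputable def nb2zU (cc : ℝ) (ν : ℕ × ℕ) : Finset Cell :=
  (Y.uses.filter fun u => nb2zKey Y u = ν ∧ ¬ Y.flag cc u.1 u.2).image Prod.snd

theorem nb2z_mem_U {cc : ℝ} {ν : ℕ × ℕ} {I : Cell} :
    I ∈ nb2zU Y cc ν ↔ (ν.1, I) ∈ Y.uses ∧ s7Blk Y.K Y.R I = ν.2 ∧ ¬ Y.flag cc ν.1 I := by
  unfold nb2zU nb2zKey
  simp only [Finset.mem_image, Finset.mem_filter]
  constructor
  · rintro ⟨⟨G, I'⟩, ⟨hu, rfl, hf⟩, rfl⟩
    exact ⟨hu, rfl, hf⟩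
  · rintro ⟨hu, hb, hf⟩
    exact ⟨(ν.1, I), ⟨hu, Prod.ext rfl hb, hf⟩, rfl⟩

/-- reindexing of the sums over `(ν, I ∈ U ν)` -/
theorem nb2z_sum_U (cc : ℝ) (g : ℕ × ℕ → Cell → ℝ) :
    ∑ ν : ↥(nb2zP Y), ∑ I ∈ nb2zU Y cc ν.1, g ν.1 I
      = ∑ u ∈ Y.uses.filter (fun u => ¬ Y.flag cc u.1 u.2), g (nb2zKey Y u) u.2 := by
  rw [Finset.sum_coe_sort (nb2zP Y) (fun ν => ∑ I ∈ nb2zU Y cc ν, g ν I)]
  have hmaps : ∀ u ∈ Y.uses.filter (fun u => ¬ Y.flag cc u.1 u.2), nb2zKey Y u ∈ nb2zP Y := by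
    intro u hu
    exact Finset.mem_image_of_mem _ (Finset.mem_filter.1 hu).1
  rw [← Finset.sum_fiberwise_of_maps_to hmaps]
  refine Finset.sum_congr rfl fun ν _ => ?_
  unfold nb2zU
  rw [Finset.sum_image]
  · rw [Finset.filter_filter]
    refine Finset.sum_congr ?_ ?_
    · ext u
      simp only [Finset.mem_filter]
      tauto
    · intro u hu
      rw [(Finset.mem_filter.1 hu).2.2]
  · intro u hu v hv h
    have h1 := (Finset.mem_filter.1 hu).2.1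
    have h2 := (Finset.mem_filter.1 hv).2.1
    have h3 : u.1 = v.1 := by
      have := congrArg Prod.fst (h1.trans h2.symm)
      exact this
    exact Prod.ext h3 h

/-- reindexing of the sums over the cells -/
theorem nb2z_sum_cells (hu : ∀ u ∈ Y.uses, u.2 ∈ Y.cells) (cc : ℝ) (Q : Cell → Prop) (Φ : ℕ → Cell → ℝ) :
    ∑ I ∈ Y.cells.filter Q, I.len * ∑ G ∈ (usesAt Y.uses I).filter (fun G => ¬ Y.flag cc G I), Φ G I
      = ∑ u ∈ Y.uses.filter (fun u => ¬ Y.flag cc u.1 u.2), if Q u.2 then u.2.len * Φ u.1 u.2 else 0 := by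
  rw [Finset.sum_filter, Finset.sum_filter]
  rw [← nb2_sum_usesAt Y.uses Y.cells hu
    (fun G I => if ¬ Y.flag cc G I then (if Q I then I.len * Φ G I else 0) else 0)]
  refine Finset.sum_congr rfl fun I _ => ?_
  rw [Finset.sum_filter]
  by_cases hQ : Q I
  · simp only [hQ, if_true]
    rw [Finset.mul_sum]
    refine Finset.sum_congr rfl fun G _ => ?_
    split_ifs <;> simp
  · simp only [hQ, if_false]
    simp

omit [Fintype γ] in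
/-- energies -/
theorem nb2z_energy (hu : ∀ u ∈ Y.uses, u.1 ∈ Y.grps ∧ u.2 ∈ Y.cells) {γ' : Type} [Fintype γ'] (X : ℕ → ℕ → ℕ → γ' → XV) (E : ℝ)
    (hE : ∀ B : Finset ℕ, ∑ G ∈ Y.grps, ∑ j ∈ B, ∑ i ∈ Finset.range (Y.K + 1), ∑ p, ‖X G j i p‖ ^ 2 ≤ E * Y.R.len) :
    ∑ ν : ↥(nb2zP Y), ∑ i : Fin (Y.K + 1), ∑ p, ∫ y in Y.R.set, ‖physFn (X ν.1.1 ν.1.2 i p) y‖ ^ 2 ≤ E * Y.R.len := by
  have h1 : ∑ ν : ↥(nb2zP Y), ∑ i : Fin (Y.K + 1), ∑ p, ∫ y in Y.R.set, ‖physFn (X ν.1.1 ν.1.2 i p) y‖ ^ 2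
      ≤ ∑ ν : ↥(nb2zP Y), ∑ i : Fin (Y.K + 1), ∑ p, ‖X ν.1.1 ν.1.2 i p‖ ^ 2 :=
    Finset.sum_le_sum fun ν _ => Finset.sum_le_sum fun i _ => Finset.sum_le_sum fun p _ =>
      nb2_physFn_setIntegral_le' _ (cell_measurableSet _)
  refine h1.trans ?_
  have h2 : ∀ ν : ↥(nb2zP Y), ∑ i : Fin (Y.K + 1), ∑ p, ‖X ν.1.1 ν.1.2 i p‖ ^ 2
      = ∑ i ∈ Finset.range (Y.K + 1), ∑ p, ‖X ν.1.1 ν.1.2 i p‖ ^ 2 := fun ν =>
    Fin.sum_univ_eq_sum_range (fun i => ∑ p, ‖X ν.1.1 ν.1.2 i p‖ ^ 2) (Y.K + 1)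
  simp_rw [h2]
  rw [Finset.sum_coe_sort (nb2zP Y) (fun ν => ∑ i ∈ Finset.range (Y.K + 1), ∑ p, ‖X ν.1 ν.2 i p‖ ^ 2)]
  have hsub : nb2zP Y ⊆ Y.grps ×ˢ (nb2zP Y).image Prod.snd := by
    intro ν hν
    rw [Finset.mem_product]
    refine ⟨?_, Finset.mem_image_of_mem _ hν⟩
    obtain ⟨u, hu', rfl⟩ := Finset.mem_image.1 hν
    exact (hu u hu').1
  refine (Finset.sum_le_sum_of_subset_of_nonneg hsub fun ν _ _ => ?_).trans ?_
  · exact Finset.sum_nonneg fun i _ => Finset.sum_nonneg fun p _ => by positivity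
  · rw [Finset.sum_product]
    exact hE _

/-- multiplicity -/
theorem nb2z_mult (cc M0 : ℝ) (hmult : ∀ y : ℝ, ((Y.uses.filter fun u => y ∈ u.2.set).card : ℝ) ≤ M0) (y : ℝ) :
    (((Finset.univ : Finset ↥(nb2zP Y)).filter fun ν => ∃ I ∈ nb2zU Y cc ν.1, y ∈ I.set).card : ℝ) ≤ M0 := by
  refine le_trans ?_ (hmult y)
  rw [Nat.cast_le]
  rw [← Finset.card_image_of_injective _ Subtype.val_injective]
  refine le_trans (Finset.card_le_card ?_) (Finset.card_image_le (f := nb2zKey Y))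
  intro ν hν
  obtain ⟨ν', hν', rfl⟩ := Finset.mem_image.1 hν
  obtain ⟨I, hI, hy⟩ := (Finset.mem_filter.1 hν').2
  obtain ⟨hu, hb, -⟩ := (nb2z_mem_U Y).1 hI
  refine Finset.mem_image.2 ⟨(ν'.1.1, I), Finset.mem_filter.2 ⟨hu, hy⟩, ?_⟩
  exact Prod.ext rfl hb

/-- hull cells -/
theorem nb2z_hull (hle : ∀ I ∈ Y.cells, I ≤ Y.R) (hu : ∀ u ∈ Y.uses, u.1 ∈ Y.grps ∧ u.2 ∈ Y.cells) (cc : ℝ) (ν : ℕ × ℕ) (J : Cell)
    (h1 : ∃ I ∈ nb2zU Y cc ν, I ≤ J) (h2 : ∃ I' ∈ nb2zU Y cc ν, J ≤ I') :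
    ∑ p, ∫ y in J.set, ‖physFn (Y.Cg ν.1 (ν.2 * Y.K) p) y‖ ^ 2 ≤ (2 * cc) ^ 2 * J.len ∧
      ∫ y in J.set, ‖physFn (Y.Dg ν.1 (ν.2 * Y.K)) y‖ ^ 2 ≤ (2 * cc) ^ 2 * J.len := by
  obtain ⟨I, hI, hIJ⟩ := h1
  obtain ⟨I', hI', hJI'⟩ := h2
  obtain ⟨huI, hbI, hfI⟩ := (nb2z_mem_U Y).1 hI
  obtain ⟨huI', hbI', -⟩ := (nb2z_mem_U Y).1 hI'
  have hIR : I ≤ Y.R := hle _ (hu _ huI).2
  have hI'R : I' ≤ Y.R := hle _ (hu _ huI').2
  obtain ⟨o, ho, rfl⟩ := nb2_between (K := Y.K) hIR hI'R (hbI'.trans hbI.symm) hIJ hJI'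
  have hbs : Y.bs I = ν.2 * Y.K := by
    unfold NearData.bs
    rw [hbI]
  have hC := nb2_unflag_C Y hfI ho
  have hD := nb2_unflag_D Y hfI ho
  rw [hbs] at hC hD
  constructor
  · refine le_trans (Finset.sum_le_sum fun p _ => ?_) hC
    exact nb2_physFn_setIntegral_le _ (cell_measurableSet _)
  · exact (nb2_physFn_setIntegral_le _ (cell_measurableSet _)).trans hD

end

/-- (iii) for one pair of configurations -/
theorem nb2_ctrl_t3 (c0 C0 : ℝ) (hNB : NearBandGoal c0 C0) :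
    ∃ C : ℝ, 0 < C ∧ ∀ q : ℝ, 2 < q → q < 3 → ∃ Cq : ℝ, 0 < Cq ∧
    ∀ (N : ℕ) (CN : ℝ) (s0 : ℤ), 0 ≤ CN → LocalBound c0 C0 q N CN →
    ∀ (γ : Type) [Fintype γ] (Y : NearData γ) (Ea Eb cc M0 : ℝ),
      1 ≤ Y.K → (∀ I ∈ Y.cells, I ≤ Y.R) → (∀ I ∈ Y.cells, Admissible c0 C0 I (Y.w I)) →
      (∀ u ∈ Y.uses, u.1 ∈ Y.grps ∧ u.2 ∈ Y.cells) →
      (∀ y : ℝ, ((Y.uses.filter fun u => y ∈ u.2.set).card : ℝ) ≤ M0) →
      0 ≤ cc → 0 ≤ Ea → 0 ≤ Eb → 1 ≤ M0 →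
      (∀ I ∈ Y.cells, s0 ≤ I.depth ∧ I.depth < s0 + N) →
    ∀ (Xa : ℕ → ℕ → ℕ → γ → XV) (sa : ℕ → Cell → ℕ) (Xb : ℕ → ℕ → ℕ → Unit → XV) (sb : ℕ → Cell → ℕ),
      (∀ G I, sa G I ≤ Y.K) → (∀ G I, sb G I ≤ Y.K) →
      (∀ B : Finset ℕ, ∑ G ∈ Y.grps, ∑ j ∈ B, ∑ i ∈ Finset.range (Y.K + 1), ∑ p, ‖Xa G j i p‖ ^ 2 ≤ Ea * Y.R.len) →
      (∀ B : Finset ℕ, ∑ G ∈ Y.grps, ∑ j ∈ B, ∑ i ∈ Finset.range (Y.K + 1), ∑ p, ‖Xb G j i p‖ ^ 2 ≤ Eb * Y.R.len) →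
    ∀ pw ε : ℝ, 0 < pw → 0 < ε → ε < 1 →
      Ctrl Y.R Y.cells (Y.t3 cc Xa sa Xb sb) (nbBound C Cq q CN Y.K Ea Eb (2 * cc) M0 ε) 0 pw ε := by
  obtain ⟨C, hC, H⟩ := hNB
  refine ⟨C, hC, fun q hq2 hq3 => ?_⟩
  obtain ⟨Cq, hCq, H2⟩ := H q hq2 hq3
  refine ⟨Cq, hCq, ?_⟩
  intro N CN s0 hCN hLB γ _ Y Ea Eb cc M0 hK hle hadm hu hmult hcc hEa hEb hM0 hwin Xa sa Xb sb hsa hsb hEA hEB pw ε hpw hε hε1
  have hEB' : ∑ ν : ↥(nb2zP Y), ∑ j : Fin (Y.K + 1), ∫ y in Y.R.set, ‖physFn (Xb ν.1.1 ν.1.2 j ()) y‖ ^ 2 ≤ Eb * Y.R.len := by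
    have := nb2z_energy Y hu Xb Eb hEB
    simpa using this
  obtain ⟨stops, hst, hsum⟩ := H2 N CN s0 hCN hLB Y.R Y.K Y.w Y.e ↥(nb2zP Y) (Fin (Y.K + 1)) (Fin (Y.K + 1)) γ
    (fun ν => Y.R.depth + ((ν.1.2 * Y.K : ℕ) : ℤ)) (fun ν => nb2zU Y cc ν.1)
    (fun ν i p => physFn (Xa ν.1.1 ν.1.2 i p)) (fun ν j => physFn (Xb ν.1.1 ν.1.2 j ()))
    (fun ν p => physFn (Y.Cg ν.1.1 (ν.1.2 * Y.K) p)) (fun ν => physFn (Y.Dg ν.1.1 (ν.1.2 * Y.K)))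
    (fun ν I => ⟨sa ν.1.1 I, Nat.lt_succ_of_le (hsa _ _)⟩) (fun ν I => ⟨sb ν.1.1 I, Nat.lt_succ_of_le (hsb _ _)⟩)
    Ea Eb M0 (2 * cc)
    (by
      intro ν I hI
      obtain ⟨huI, hbI, -⟩ := (nb2z_mem_U Y).1 hI
      have hIc : I ∈ Y.cells := (hu _ huI).2
      have hw := nb2_blk_window hK (hle I hIc)
      rw [hbI] at hw
      exact ⟨hle I hIc, hw.1, hw.2, (hwin I hIc).1, (hwin I hIc).2, hadm I hIc⟩)
    (fun _ _ _ => nb2_physFn_measurable _) (fun _ _ => nb2_physFn_measurable _) (fun _ _ => nb2_physFn_measurable _)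
    (fun _ => nb2_physFn_measurable _)
    (fun _ _ _ => nb2_physFn_integrableOn _ _) (fun _ _ => nb2_physFn_integrableOn _ _) (fun _ _ => nb2_physFn_integrableOn _ _)
    (fun _ => nb2_physFn_integrableOn _ _)
    hEa hEb hM0 (by positivity)
    (nb2z_energy Y hu Xa Ea hEA) hEB'
    (fun y _ => nb2z_mult Y cc M0 hmult y)
    (fun ν J h1 h2 => nb2z_hull Y hle hu cc ν.1 J h1 h2)
    ε hε hε1
  refine ⟨stops, Y.t3 cc Xa sa Xb sb, fun _ => 0, hst, ?_, fun _ => le_rfl, ?_, ?_, ?_⟩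
  · intro I
    exact Finset.sum_nonneg fun _ _ => norm_nonneg _
  · intro I _ _
    rw [add_zero]
  · refine le_trans (le_of_eq ?_) hsum
    unfold NearData.t3
    refine (nb2z_sum_cells Y (fun u hu' => (hu u hu').2) cc (Retained stops) _).trans ?_
    refine Eq.trans ?_ (Finset.sum_congr rfl fun ν _ => (Finset.sum_filter _ _).symm)
    refine Eq.trans ?_ (nb2z_sum_U Y cc (fun ν I => if Retained stops I then I.len *
      ‖∑ p, form I (Y.w I) (placeArgs Y.e (physFn (Xa ν.1 ν.2 (sa ν.1 I) p)) (physFn (Xb ν.1 ν.2 (sb ν.1 I) ()))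
        (physFn (Y.Cg ν.1 (ν.2 * Y.K) p)) (physFn (Y.Dg ν.1 (ν.2 * Y.K))))‖ else 0)).symm
    refine Finset.sum_congr rfl fun u _ => ?_
    simp only [nb2_place_phys, nb2zKey, NearData.bs]
  · simp [Real.zero_rpow hpw.ne']

end Claimed.Agent.R258

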