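/-
Row 258, block [S7-NB2], LEAF P-NB2-POW (architect helper82).  The two powered parts: flagged uses and freeze errors.  No paper reading.

`sa(G,I) = √(∑_p n2 I (xa G I p)²)`, `sb(G,I) = n2 I (xb G I)`.
(1) budgets: `|I| aA(I)² = ∑_{G used at I} ∑_p ‖restr I (xa G I p)‖²` (`Real.sq_sqrt`, `xv_normsq_restr_eq`), `nb2_sum_usesAt`, `hY.szA`; same for `aB`.
(2) `nb2_sum_sides_le`: Cauchy-Schwarz in `G` (`Real.sum_mul_le_sqrt_mul_sqrt`, `Real.sq_sqrt`), then monotonicity `S ⊆ usesAt`.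
(3) `nb2_t1_le`: for `G` used at `I`: `certU R uses G I`, so `hY.curC`, `hY.curD` at `J = I` and `nb2_band_bound'` (`bc = bd = cc`) give `‖bsum‖ ≤ Cw cc cc sa sb`.
    If the filter is empty, `t1 = 0`; otherwise `fl = 1`.
(4) `nb2_t2_le`: `nb2_band_bound'` with `(bc, bd) = (cF I, cc)` (`hfrz` at `J = I`, `Y.bs I = s7Blk .. * K` by `rfl`; `hY.curD`) and with `(bc, bd) = (2 cc, cF I)`
    (`nb2_unflag_C` with `o = 0`, `I.anc 0 = I`: `cell_anc_zero` or `Cell.ext` + `simp [Cell.anc]`; `hfrz`).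
(5) `Ctrl.of_three` with `(A, B, C) = (aA, aB, fl)` resp. `(aA, aB, cF)`.
DONE (helper82).
-/
import Claimed.Agent.R258.S7.Nb2Form
import Claimed.Agent.R258.S7.Nb2Flag

set_option autoImplicit false
open MeasureTheory

namespace Claimed.Agent.R258

open Classical

variable {γ : Type} [Fintype γ] (Y : NearData γ)

theorem nb2_aA_nonneg (I : Cell) : 0 ≤ Y.aA I := Real.sqrt_nonneg _
omit [Fintype γ] in
theorem nb2_aB_nonneg (I : Cell) : 0 ≤ Y.aB I := Real.sqrt_nonneg _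

theorem nb2_aA_budget {c0 C0 : ℝ} {Na Nb : ℕ} {Ea Eb Sa Sb cc Ef M0 : ℝ} (hY : Y.Hyp c0 C0 Na Nb Ea Eb Sa Sb cc Ef M0) :
    ∑ I ∈ Y.cells, I.len * Y.aA I ^ 2 ≤ Sa * Y.R.len := by
  have h1 : ∀ I ∈ Y.cells, I.len * Y.aA I ^ 2 = ∑ G ∈ usesAt Y.uses I, ∑ p, ‖restr I.set (Y.xa G I p)‖ ^ 2 := by
    intro I _
    unfold NearData.aA
    rw [Real.sq_sqrt (Finset.sum_nonneg fun _ _ => Finset.sum_nonneg fun _ _ => by positivity), Finset.mul_sum]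
    refine Finset.sum_congr rfl fun G _ => ?_
    rw [Finset.mul_sum]
    refine Finset.sum_congr rfl fun p _ => ?_
    rw [xv_normsq_restr_eq, mul_comm]
  rw [Finset.sum_congr rfl h1, nb2_sum_usesAt Y.uses Y.cells (fun u hu => (hY.uses_sub u hu).2)
    (fun G I => ∑ p, ‖restr I.set (Y.xa G I p)‖ ^ 2)]
  exact hY.szA

theorem nb2_aB_budget {c0 C0 : ℝ} {Na Nb : ℕ} {Ea Eb Sa Sb cc Ef M0 : ℝ} (hY : Y.Hyp c0 C0 Na Nb Ea Eb Sa Sb cc Ef M0) :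
    ∑ I ∈ Y.cells, I.len * Y.aB I ^ 2 ≤ Sb * Y.R.len := by
  have h1 : ∀ I ∈ Y.cells, I.len * Y.aB I ^ 2 = ∑ G ∈ usesAt Y.uses I, ‖restr I.set (Y.xb G I)‖ ^ 2 := by
    intro I _
    unfold NearData.aB
    rw [Real.sq_sqrt (Finset.sum_nonneg fun _ _ => by positivity), Finset.mul_sum]
    refine Finset.sum_congr rfl fun G _ => ?_
    rw [xv_normsq_restr_eq, mul_comm]
  rw [Finset.sum_congr rfl h1, nb2_sum_usesAt Y.uses Y.cells (fun u hu => (hY.uses_sub u hu).2)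
    (fun G I => ‖restr I.set (Y.xb G I)‖ ^ 2)]
  exact hY.szB

/-- Cauchy-Schwarz in the group index -/
theorem nb2_sum_sides_le (I : Cell) (S : Finset ℕ) (hS : S ⊆ usesAt Y.uses I) :
    ∑ G ∈ S, Real.sqrt (∑ p, n2 I (Y.xa G I p) ^ 2) * n2 I (Y.xb G I) ≤ Y.aA I * Y.aB I := by
  refine (Real.sum_mul_le_sqrt_mul_sqrt S _ _).trans ?_
  have e : ∀ G, Real.sqrt (∑ p, n2 I (Y.xa G I p) ^ 2) ^ 2 = ∑ p, n2 I (Y.xa G I p) ^ 2 := fun G =>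
    Real.sq_sqrt (Finset.sum_nonneg fun _ _ => by positivity)
  simp_rw [e]
  unfold NearData.aA NearData.aB
  refine mul_le_mul (Real.sqrt_le_sqrt ?_) (Real.sqrt_le_sqrt ?_) (Real.sqrt_nonneg _) (Real.sqrt_nonneg _)
  · exact Finset.sum_le_sum_of_subset_of_nonneg hS fun _ _ _ => Finset.sum_nonneg fun _ _ => by positivity
  · exact Finset.sum_le_sum_of_subset_of_nonneg hS fun _ _ _ => by positivity

theorem nb2_t1_le {c0 C0 : ℝ} {Na Nb : ℕ} {Ea Eb Sa Sb cc Ef M0 : ℝ} (hY : Y.Hyp c0 C0 Na Nb Ea Eb Sa Sb cc Ef M0)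
    {Cw : ℝ} (hCw0 : 0 ≤ Cw)
    (hCw : ∀ (I : Cell) (w : ℝ × ℝ → ℂ), Admissible c0 C0 I w → ∀ z : Fin 4 → XV, ‖formV I w z‖ ≤ Cw * ∏ l, n2 I (z l))
    (I : Cell) (hI : I ∈ Y.cells) :
    Y.t1 cc I ≤ Cw * cc ^ 2 * (Y.aA I * Y.aB I * Y.fl cc I) := by
  have hcc : 0 < cc := hY.pos.1
  have hIR := hY.cells_le I hI
  by_cases h : ∃ G ∈ usesAt Y.uses I, Y.flag cc G I
  · have hfl : Y.fl cc I = 1 := by
      unfold NearData.fl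
      rw [if_pos h]
    rw [hfl, mul_one]
    unfold NearData.t1
    calc ∑ G ∈ (usesAt Y.uses I).filter (fun G => Y.flag cc G I),
          ‖Y.bsum G I (Y.Cg G (s7Rel Y.R I)) (Y.Dg G (s7Rel Y.R I))‖
        ≤ ∑ G ∈ (usesAt Y.uses I).filter (fun G => Y.flag cc G I),
          Cw * cc * cc * (Real.sqrt (∑ p, n2 I (Y.xa G I p) ^ 2) * n2 I (Y.xb G I)) := by
          refine Finset.sum_le_sum fun G hG => ?_
          have hu : (G, I) ∈ Y.uses := nb2_mem_usesAt.1 (Finset.mem_filter.1 hG).1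
          have hcert : certU Y.R Y.uses G I := ⟨hIR, (G, I), hu, rfl, le_rfl⟩
          exact nb2_band_bound' hCw0 I (Y.w I) (hCw I _ (hY.adm I hI)) Y.e _ _ _ _ hcc.le hcc.le
            (hY.curC G I hcert) (hY.curD G I hcert)
      _ = Cw * cc ^ 2 * ∑ G ∈ (usesAt Y.uses I).filter (fun G => Y.flag cc G I),
          Real.sqrt (∑ p, n2 I (Y.xa G I p) ^ 2) * n2 I (Y.xb G I) := by
          rw [Finset.mul_sum]
          refine Finset.sum_congr rfl fun G _ => ?_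
          ring
      _ ≤ _ := mul_le_mul_of_nonneg_left (nb2_sum_sides_le Y I _ (Finset.filter_subset _ _)) (by positivity)
  · have hfl : Y.fl cc I = 0 := by
      unfold NearData.fl
      rw [if_neg h]
    have hemp : (usesAt Y.uses I).filter (fun G => Y.flag cc G I) = ∅ := by
      rw [Finset.filter_eq_empty_iff]
      intro G hG hf
      exact h ⟨G, hG, hf⟩
    unfold NearData.t1
    rw [hemp, hfl]
    simp

theorem nb2_t2_le {c0 C0 : ℝ} {Na Nb : ℕ} {Ea Eb Sa Sb cc Ef M0 : ℝ} (hY : Y.Hyp c0 C0 Na Nb Ea Eb Sa Sb cc Ef M0)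
    {Cw : ℝ} (hCw0 : 0 ≤ Cw)
    (hCw : ∀ (I : Cell) (w : ℝ × ℝ → ℂ), Admissible c0 C0 I w → ∀ z : Fin 4 → XV, ‖formV I w z‖ ≤ Cw * ∏ l, n2 I (z l))
    (cF : Cell → ℝ) (hcF0 : ∀ J, 0 ≤ cF J)
    (hfrz : ∀ G J, certU Y.R Y.uses G J →
      ∑ p, ‖restr J.set (Y.Cg G (s7Rel Y.R J) p - Y.Cg G (s7Blk Y.K Y.R J * Y.K) p)‖ ^ 2 ≤ cF J ^ 2 * J.len ∧
      ‖restr J.set (Y.Dg G (s7Rel Y.R J) - Y.Dg G (s7Blk Y.K Y.R J * Y.K))‖ ^ 2 ≤ cF J ^ 2 * J.len)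
    (I : Cell) (hI : I ∈ Y.cells) :
    Y.t2 cc I ≤ 3 * Cw * cc * (Y.aA I * Y.aB I * cF I) := by
  have hcc : 0 < cc := hY.pos.1
  have hIR := hY.cells_le I hI
  unfold NearData.t2
  calc ∑ G ∈ (usesAt Y.uses I).filter (fun G => ¬ Y.flag cc G I),
        (‖Y.bsum G I (fun p => Y.Cg G (s7Rel Y.R I) p - Y.Cg G (Y.bs I) p) (Y.Dg G (s7Rel Y.R I))‖ +
          ‖Y.bsum G I (Y.Cg G (Y.bs I)) (Y.Dg G (s7Rel Y.R I) - Y.Dg G (Y.bs I))‖)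
      ≤ ∑ G ∈ (usesAt Y.uses I).filter (fun G => ¬ Y.flag cc G I),
        (Cw * cF I * cc * (Real.sqrt (∑ p, n2 I (Y.xa G I p) ^ 2) * n2 I (Y.xb G I)) +
          Cw * (2 * cc) * cF I * (Real.sqrt (∑ p, n2 I (Y.xa G I p) ^ 2) * n2 I (Y.xb G I))) := by
        refine Finset.sum_le_sum fun G hG => ?_
        obtain ⟨hG1, hnf⟩ := Finset.mem_filter.1 hG
        have hu : (G, I) ∈ Y.uses := nb2_mem_usesAt.1 hG1
        have hcert : certU Y.R Y.uses G I := ⟨hIR, (G, I), hu, rfl, le_rfl⟩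
        obtain ⟨hfC, hfD⟩ := hfrz G I hcert
        have hC0 := nb2_unflag_C Y hnf (Nat.zero_le _)
        rw [cell_anc_zero] at hC0
        refine add_le_add ?_ ?_
        · exact nb2_band_bound' hCw0 I (Y.w I) (hCw I _ (hY.adm I hI)) Y.e _ _ _ _ (hcF0 I) hcc.le hfC (hY.curD G I hcert)
        · exact nb2_band_bound' hCw0 I (Y.w I) (hCw I _ (hY.adm I hI)) Y.e _ _ _ _ (by positivity) (hcF0 I) hC0 hfD
    _ = 3 * Cw * cc * cF I * ∑ G ∈ (usesAt Y.uses I).filter (fun G => ¬ Y.flag cc G I),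
        Real.sqrt (∑ p, n2 I (Y.xa G I p) ^ 2) * n2 I (Y.xb G I) := by
        rw [Finset.mul_sum]
        refine Finset.sum_congr rfl fun G _ => ?_
        ring
    _ ≤ 3 * Cw * cc * cF I * (Y.aA I * Y.aB I) :=
        mul_le_mul_of_nonneg_left (nb2_sum_sides_le Y I _ (Finset.filter_subset _ _))
          (mul_nonneg (by positivity) (hcF0 I))
    _ = _ := by ring

/-- (i) -/
theorem nb2_ctrl_t1 (hPW : PowerGoal) {c0 C0 : ℝ} {Na Nb : ℕ} {Ea Eb Sa Sb cc Ef M0 : ℝ}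
    (hY : Y.Hyp c0 C0 Na Nb Ea Eb Sa Sb cc Ef M0) {Cw : ℝ} (hCw0 : 0 ≤ Cw)
    (hCw : ∀ (I : Cell) (w : ℝ × ℝ → ℂ), Admissible c0 C0 I w → ∀ z : Fin 4 → XV, ‖formV I w z‖ ≤ Cw * ∏ l, n2 I (z l))
    {pw ε : ℝ} (hp : 2 / 3 ≤ pw) (hp1 : pw ≤ 1) (hε : 0 < ε) (hε1 : ε < 1) :
    Ctrl Y.R Y.cells (Y.t1 cc) 0 ((Cw * cc ^ 2) ^ pw * (27 * Sa * Sb * (Y.K * Ef / cc ^ 2) / ε ^ 3) ^ (pw / 2)) pw ε := by
  obtain ⟨hcc, hEa, hEb, hSa, hSb, hEf, hM0⟩ := hY.pos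
  exact Ctrl.of_three hPW hY.cells_le (nb2_aA_nonneg Y) (nb2_aB_nonneg Y) (nb2_fl_nonneg Y cc) hSa hSb (by positivity)
    (by positivity) (nb2_t1_le Y hY hCw0 hCw) (nb2_aA_budget Y hY) (nb2_aB_budget Y hY) (nb2_fl_budget Y hY) hp hp1 hε hε1

/-- (ii) -/
theorem nb2_ctrl_t2 (hPW : PowerGoal) {c0 C0 : ℝ} {Na Nb : ℕ} {Ea Eb Sa Sb cc Ef M0 : ℝ}
    (hY : Y.Hyp c0 C0 Na Nb Ea Eb Sa Sb cc Ef M0) {Cw : ℝ} (hCw0 : 0 ≤ Cw)
    (hCw : ∀ (I : Cell) (w : ℝ × ℝ → ℂ), Admissible c0 C0 I w → ∀ z : Fin 4 → XV, ‖formV I w z‖ ≤ Cw * ∏ l, n2 I (z l))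
    {pw ε : ℝ} (hp : 2 / 3 ≤ pw) (hp1 : pw ≤ 1) (hε : 0 < ε) (hε1 : ε < 1) :
    Ctrl Y.R Y.cells (Y.t2 cc) 0 ((3 * Cw * cc) ^ pw * (27 * Sa * Sb * Ef / ε ^ 3) ^ (pw / 2)) pw ε := by
  obtain ⟨hcc, hEa, hEb, hSa, hSb, hEf, hM0⟩ := hY.pos
  obtain ⟨cF, hcF0, hbud, hfrz⟩ := hY.frz
  exact Ctrl.of_three hPW hY.cells_le (nb2_aA_nonneg Y) (nb2_aB_nonneg Y) hcF0 hSa hSb hEf
    (by positivity) (nb2_t2_le Y hY hCw0 hCw cF hcF0 hfrz) (nb2_aA_budget Y hY) (nb2_aB_budget Y hY)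
    (hbud Y.cells hY.cells_le) hp hp1 hε hε1

end Claimed.Agent.R258
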