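/-
Row 258, block [S7-NB2] (architect+prover helper82).  GLUE: `nearGoal_of : NearBandGoal c0 C0 → PowerGoal → NearGoal c0 C0`.

`‖Y.term I‖ ≤ t1 + t2 + ∑_{ca, cb} t3`  (`nb2_term_le`), then `Ctrl.sum`:
  stops:  `ε/4` (flagged uses) `+ ε/4` (freeze errors) `+ #pairs * ε / (2 Na Nb)`;
  absolute part: `#pairs * nbBound C Cq q CN K Ea Eb (2 cc) M0 (ε / (2 Na Nb)) ≤ nearAbs C (8 Cq) ..`;
  powered part: `(Cw cc²)^pw (1728 Sa Sb (K Ef / cc²) / ε³)^(pw/2) + (3 Cw cc)^pw (1728 Sa Sb Ef / ε³)^(pw/2) ≤ nearPow ..`.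
-/
import Claimed.Agent.R258.S7.Nb2Pow
import Claimed.Agent.R258.S7.Nb2Frz

set_option autoImplicit false
open MeasureTheory

namespace Claimed.Agent.R258

open Classical

section
variable {γ : Type} [Fintype γ] (Y : NearData γ)

/-- freezing the two complements -/
theorem nb2_bsum_split {c0 C0 : ℝ} (hc0 : 0 < c0) (G : ℕ) (I : Cell) (hadm : Admissible c0 C0 I (Y.w I)) (C C' : γ → XV) (D D' : XV) :
    Y.bsum G I C D = Y.bsum G I C' D' + (Y.bsum G I (fun p => C p - C' p) D + Y.bsum G I C' (D - D')) := by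
  unfold NearData.bsum
  rw [← Finset.sum_add_distrib, ← Finset.sum_add_distrib]
  refine Finset.sum_congr rfl fun p _ => ?_
  have e1 : C p = C' p + (C p - C' p) := by abel
  have e2 : D = D' + (D - D') := by abel
  calc formV I (Y.w I) (placeV Y.e (Y.xa G I p) (Y.xb G I) (C p) D)
      = formV I (Y.w I) (placeV Y.e (Y.xa G I p) (Y.xb G I) (C' p + (C p - C' p)) D) := by rw [← e1]
    _ = formV I (Y.w I) (placeV Y.e (Y.xa G I p) (Y.xb G I) (C' p) D)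
          + formV I (Y.w I) (placeV Y.e (Y.xa G I p) (Y.xb G I) (C p - C' p) D) :=
        nb2_place_add_c c0 C0 hc0 I _ hadm _ _ _ _ _ _
    _ = formV I (Y.w I) (placeV Y.e (Y.xa G I p) (Y.xb G I) (C' p) (D' + (D - D')))
          + formV I (Y.w I) (placeV Y.e (Y.xa G I p) (Y.xb G I) (C p - C' p) D) := by rw [← e2]
    _ = _ := by
        rw [nb2_place_add_d c0 C0 hc0 I _ hadm]
        ring

/-- insertion of the two stack decompositions -/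
theorem nb2_bsum_stacks {c0 C0 : ℝ} (hc0 : 0 < c0) (G : ℕ) (I : Cell) (hadm : Admissible c0 C0 I (Y.w I))
    {𝒞a 𝒞b : Type} [Fintype 𝒞a] [Fintype 𝒞b] (Xa : 𝒞a → γ → XV) (Xb : 𝒞b → XV)
    (ha : ∀ p, restr I.set (Y.xa G I p) = ∑ c, restr I.set (Xa c p)) (hb : restr I.set (Y.xb G I) = ∑ c, restr I.set (Xb c))
    (C : γ → XV) (D : XV) :
    Y.bsum G I C D = ∑ ca, ∑ cb, ∑ p, formV I (Y.w I) (placeV Y.e (Xa ca p) (Xb cb) (C p) D) := by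
  unfold NearData.bsum
  have h1 : ∀ p, formV I (Y.w I) (placeV Y.e (Y.xa G I p) (Y.xb G I) (C p) D)
      = ∑ ca, ∑ cb, formV I (Y.w I) (placeV Y.e (Xa ca p) (Xb cb) (C p) D) := by
    intro p
    rw [nb2_place_congr_ab c0 C0 hc0 I _ hadm Y.e (Y.xa G I p) (∑ c, Xa c p) (Y.xb G I) (∑ c, Xb c) (C p) D
      (by rw [ha, map_sum]) (by rw [hb, map_sum])]
    rw [nb2_place_sum_a c0 C0 hc0 I _ hadm]
    refine Finset.sum_congr rfl fun ca _ => ?_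
    rw [nb2_place_sum_b c0 C0 hc0 I _ hadm]
  simp_rw [h1]
  rw [Finset.sum_comm]
  refine Finset.sum_congr rfl fun ca _ => ?_
  rw [Finset.sum_comm]

/-- the decomposition of the near-band term -/
theorem nb2_term_le {c0 C0 : ℝ} (hc0 : 0 < c0) (cc : ℝ) (I : Cell) (hadm : Admissible c0 C0 I (Y.w I))
    {𝒞a 𝒞b : Type} [Fintype 𝒞a] [Fintype 𝒞b]
    (Xa : 𝒞a → ℕ → ℕ → ℕ → γ → XV) (sa : 𝒞a → ℕ → Cell → ℕ) (Xb : 𝒞b → ℕ → ℕ → ℕ → Unit → XV) (sb : 𝒞b → ℕ → Cell → ℕ)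
    (ha : ∀ u ∈ Y.uses, ∀ p, restr u.2.set (Y.xa u.1 u.2 p)
        = ∑ c, restr u.2.set (Xa c u.1 (s7Blk Y.K Y.R u.2) (sa c u.1 u.2) p))
    (hb : ∀ u ∈ Y.uses, ∀ p : Unit, restr u.2.set (Y.xb u.1 u.2)
        = ∑ c, restr u.2.set (Xb c u.1 (s7Blk Y.K Y.R u.2) (sb c u.1 u.2) p)) :
    ‖Y.term I‖ ≤ Y.t1 cc I + Y.t2 cc I + ∑ c : 𝒞a × 𝒞b, Y.t3 cc (Xa c.1) (sa c.1) (Xb c.2) (sb c.2) I := by
  have e0 : Y.term I = ∑ G ∈ usesAt Y.uses I, Y.bsum G I (Y.Cg G (s7Rel Y.R I)) (Y.Dg G (s7Rel Y.R I)) := rfl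
  rw [e0, ← Finset.sum_filter_add_sum_filter_not (usesAt Y.uses I) (fun G => Y.flag cc G I), add_assoc]
  refine (norm_add_le _ _).trans (add_le_add (norm_sum_le _ _) ?_)
  refine (norm_sum_le _ _).trans ?_
  -- exchange the sum over the pairs with the sum over the groups
  have e3 : ∑ c : 𝒞a × 𝒞b, Y.t3 cc (Xa c.1) (sa c.1) (Xb c.2) (sb c.2) I
      = ∑ G ∈ (usesAt Y.uses I).filter (fun G => ¬ Y.flag cc G I), ∑ c : 𝒞a × 𝒞b,
        ‖∑ p, formV I (Y.w I) (placeV Y.e (Xa c.1 G (s7Blk Y.K Y.R I) (sa c.1 G I) p)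
          (Xb c.2 G (s7Blk Y.K Y.R I) (sb c.2 G I) ()) (Y.Cg G (Y.bs I) p) (Y.Dg G (Y.bs I)))‖ := by
    unfold NearData.t3
    rw [Finset.sum_comm]
  rw [e3]
  unfold NearData.t2
  rw [← Finset.sum_add_distrib]
  refine Finset.sum_le_sum fun G hG => ?_
  have hu : (G, I) ∈ Y.uses := nb2_mem_usesAt.1 (Finset.mem_filter.1 hG).1
  rw [nb2_bsum_split Y hc0 G I hadm (Y.Cg G (s7Rel Y.R I)) (Y.Cg G (Y.bs I)) (Y.Dg G (s7Rel Y.R I)) (Y.Dg G (Y.bs I))]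
  rw [add_comm]
  refine (norm_add_le _ _).trans (add_le_add (norm_add_le _ _) ?_)
  rw [nb2_bsum_stacks Y hc0 G I hadm (fun c p => Xa c G (s7Blk Y.K Y.R I) (sa c G I) p)
    (fun c => Xb c G (s7Blk Y.K Y.R I) (sb c G I) ()) (fun p => ha (G, I) hu p) (hb (G, I) hu ())]
  rw [Fintype.sum_prod_type]
  refine (norm_sum_le _ _).trans (Finset.sum_le_sum fun ca _ => ?_)
  exact norm_sum_le _ _

end

/-- sum of two controlled quantities -/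
theorem nb2_ctrl_add {R : Cell} {cells : Finset Cell} {t t' : Cell → ℝ} {X X' P P' p ε ε' : ℝ} (hp0 : 0 < p) (hp1 : p ≤ 1)
    (h : Ctrl R cells t X P p ε) (h' : Ctrl R cells t' X' P' p ε') :
    Ctrl R cells (fun I => t I + t' I) (X + X') (P + P') p (ε + ε') := by
  have := Ctrl.sum (R := R) (cells := cells) (Finset.univ : Finset Bool) (fun b => if b then t else t')
    (fun b => if b then X else X') (fun b => if b then P else P') (fun b => if b then ε else ε') p hp0 hp1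
    (by
      intro b _
      cases b
      · simpa using h'
      · simpa using h)
  simpa [Fintype.sum_bool] using this

/-- the absolute constants -/
theorem nb2_const_abs {C Cq q CN : ℝ} {K Na Nb n : ℕ} {Ea Eb cc M0 ε : ℝ} (hCq : 0 < Cq) (hCN : 0 ≤ CN) (hM0 : 1 ≤ M0)
    (hε : 0 < ε) (hn : n ≤ Na * Nb) :
    (n : ℝ) * nbBound C Cq q CN K Ea Eb (2 * cc) M0 (ε / (2 * Na * Nb)) ≤ nearAbs C (8 * Cq) q CN K Na Nb Ea Eb cc M0 ε := by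
  unfold nbBound nearAbs
  have hK0 : (0 : ℝ) ≤ K := Nat.cast_nonneg K
  have hlogK : 0 ≤ 1 + Real.log ((K : ℝ) + 2) := by
    have := Real.log_nonneg (show (1 : ℝ) ≤ (K : ℝ) + 2 by linarith)
    linarith
  obtain ⟨A, hA⟩ : ∃ A, A = (1 + Real.log ((K : ℝ) + 2)) ^ C := ⟨_, rfl⟩
  obtain ⟨B, hB⟩ : ∃ B, B = ((K : ℝ) + 2) ^ (C * (q - 2)) := ⟨_, rfl⟩
  have hA0 : 0 ≤ A := hA ▸ Real.rpow_nonneg hlogK _
  have hB0 : 0 ≤ B := hB ▸ Real.rpow_nonneg (by positivity) _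
  have e1 : M0 / (ε / (2 * Na * Nb)) = 2 * M0 * Na * Nb / ε := by
    rw [div_div_eq_mul_div]
    ring
  rw [e1, ← hA, ← hB]
  obtain ⟨L, hL⟩ : ∃ L, L = 1 + Real.log (2 + 2 * M0 * Na * Nb / ε) := ⟨_, rfl⟩
  have hL0 : 0 ≤ L := by
    have h1 : (0 : ℝ) ≤ 2 * M0 * Na * Nb / ε := by positivity
    have := Real.log_nonneg (show (1 : ℝ) ≤ 2 + 2 * M0 * Na * Nb / ε by linarith)
    rw [hL]
    linarith
  rw [← hL, div_div_eq_mul_div]
  have hn' : (n : ℝ) ≤ (Na : ℝ) * Nb := by exact_mod_cast hn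
  have hS0 : 0 ≤ Real.sqrt (Ea * Eb) := Real.sqrt_nonneg _
  have hX : 0 ≤ (1 + CN) * Cq * A * B * (2 * cc) ^ 2 * Real.sqrt (Ea * Eb) * (L * (2 * Na * Nb) / ε) := by positivity
  calc (n : ℝ) * ((1 + CN) * Cq * A * B * (2 * cc) ^ 2 * Real.sqrt (Ea * Eb) * (L * (2 * Na * Nb) / ε))
      ≤ ((Na : ℝ) * Nb) * ((1 + CN) * Cq * A * B * (2 * cc) ^ 2 * Real.sqrt (Ea * Eb) * (L * (2 * Na * Nb) / ε)) :=
        mul_le_mul_of_nonneg_right hn' hX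
    _ = _ := by ring

/-- the powered constants -/
theorem nb2_const_pow {Cw Sa Sb cc Ef pw ε : ℝ} {K : ℕ} (hK : 1 ≤ K) (hCw : 0 ≤ Cw) (hSa : 0 ≤ Sa) (hSb : 0 ≤ Sb) (hcc : 0 < cc)
    (hEf : 0 ≤ Ef) (hpw : 0 < pw) (hε : 0 < ε) :
    (Cw * cc ^ 2) ^ pw * (27 * Sa * Sb * (K * Ef / cc ^ 2) / (ε / 4) ^ 3) ^ (pw / 2)
      + (3 * Cw * cc) ^ pw * (27 * Sa * Sb * Ef / (ε / 4) ^ 3) ^ (pw / 2) ≤ nearPow Cw K Sa Sb cc Ef pw ε := by
  unfold nearPow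
  have hK1 : (1 : ℝ) ≤ K := by exact_mod_cast hK
  obtain ⟨X, hX⟩ : ∃ X, X = 1728 * Sa * Sb * K * Ef / ε ^ 3 := ⟨_, rfl⟩
  have hX0 : 0 ≤ X := by rw [hX]; positivity
  rw [← hX]
  have e1 : 27 * Sa * Sb * (K * Ef / cc ^ 2) / (ε / 4) ^ 3 = X / cc ^ 2 := by
    rw [hX]
    field_simp
    ring
  have e2 : (cc ^ 2) ^ (pw / 2) = cc ^ pw := by
    rw [← Real.rpow_natCast cc 2, ← Real.rpow_mul hcc.le]
    congr 1
    push_cast
    ring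
  have e3 : (Cw * cc ^ 2) ^ pw = (Cw * cc) ^ pw * cc ^ pw := by
    rw [← Real.mul_rpow (by positivity) hcc.le]
    congr 1
    ring
  have hccp : 0 < cc ^ pw := Real.rpow_pos_of_pos hcc _
  have h1 : (Cw * cc ^ 2) ^ pw * (27 * Sa * Sb * (K * Ef / cc ^ 2) / (ε / 4) ^ 3) ^ (pw / 2)
      = (Cw * cc) ^ pw * X ^ (pw / 2) := by
    rw [e1, Real.div_rpow hX0 (by positivity), e2, e3]
    field_simp
  have hXp : 0 ≤ X ^ (pw / 2) := Real.rpow_nonneg hX0 _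
  have h2 : (Cw * cc) ^ pw ≤ (3 * Cw * cc) ^ pw := by
    refine Real.rpow_le_rpow (by positivity) ?_ hpw.le
    have : 0 ≤ Cw * cc := by positivity
    nlinarith
  have h3 : (27 * Sa * Sb * Ef / (ε / 4) ^ 3) ^ (pw / 2) ≤ X ^ (pw / 2) := by
    refine Real.rpow_le_rpow (by positivity) ?_ (by positivity)
    have e4 : 27 * Sa * Sb * Ef / (ε / 4) ^ 3 = 1728 * Sa * Sb * 1 * Ef / ε ^ 3 := by
      field_simp
      ring
    rw [e4, hX]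
    gcongr
  have h4 : 0 ≤ (3 * Cw * cc) ^ pw := Real.rpow_nonneg (by positivity) _
  rw [h1]
  calc (Cw * cc) ^ pw * X ^ (pw / 2) + (3 * Cw * cc) ^ pw * (27 * Sa * Sb * Ef / (ε / 4) ^ 3) ^ (pw / 2)
      ≤ (3 * Cw * cc) ^ pw * X ^ (pw / 2) + (3 * Cw * cc) ^ pw * X ^ (pw / 2) :=
        add_le_add (mul_le_mul_of_nonneg_right h2 hXp) (mul_le_mul_of_nonneg_left h3 h4)
    _ = _ := by ring

/-- **[S7-NB2]** -/
theorem nearGoal_of (c0 C0 : ℝ) (hc0 : 0 < c0) (hC0 : 1 ≤ C0) (hNB : NearBandGoal c0 C0) (hPW : PowerGoal) : NearGoal c0 C0 := by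
  obtain ⟨C, hC, H⟩ := nb2_ctrl_t3 c0 C0 hNB
  refine ⟨C, hC, fun q hq2 hq3 => ?_⟩
  obtain ⟨Cq, hCq, H2⟩ := H q hq2 hq3
  refine ⟨8 * Cq, by positivity, ?_⟩
  intro N CN s0 hCN hLB Cw hCw0 hCw γ _ Y Na Nb Ea Eb Sa Sb cc Ef M0 hY hwin pw ε hp hp1 hε hε1
  obtain ⟨hcc, hEa, hEb, hSa, hSb, hEf, hM0⟩ := hY.pos
  have hpw0 : 0 < pw := by linarith
  obtain ⟨𝒞a, _, Xa, sa, hcardA, hsa, hdecA, hEA⟩ := hY.stA
  obtain ⟨𝒞b, _, Xb, sb, hcardB, hsb, hdecB, hEB⟩ := hY.stB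
  have h1 := nb2_ctrl_t1 Y hPW hY hCw0 hCw hp hp1 (ε := ε / 4) (by linarith) (by linarith)
  have h2 := nb2_ctrl_t2 Y hPW hY hCw0 hCw hp hp1 (ε := ε / 4) (by linarith) (by linarith)
  have hcard : Fintype.card (𝒞a × 𝒞b) ≤ Na * Nb := by
    rw [Fintype.card_prod]
    exact Nat.mul_le_mul hcardA hcardB
  have h3 : ∀ c ∈ (Finset.univ : Finset (𝒞a × 𝒞b)),
      Ctrl Y.R Y.cells (Y.t3 cc (Xa c.1) (sa c.1) (Xb c.2) (sb c.2))
        (nbBound C Cq q CN Y.K Ea Eb (2 * cc) M0 (ε / (2 * Na * Nb))) 0 pw (ε / (2 * Na * Nb)) := by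
    intro c _
    have hpos : 1 ≤ Na * Nb := le_trans (Fintype.card_pos_iff.2 ⟨c⟩) hcard
    have hpos' : (1 : ℝ) ≤ (Na : ℝ) * Nb := by exact_mod_cast hpos
    have hden : (1 : ℝ) ≤ 2 * Na * Nb := by nlinarith
    refine H2 N CN s0 hCN hLB γ Y Ea Eb cc M0 hY.K_pos hY.cells_le hY.adm hY.uses_sub hY.mult hcc.le hEa hEb hM0 hwin
      (Xa c.1) (sa c.1) (Xb c.2) (sb c.2) (hsa c.1) (hsb c.2) (hEA c.1) (hEB c.2) pw _ hpw0 (by positivity) ?_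
    rw [div_lt_one (by linarith)]
    linarith
  have h4 := Ctrl.sum (Finset.univ : Finset (𝒞a × 𝒞b)) (fun c => Y.t3 cc (Xa c.1) (sa c.1) (Xb c.2) (sb c.2))
    (fun _ => nbBound C Cq q CN Y.K Ea Eb (2 * cc) M0 (ε / (2 * Na * Nb))) (fun _ => 0) (fun _ => ε / (2 * Na * Nb)) pw hpw0 hp1 h3
  have h5 := nb2_ctrl_add hpw0 hp1 (nb2_ctrl_add hpw0 hp1 h1 h2) h4
  refine h5.mono ?_ ?_ ?_ ?_
  · intro I hI
    exact nb2_term_le Y hc0 cc I (hY.adm I hI) Xa sa Xb sb hdecA hdecB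
  · rw [Finset.sum_const, Finset.card_univ, nsmul_eq_mul, zero_add, zero_add]
    exact nb2_const_abs hCq hCN hM0 hε hcard
  · rw [Finset.sum_const_zero, add_zero]
    exact nb2_const_pow hY.K_pos hCw0 hSa hSb hcc hEf hpw0 hε
  · rw [Finset.sum_const, Finset.card_univ, nsmul_eq_mul]
    have hc' : ((Fintype.card (𝒞a × 𝒞b) : ℕ) : ℝ) ≤ (Na : ℝ) * Nb := by exact_mod_cast hcard
    have : ((Fintype.card (𝒞a × 𝒞b) : ℕ) : ℝ) * (ε / (2 * Na * Nb)) ≤ ε / 2 := by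
      rcases Nat.eq_zero_or_pos (Fintype.card (𝒞a × 𝒞b)) with h0 | h0
      · rw [h0]
        simp only [Nat.cast_zero, zero_mul]
        linarith
      · have hpos' : (1 : ℝ) ≤ (Na : ℝ) * Nb := le_trans (by exact_mod_cast h0) hc'
        rw [mul_div_assoc', div_le_div_iff₀ (by nlinarith) (by norm_num)]
        nlinarith
    linarith

end Claimed.Agent.R258
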