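/-
Row 258, Sec. 7.3, leaf [S7-PW] (prover helper254): proof of `PowerGoal` (stated in `S7/Abs.lean`).

First-crossing stops (`cell_crossing_stops`, thresholds `3 E / ε`) for the three partial path sums; on a retained chain
`∑ (A B C)^p ≤ ((∑ A²)(∑ B²)(∑ C²))^(p/2)` for `p ≥ 2/3` (normalisation + AM-GM, `pw_holder3`); chains to lengths by `cell_chain_bound`.
-/
import Claimed.Agent.R258.Pack009
import Claimed.Agent.R258.CellApi.Pack

set_option autoImplicit false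
open MeasureTheory

namespace Claimed.Agent.R258

/-- normalised form: `∑ x = ∑ y = ∑ z = 1`, `x, y, z ≥ 0`, `r ≥ 1/3`  ⟹  `∑ (x y z)^r ≤ 1`. -/
theorem pw_norm3 {ι : Type*} (T : Finset ι) (x y z : ι → ℝ) (hx : ∀ i ∈ T, 0 ≤ x i) (hy : ∀ i ∈ T, 0 ≤ y i)
    (hz : ∀ i ∈ T, 0 ≤ z i) (sx : ∑ i ∈ T, x i = 1) (sy : ∑ i ∈ T, y i = 1) (sz : ∑ i ∈ T, z i = 1)
    {r : ℝ} (hr : 1 / 3 ≤ r) : ∑ i ∈ T, (x i * y i * z i) ^ r ≤ 1 := by
  have hle1 : ∀ (w : ι → ℝ), (∀ i ∈ T, 0 ≤ w i) → ∑ i ∈ T, w i = 1 → ∀ i ∈ T, w i ≤ 1 := by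
    intro w hw sw i hi
    rw [← sw]
    exact Finset.single_le_sum hw hi
  have key : ∀ i ∈ T, (x i * y i * z i) ^ r ≤ (1 / 3) * x i + (1 / 3) * y i + (1 / 3) * z i := by
    intro i hi
    have h0 : 0 ≤ x i * y i * z i := mul_nonneg (mul_nonneg (hx i hi) (hy i hi)) (hz i hi)
    have h1 : x i * y i * z i ≤ 1 := by
      have a1 := hle1 x hx sx i hi
      have a2 := hle1 y hy sy i hi
      have a3 := hle1 z hz sz i hi
      calc x i * y i * z i ≤ 1 * 1 * 1 := by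
            apply mul_le_mul _ a3 (hz i hi) (by norm_num)
            exact mul_le_mul a1 a2 (hy i hi) (by norm_num)
        _ = 1 := by norm_num
    have h2 : (x i * y i * z i) ^ r ≤ (x i * y i * z i) ^ (1 / 3 : ℝ) :=
      Real.rpow_le_rpow_of_exponent_ge' h0 h1 (by norm_num) hr
    have h3 : (x i * y i * z i) ^ (1 / 3 : ℝ) = x i ^ (1 / 3 : ℝ) * y i ^ (1 / 3 : ℝ) * z i ^ (1 / 3 : ℝ) := by
      rw [Real.mul_rpow (mul_nonneg (hx i hi) (hy i hi)) (hz i hi), Real.mul_rpow (hx i hi) (hy i hi)]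
    have h4 := Real.geom_mean_le_arith_mean3_weighted (w₁ := 1 / 3) (w₂ := 1 / 3) (w₃ := 1 / 3)
      (by norm_num) (by norm_num) (by norm_num) (hx i hi) (hy i hi) (hz i hi) (by norm_num)
    linarith [h2, h3 ▸ h4]
  calc ∑ i ∈ T, (x i * y i * z i) ^ r ≤ ∑ i ∈ T, ((1 / 3) * x i + (1 / 3) * y i + (1 / 3) * z i) :=
        Finset.sum_le_sum key
    _ = 1 := by
        rw [Finset.sum_add_distrib, Finset.sum_add_distrib, ← Finset.mul_sum, ← Finset.mul_sum, ← Finset.mul_sum,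
          sx, sy, sz]
        norm_num

/-- three strong factors along a chain. -/
theorem pw_holder3 {ι : Type*} (T : Finset ι) (A B C : ι → ℝ) (hA : ∀ i, 0 ≤ A i) (hB : ∀ i, 0 ≤ B i)
    (hC : ∀ i, 0 ≤ C i) {p : ℝ} (hp : 2 / 3 ≤ p) :
    ∑ i ∈ T, (A i * B i * C i) ^ p
      ≤ ((∑ i ∈ T, A i ^ 2) * (∑ i ∈ T, B i ^ 2) * (∑ i ∈ T, C i ^ 2)) ^ (p / 2) := by
  have hp0 : 0 < p := by linarith
  set a := ∑ i ∈ T, A i ^ 2 with ha
  set b := ∑ i ∈ T, B i ^ 2 with hb
  set c := ∑ i ∈ T, C i ^ 2 with hc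
  have ha0 : 0 ≤ a := Finset.sum_nonneg fun i _ => sq_nonneg _
  have hb0 : 0 ≤ b := Finset.sum_nonneg fun i _ => sq_nonneg _
  have hc0 : 0 ≤ c := Finset.sum_nonneg fun i _ => sq_nonneg _
  have hvan : ∀ (w : ι → ℝ), ∑ i ∈ T, w i ^ 2 = 0 → ∀ i ∈ T, w i = 0 := by
    intro w hw i hi
    have := (Finset.sum_eq_zero_iff_of_nonneg (fun i _ => sq_nonneg (w i))).mp hw i hi
    exact pow_eq_zero_iff (two_ne_zero) |>.mp this
  have hrhs : 0 ≤ (a * b * c) ^ (p / 2) := Real.rpow_nonneg (mul_nonneg (mul_nonneg ha0 hb0) hc0) _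
  have hzero : (∀ i ∈ T, A i * B i * C i = 0) → ∑ i ∈ T, (A i * B i * C i) ^ p ≤ (a * b * c) ^ (p / 2) := by
    intro h
    rw [Finset.sum_eq_zero]
    · exact hrhs
    · intro i hi
      rw [h i hi, Real.zero_rpow hp0.ne']
  rcases eq_or_lt_of_le ha0 with h | ha1
  · exact hzero fun i hi => by rw [hvan A h.symm i hi]; ring
  rcases eq_or_lt_of_le hb0 with h | hb1
  · exact hzero fun i hi => by rw [hvan B h.symm i hi]; ring
  rcases eq_or_lt_of_le hc0 with h | hc1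
  · exact hzero fun i hi => by rw [hvan C h.symm i hi]; ring
  have hn := pw_norm3 T (fun i => A i ^ 2 / a) (fun i => B i ^ 2 / b) (fun i => C i ^ 2 / c)
    (fun i _ => div_nonneg (sq_nonneg _) ha0) (fun i _ => div_nonneg (sq_nonneg _) hb0)
    (fun i _ => div_nonneg (sq_nonneg _) hc0)
    (by rw [← Finset.sum_div, div_self ha1.ne']) (by rw [← Finset.sum_div, div_self hb1.ne'])
    (by rw [← Finset.sum_div, div_self hc1.ne']) (r := p / 2) (by linarith)
  have habc : 0 < a * b * c := mul_pos (mul_pos ha1 hb1) hc1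
  have hterm : ∀ i ∈ T, (A i * B i * C i) ^ p
      = (a * b * c) ^ (p / 2) * (A i ^ 2 / a * (B i ^ 2 / b) * (C i ^ 2 / c)) ^ (p / 2) := by
    intro i _
    have h0 : 0 ≤ A i * B i * C i := mul_nonneg (mul_nonneg (hA i) (hB i)) (hC i)
    rw [← Real.mul_rpow habc.le (mul_nonneg (mul_nonneg (div_nonneg (sq_nonneg _) ha0) (div_nonneg (sq_nonneg _) hb0))
      (div_nonneg (sq_nonneg _) hc0))]
    have h1 : a * b * c * (A i ^ 2 / a * (B i ^ 2 / b) * (C i ^ 2 / c)) = (A i * B i * C i) ^ (2 : ℕ) := by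
      field_simp
    rw [h1, ← Real.rpow_natCast, ← Real.rpow_mul h0]
    congr 1
    push_cast
    ring
  rw [Finset.sum_congr rfl hterm, ← Finset.mul_sum]
  calc (a * b * c) ^ (p / 2) * ∑ i ∈ T, (A i ^ 2 / a * (B i ^ 2 / b) * (C i ^ 2 / c)) ^ (p / 2)
      ≤ (a * b * c) ^ (p / 2) * 1 := mul_le_mul_of_nonneg_left hn hrhs
    _ = (a * b * c) ^ (p / 2) := mul_one _

open Classical in
/-- **[S7-PW]** -/
theorem s7_powerGoal : PowerGoal := by
  intro R cells hcells A B C hA hB hC Ea Eb Ec hEa hEb hEc sA sB sC ε hε hε1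
  have hε3 : 0 < ε / 3 := by linarith
  have hε31 : ε / 3 < 1 := by linarith
  obtain ⟨stA, -, hstA, hrA⟩ := cell_crossing_stops hcells (a := fun I => A I ^ 2) (fun I _ => sq_nonneg _) hEa hε3 hε31 sA
  obtain ⟨stB, -, hstB, hrB⟩ := cell_crossing_stops hcells (a := fun I => B I ^ 2) (fun I _ => sq_nonneg _) hEb hε3 hε31 sB
  obtain ⟨stC, -, hstC, hrC⟩ := cell_crossing_stops hcells (a := fun I => C I ^ 2) (fun I _ => sq_nonneg _) hEc hε3 hε31 sC
  have hdiv : ∀ E : ℝ, E / (ε / 3) = 3 * E / ε := by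
    intro E
    field_simp
  rw [hdiv] at hrA hrB hrC
  have hretA : ∀ I, Retained (stA ∪ stB ∪ stC) I → cellRetained stA I := fun I h K hK =>
    h K (Finset.mem_union_left _ (Finset.mem_union_left _ hK))
  have hretB : ∀ I, Retained (stA ∪ stB ∪ stC) I → cellRetained stB I := fun I h K hK =>
    h K (Finset.mem_union_left _ (Finset.mem_union_right _ hK))
  have hretC : ∀ I, Retained (stA ∪ stB ∪ stC) I → cellRetained stC I := fun I h K hK =>
    h K (Finset.mem_union_right _ hK)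
  refine ⟨stA ∪ stB ∪ stC, ⟨?_, ?_⟩, ?_, ?_⟩
  · intro S hS
    rcases Finset.mem_union.mp hS with h | h
    · rcases Finset.mem_union.mp h with h | h
      · exact (hstA.lt S h).le
      · exact (hstB.lt S h).le
    · exact (hstC.lt S h).le
  · have hnn : ∀ (s : Finset Cell), ∀ S ∈ s, 0 ≤ S.len := fun s S _ => cell_len_nonneg S
    have h1 : ∑ S ∈ stA ∪ stB ∪ stC, S.len ≤ ∑ S ∈ stA ∪ stB, S.len + ∑ S ∈ stC, S.len := by
      rw [← Finset.sum_union_inter]
      exact le_add_of_nonneg_right (Finset.sum_nonneg (hnn _))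
    have h2 : ∑ S ∈ stA ∪ stB, S.len ≤ ∑ S ∈ stA, S.len + ∑ S ∈ stB, S.len := by
      rw [← Finset.sum_union_inter]
      exact le_add_of_nonneg_right (Finset.sum_nonneg (hnn _))
    have := hstA.len
    have := hstB.len
    have := hstC.len
    nlinarith
  · intro I hI hret
    have hmem : I ∈ cells.filter (fun J => I ≤ J) := Finset.mem_filter.mpr ⟨hI, le_refl I⟩
    refine ⟨?_, ?_, ?_⟩
    · exact (Finset.single_le_sum (f := fun J => A J ^ 2) (fun J _ => sq_nonneg _) hmem).trans (hrA I (hretA I hret))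
    · exact (Finset.single_le_sum (f := fun J => B J ^ 2) (fun J _ => sq_nonneg _) hmem).trans (hrB I (hretB I hret))
    · exact (Finset.single_le_sum (f := fun J => C J ^ 2) (fun J _ => sq_nonneg _) hmem).trans (hrC I (hretC I hret))
  · intro p hp _
    have hbound : 0 ≤ 27 * Ea * Eb * Ec / ε ^ 3 := by positivity
    refine cell_chain_bound (J := R) (S := cells.filter (Retained (stA ∪ stB ∪ stC)))
      (fun I hI => hcells I (Finset.mem_filter.mp hI).1) (fun I => (A I * B I * C I) ^ p)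
      (Real.rpow_nonneg hbound _) ?_
    intro L hL
    have hLret := (Finset.mem_filter.mp hL).2
    set T := (cells.filter (Retained (stA ∪ stB ∪ stC))).filter (fun I => L ≤ I) with hT
    have hsub : T ⊆ cells.filter (fun J => L ≤ J) := by
      intro I hI
      have h1 := Finset.mem_filter.mp hI
      exact Finset.mem_filter.mpr ⟨(Finset.mem_filter.mp h1.1).1, h1.2⟩
    have hsA : ∑ I ∈ T, A I ^ 2 ≤ 3 * Ea / ε :=
      (Finset.sum_le_sum_of_subset_of_nonneg hsub fun I _ _ => sq_nonneg _).trans (hrA L (hretA L hLret))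
    have hsB : ∑ I ∈ T, B I ^ 2 ≤ 3 * Eb / ε :=
      (Finset.sum_le_sum_of_subset_of_nonneg hsub fun I _ _ => sq_nonneg _).trans (hrB L (hretB L hLret))
    have hsC : ∑ I ∈ T, C I ^ 2 ≤ 3 * Ec / ε :=
      (Finset.sum_le_sum_of_subset_of_nonneg hsub fun I _ _ => sq_nonneg _).trans (hrC L (hretC L hLret))
    have ha0 : 0 ≤ ∑ I ∈ T, A I ^ 2 := Finset.sum_nonneg fun i _ => sq_nonneg _
    have hb0 : 0 ≤ ∑ I ∈ T, B I ^ 2 := Finset.sum_nonneg fun i _ => sq_nonneg _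
    have hc0 : 0 ≤ ∑ I ∈ T, C I ^ 2 := Finset.sum_nonneg fun i _ => sq_nonneg _
    refine (pw_holder3 T A B C hA hB hC hp).trans ?_
    refine Real.rpow_le_rpow (mul_nonneg (mul_nonneg ha0 hb0) hc0) ?_ (by linarith)
    calc (∑ I ∈ T, A I ^ 2) * (∑ I ∈ T, B I ^ 2) * (∑ I ∈ T, C I ^ 2)
        ≤ (3 * Ea / ε) * (3 * Eb / ε) * (3 * Ec / ε) := by
          apply mul_le_mul _ hsC hc0 (by positivity)
          exact mul_le_mul hsA hsB hb0 (by positivity)
      _ = 27 * Ea * Eb * Ec / ε ^ 3 := by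
          field_simp
          ring

end Claimed.Agent.R258
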