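/-
Row 258, Prop. 7.5 + Sec. 8.8 + Sec. 10.2 (home architect: helper244).  BLOCK [S7-ASM]: THE ESTIMATE OF ONE LEAF ON THE RETAINED CELLS.   DEFINITIONS (the theorem `leafGoal_of` is in S7/Side.lean, its proof in S7/Asm*.lean).

`SideSys` = what the assembly CONSUMES about one leaf of one attempt (abstract: no catalogs, no colours, no modes):
  the localized arguments `Z l G I` at the uses, their decomposition `Z = A + S + E` (core, side, error whose PHYSICAL part is small),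
  the basic arguments `Bb, Uu` (`Y = Bb + Uu` pair-small), and for every role assignment `e` (roles 0,1 = the two sides `a,b`;
  roles 2,3 = two basic-`B` slots `c,d`) the OUTPUT of Lemma 6.9 (`Transfer`): main terms, near-band terms, far errors.
`SideSys.Valid` = budgets.  Two kinds of constants:
  * POLYNOMIAL budget `Pi ≥ 1`: dominates everything that may cost a power of `P` and `k`;
  * STRONG constants (small overhead `G_0`): `nNear, Na, Nb, Ea / P, Eb, cc, log M0`: they enter (19) at the power one.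
`LeafGoal`: from `Valid`, the core estimate of Sec. 9 (hypothesis `core`), `NearGoal`, `PowerGoal` to a `Ctrl` statement for
  `I ↦ ‖∑_{G used at I} H_I(Z_{0,G,I}, …, Z_{3,G,I})‖`.

PROOF PLAN (complete bookkeeping; everything is multilinearity `s5f_multilinear` + `Ctrl.sum`/`Ctrl.mono` + S7/Terms.lean):
 expand `Z = A + S + E` in the four slots: 81 patterns.
 (E)  65 patterns contain an `E`: `s7_err` (role 0 = the first slot with `E`); physical sizes of the other roles: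
      `n2p A ≤ cA + yA`, `n2p S ≤ n2 S`, `n2p E = n2p (Z - A - S) ≤ cZ + cA + yA + n2 S`.
 (C)  5 patterns with at most one `S` and no `E`: hypothesis `core`.
 (S3) 5 patterns with at least three `S`: `s7_three`, fourth role `A` (`cA + yA`) or `S`.
 (S2) 6 patterns with exactly two `S` (slots `a,b`), cores in `c,d`: zero if `c` or `d` is the basic-`U` slot (`A = 0`); otherwise
      `H(S,S,A_c,A_d) = H(S,S,Z_c,Z_d) - H(S,S,S_c+E_c,Z_d) - H(S,S,A_c,S_d+E_d)`: corrections by `s7_three`, `s7_err`;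
      `H(S_a,S_b,Z_c,Z_d)`: `Transfer.ident`:
        main terms: `H(D S_a,S_b,B_c,B_d) = H(·,·,Y_c,Y_d) - H(·,·,U_c,Y_d) - H(·,·,B_c,U_d)`: `s7_pair`, `s7_three` (third strong factor `n2 (Uu)`, shared);
        far errors: Cauchy-Schwarz, absolute;   near terms: `NearGoal`, coefficient `≤ 2/P`.
-/
import Claimed.Agent.R258.Pack007

set_option autoImplicit false
open MeasureTheory

namespace Claimed.Agent.R258

open Classical

/-- the data of one leaf of one attempt, as consumed by the assembly -/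
structure SideSys where
  R : Cell
  K : ℕ
  P : ℕ
  cells : Finset Cell
  w : Cell → ℝ × ℝ → ℂ
  grps : Finset ℕ
  uses : Finset (ℕ × Cell)
  isB : Fin 4 → Bool
  Z : Fin 4 → ℕ → Cell → XV
  A : Fin 4 → ℕ → Cell → XV
  S : Fin 4 → ℕ → Cell → XV
  E : Fin 4 → ℕ → Cell → XV
  Bb : Fin 4 → Cell → XV
  Uu : Fin 4 → Cell → XV

/-- the output of Lemma 6.9 for one role assignment -/
structure Transfer (Y : SideSys) (e : Fin 4 ≃ Fin 4) where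
  nMain : ℕ
  sgM : Fin nMain → ℂ
  /-- `𝒟^σ_{G,I}` -/
  Dm : Fin nMain → ℕ → Cell → XV →L[ℂ] XV
  nNear : ℕ
  coef : Fin nNear → ℂ
  /-- number of band indices -/
  nb : ℕ
  /-- role assignment of the near term (the roles 2,3 may be exchanged) -/
  eN : Fin nNear → Fin 4 ≃ Fin 4
  xa : Fin nNear → ℕ → Cell → Fin nb → XV
  Cg : Fin nNear → ℕ → ℕ → Fin nb → XV
  Dg : Fin nNear → ℕ → ℕ → XV
  err : ℕ → Cell → ℂ

namespace Transfer
variable {Y : SideSys} {e : Fin 4 ≃ Fin 4} (τ : Transfer Y e)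

/-- the near-band data of the term `t` -/
def near (t : Fin τ.nNear) : NearData (Fin τ.nb) where
  R := Y.R
  K := Y.K
  cells := Y.cells
  w := Y.w
  grps := Y.grps
  uses := Y.uses
  e := τ.eN t
  xa := τ.xa t
  xb := Y.S (e.symm 1)
  Cg := τ.Cg t
  Dg := τ.Dg t

/-- the properties of a transfer -/
structure Ok (c0 C0 : ℝ) (Ntr Na Nb : ℕ) (Ea Eb Pi cc M0 far : ℝ) : Prop where
  nMain_le : τ.nMain ≤ Ntr
  nNear_le : τ.nNear ≤ Ntr
  sgM_le : ∀ σ, ‖τ.sgM σ‖ ≤ 1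
  coef_le : ∀ t, ‖τ.coef t‖ ≤ 2 / (Y.P : ℝ)
  Dm_le : ∀ σ G I x, n2 I (τ.Dm σ G I x) ≤ n2 I x
  /-- the exact identity of Lemma 6.9 at every use -/
  ident : ∀ u ∈ Y.uses,
    formV u.2 (Y.w u.2) (placeV e (Y.S (e.symm 0) u.1 u.2) (Y.S (e.symm 1) u.1 u.2) (Y.Z (e.symm 2) u.1 u.2) (Y.Z (e.symm 3) u.1 u.2))
      = ∑ σ, τ.sgM σ * formV u.2 (Y.w u.2)
            (placeV e (τ.Dm σ u.1 u.2 (Y.S (e.symm 0) u.1 u.2)) (Y.S (e.symm 1) u.1 u.2) (Y.Bb (e.symm 2) u.2) (Y.Bb (e.symm 3) u.2))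
        + ∑ t, τ.coef t * ∑ p, formV u.2 (Y.w u.2)
            (placeV (τ.eN t) (τ.xa t u.1 u.2 p) (Y.S (e.symm 1) u.1 u.2) (τ.Cg t u.1 (s7Rel Y.R u.2) p) (τ.Dg t u.1 (s7Rel Y.R u.2)))
        + τ.err u.1 u.2
  /-- the far bands -/
  far_le : ∀ u ∈ Y.uses, ‖τ.err u.1 u.2‖ ≤ far * n2 u.2 (Y.S (e.symm 0) u.1 u.2) * n2 u.2 (Y.S (e.symm 1) u.1 u.2)
  /-- the hypotheses of [S7-NB2] for every near term; the polynomial budget `Pi` bounds the sizes and the freeze budget -/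
  near_hyp : ∀ t, (τ.near t).Hyp c0 C0 Na Nb Ea Eb Pi Pi cc Pi M0

end Transfer

namespace SideSys
variable (Y : SideSys)

/-- the leaf quantity -/
noncomputable def leaf (I : Cell) : ℝ := ‖gsum Y.uses Y.w Y.Z I‖

/-- the arguments of a core/side pattern (`true` = side) -/
def patArg (c : Fin 4 → Bool) : Fin 4 → ℕ → Cell → XV := fun l => if c l then Y.S l else Y.A l

/-- the hypotheses -/
structure Valid (c0 C0 η : ℝ) (Ntr Na Nb : ℕ) (Ea Eb Pi cc M0 far small : ℝ) : Prop where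
  K_pos : 1 ≤ Y.K
  P_pos : 1 ≤ Y.P
  cells_le : ∀ I ∈ Y.cells, I ≤ Y.R
  adm : ∀ I ∈ Y.cells, Admissible c0 C0 I (Y.w I)
  uses_sub : ∀ u ∈ Y.uses, u.1 ∈ Y.grps ∧ u.2 ∈ Y.cells
  split : ∀ l, ∀ u ∈ Y.uses, Y.Z l u.1 u.2 = Y.A l u.1 u.2 + Y.S l u.1 u.2 + Y.E l u.1 u.2
  isU : ∀ l, Y.isB l = false → ∀ G I, Y.A l G I = 0 ∧ Y.E l G I = 0
  Pi_ge : 1 ≤ Pi
  K_le : (Y.K : ℝ) ≤ Pi
  Ntr_le : (Ntr : ℝ) ≤ Pi
  cc_le : cc ≤ Pi
  pos : 0 < cc ∧ 0 ≤ Ea ∧ 0 ≤ Eb ∧ 1 ≤ M0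
  /-- bounded current arguments -/
  Z_le : ∀ l, ∀ u ∈ Y.uses, n2 u.2 (Y.Z l u.1 u.2) ≤ Pi
  /-- side square budgets -/
  S_bud : ∀ l, ∑ u ∈ Y.uses, ‖restr u.2.set (Y.S l u.1 u.2)‖ ^ 2 ≤ Pi * Y.R.len
  /-- core sizes: bounded plus a square budget -/
  A_le : ∃ yA : Fin 4 → ℕ → Cell → ℝ, (∀ l G I, 0 ≤ yA l G I) ∧
    (∀ l, ∀ u ∈ Y.uses, n2 u.2 (Y.A l u.1 u.2) ≤ Pi + yA l u.1 u.2) ∧
    ∀ l, ∑ u ∈ Y.uses, u.2.len * yA l u.1 u.2 ^ 2 ≤ Pi * Y.R.len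
  /-- physical errors -/
  E_small : ∀ l, ∑ u ∈ Y.uses, u.2.len * n2p u.2 (Y.E l u.1 u.2) ^ 2 ≤ small * Y.R.len
  small_nn : 0 ≤ small
  /-- number of uses over a point -/
  mult : ∀ y : ℝ, ((Y.uses.filter fun u => y ∈ u.2.set).card : ℝ) ≤ M0
  /-- the basic arguments -/
  Bb_le : ∀ l, ∀ I ∈ Y.cells, n2 I (Y.Bb l I) ≤ 2
  Uu_le : ∀ l, ∀ I ∈ Y.cells, n2 I (Y.Uu l I) ≤ 1
  Uu_bud : ∀ l, ∑ I ∈ Y.cells, ‖restr I.set (Y.Uu l I)‖ ^ 2 ≤ Pi * Y.R.len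
  pair : ∀ I ∈ Y.cells, ∀ l l' : Fin 4, l ≠ l' → PairSmall I (Y.w I) l l' (Y.Bb l I + Y.Uu l I) (Y.Bb l' I + Y.Uu l' I) η
  η_nn : 0 ≤ η
  far_nn : 0 ≤ far
  /-- Lemma 6.9 for all role assignments whose roles 2,3 are basic-`B` slots -/
  transfer : ∀ e : Fin 4 ≃ Fin 4, Y.isB (e.symm 2) = true → Y.isB (e.symm 3) = true →
    ∃ τ : Transfer Y e, τ.Ok c0 C0 Ntr Na Nb Ea Eb Pi cc M0 far

end SideSys

/-- **[S7-ASM]** the estimate of one leaf on the retained cells (Prop. 7.5 + Sec. 10.2).  `XcA, XcP` = the bounds of the core estimate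
(Prop. 9.3) at accuracy `ε / 100`. -/
def LeafGoal (c0 C0 : ℝ) : Prop :=
  ∃ C : ℝ, 0 < C ∧ ∀ q : ℝ, 2 < q → q < 3 → ∃ Cq : ℝ, 0 < Cq ∧
  ∀ (N : ℕ) (CN : ℝ) (s0 : ℤ), 0 ≤ CN → LocalBound c0 C0 q N CN →
  ∀ (Y : SideSys) (η : ℝ) (Ntr Na Nb : ℕ) (Ea Eb Pi cc M0 far small : ℝ),
    Y.Valid c0 C0 η Ntr Na Nb Ea Eb Pi cc M0 far small → (∀ I ∈ Y.cells, s0 ≤ I.depth ∧ I.depth < s0 + N) →
  ∀ pw ε XcA XcP : ℝ, 2 / 3 ≤ pw → pw ≤ 1 → 0 < ε → ε < 1 → 0 ≤ XcA → 0 ≤ XcP →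
    (∀ c : Fin 4 → Bool, (Finset.univ.filter fun l => c l = true).card ≤ 1 →
      Ctrl Y.R Y.cells (fun I => ‖gsum Y.uses Y.w (Y.patArg c) I‖) XcA XcP pw (ε / 100)) →
    Ctrl Y.R Y.cells Y.leaf
      (C * (Pi / ε) ^ C * (Real.sqrt (M0 * small) + η + far)
        + 6 * Ntr * (2 / (Y.P : ℝ)) * nearAbs C Cq q CN Y.K Na Nb Ea Eb cc M0 (ε / (100 * (Ntr + 1))) + 5 * XcA)
      (C * (Pi / ε) ^ C + 5 * XcP) pw ε

end Claimed.Agent.R258
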